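/-
Row 269, P1 Section 6.4, first paragraph ("real no-patch transfer"): PACKAGE WIDTH.   Blueprint: helper218.
NO PAPER READING NEEDED.  Export: `Shape.s6_passage_width` = `Shape.passage_width` (Stage3.lean) = `Shape.s9i_passage_width` (S9/Imports.lean), verbatim.
Tools: Lib/Mero2.lean (`Mero2On.eqAt_of_isPreconnected`, `Mero2At.eqAt_of_eventuallyEq`, `DifferentiableOn.mero2On`), Lib/SCV0.lean (`SCV.analyticOnNhd_of_differentiableOn`), S9/PassageMax.lean (`s9k_eq_lift`).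

W0 `Glance.s6w_basic`.  `ExtendsTo X0 t s` with `V = ball 0 r₁`, `F = X0`: for `|Im y| < s`, `‖t‖ < r₁ < s` the points `y ± t/2` lie in `hstrip (2s)`, the mean of the two angles lies in the convex set `hstrip σ`, `hc` and `deriv hc` are
   differentiable on the open set `hstrip σ`; so both components of `X0` are differentiable on the open set `hstrip s ×ˢ ball 0 r₁`, hence `Mero2On`.  `le_sSup`.
W1 `Shape.s6w_nonconst`.  Suppose `S = c` near `z = (y,t)`; `η` from `attached`, `b = ⟨Re y, η⟩`.  `u ↦ S (u,t)` is analytic at every point of the vertical segment `[b,y]` (preconnected), `= c` near `y`: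
   `AnalyticOnNhd.eqOn_of_preconnected_of_eventuallyEq`; so it equals `c` near `b` (if `η < Im y`: `AnalyticAt.frequently_eq_iff_eventually_eq`).  Hence `lift (·,t) = c` near `b`.  The fibre `{u | (u,t) ∈ T}` is open and convex
   (a horizontal band), `lift (·,t)` is analytic on it: `lift (u,t) = c` on the fibre; `b + 2π` belongs to the fibre and `lift (b + 2π,t) = c + 2π` (`lift_per`).  Contradiction.
W2 `Shape.s6w_mero`.  `z ∈ R`, `s₀ = S z ∈ D`.  `Γ_mero` at `s₀`: `∃ n`, `g s = (s - s₀)^n • (Γ s).1` analytic at `s₀`.  `S` is analytic at `z`.  Numerator `g ∘ S`, denominator `k = (S - s₀)^n`, not `≡ 0` near `z` by W1.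
W3 `Shape.s6_passage_width`.  By contradiction: `hX t₀ ≤ ofReal (Im y)`.  `b₁ = (hX t₀).toReal`, `s ≤ b₁ ≤ Im y` (W0), `ofReal b₁ = hX t₀`.  `η` from `attached`: `ofReal η < hX t₀` so `η < b₁`; `y₁ = ⟨Re y, b₁⟩`, `(y₁,t₀) ∈ R`.
   `R` open: `ball y₁ ε ×ˢ ball t₀ ε ⊆ R`.  `P = Γ ∘ S`, `Mero2On₂` by W2.  By `lt_sSup_iff` there is `b' > max (b₁ - ε) (s/2)` with `ExtendsTo X0 t₀ b'` (and `b' ≤ b₁`); pick `b` with `max (b₁ - ε) (s/2) < b < b'`... (`IsPrimaryExt` is monotone: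
   smaller `b`, smaller open `V`); so `b < b₁`.  `lsc_X` at `t₀` (and W0 for `conj t`): `∃ ε' ≤ ε`, `ball t₀ ε' ⊆ V ∩ ball 0 ρ`, `ofReal b < hX t` on it; then `U = hband (-(s/2)) b ×ˢ ball t₀ ε' ⊆ T`, `U` convex.
   On `U`: `F` is `Mero2On₂`, `Γ ∘ lift` is `Mero2On₂` (W2 for the passage `s9k_tube`), and they coincide on the open set `hstrip (s/4) ×ˢ ball t₀ ε'` (`agrees`, `lift_base`, `Γ_base`).  Identity theorem: same germs on `U`.
   `Γ ∘ S = Γ ∘ lift` on the open set `R ∩ T` (`s9k_eq_lift`).  This is a `JointPatchAt X0 y₁ t₀` (with `V := ball t₀ ε'`); `no_patch_X t₀ (param) y₁`.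
-/
import Claimed.Agent.R269.S9.PassageMax
import Claimed.Agent.R269.Lib.Mero2
import Claimed.Agent.R269.S5.LiftWidth

set_option autoImplicit false

namespace Claimed.Agent.R269

open Complex Filter Topology Set Metric
open scoped ENNReal Real

/-- W0: the basic width (= `Glance.le_hX`, S5/LiftWidth.lean, leaf LF-S5d-width). -/
theorem Glance.s6w_basic (G : Glance) (t : ℂ) (ht : t ∈ ball (0 : ℂ) G.r₁) :
    ENNReal.ofReal G.s ≤ G.hX t := G.le_hX ht

/-- a meromorphic function of one variable composed with a nowhere locally constant analytic function. -/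
theorem s6w_mero_comp {m : ℂ → ℂ} {S : ℂ × ℂ → ℂ} {z : ℂ × ℂ} (hm : MeromorphicAt m (S z))
    (hS : AnalyticAt ℂ S z) (hnc : ¬ ∀ᶠ w in 𝓝 z, S w = S z) : Mero2At (fun w => m (S w)) z := by
  obtain ⟨n, hn⟩ := hm
  refine ⟨fun w => (S w - S z) ^ n • m (S w), fun w => (S w - S z) ^ n, ?_, ?_, ?_, ?_⟩
  · exact hn.comp (f := S) hS
  · exact (hS.sub analyticAt_const).pow n
  · intro h
    refine hnc (h.mono fun w hw => ?_)
    exact sub_eq_zero.1 (eq_zero_of_pow_eq_zero hw)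
  · refine Eventually.of_forall fun w hw => ?_
    simp only at hw ⊢
    rw [smul_eq_mul, mul_div_cancel_left₀ _ hw]

theorem s6w_hband_convex (a b : ℝ) : Convex ℝ (hband a b) := by
  have : hband a b = Complex.imLm ⁻¹' (Ioo a b) := by
    ext u; rfl
  rw [this]
  exact (convex_Ioo a b).linear_preimage _

namespace Shape

variable (Sh : Shape)

/-- the fibre of the tube over a parameter is convex. -/
theorem s6w_fibre_convex (t : ℂ) : Convex ℝ ((fun u : ℂ => (u, t)) ⁻¹' Sh.T) := by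
  set J : Set ℝ := {τ | t ∈ ball (0 : ℂ) Sh.ρ ∧ ENNReal.ofReal τ < Sh.G.hX t ∧
    ENNReal.ofReal (-τ) < Sh.G.hX ((starRingEnd ℂ) t)} with hJ
  have hJc : J.OrdConnected := by
    refine ⟨fun a ha b hb τ hτ => ⟨ha.1, ?_, ?_⟩⟩
    · exact lt_of_le_of_lt (ENNReal.ofReal_le_ofReal hτ.2) hb.2.1
    · exact lt_of_le_of_lt (ENNReal.ofReal_le_ofReal (neg_le_neg hτ.1)) ha.2.2
  have : ((fun u : ℂ => (u, t)) ⁻¹' Sh.T) = Complex.imLm ⁻¹' J := by
    ext u
    rfl
  rw [this]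
  exact hJc.convex.linear_preimage _

/-- LEAF W1: a passage is nowhere locally constant. -/
theorem s6w_nonconst {R : Set (ℂ × ℂ)} {S : ℂ × ℂ → ℂ} (hP : Sh.IsPassage R S) (z : ℂ × ℂ) (hz : z ∈ R)
    (c : ℂ) : ¬ ∀ᶠ w in 𝓝 z, S w = c := by
  intro hc
  obtain ⟨y, t⟩ := z
  obtain ⟨η, hη, hseg, hT, heq⟩ := hP.attached (y, t) hz
  simp only at hη hseg hT heq
  set ι : ℂ → ℂ × ℂ := fun u => (u, t) with hι
  have hιc : Continuous ι := by fun_prop
  have hιd : Differentiable ℂ ι := by fun_prop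
  set U : Set ℂ := ι ⁻¹' R with hU
  have hUo : IsOpen U := hP.isOpen.preimage hιc
  have hA : AnalyticOnNhd ℂ (S ∘ ι) U :=
    (hP.diff.comp hιd.differentiableOn (fun w hw => hw)).analyticOnNhd hUo
  set γ : ℝ → ℂ := fun τ => (⟨y.re, τ⟩ : ℂ) with hγ
  have hγc : Continuous γ := by
    have : γ = fun τ : ℝ => (y.re : ℂ) + τ * I := by
      funext τ; apply Complex.ext <;> simp [hγ]
    rw [this]; fun_prop
  have htop : γ y.im = y := Complex.eta y
  set σ : Set ℂ := γ '' Icc η y.im with hσ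
  have hσU : σ ⊆ U := by
    rintro _ ⟨τ, hτ, rfl⟩; exact hseg τ hτ
  have hσc : IsPreconnected σ := isPreconnected_Icc.image _ hγc.continuousOn
  have hev_top : (S ∘ ι) =ᶠ[𝓝 y] fun _ => c := (hιc.tendsto y).eventually hc
  have hyσ : y ∈ σ := ⟨y.im, ⟨hη, le_rfl⟩, htop⟩
  have hσeq : EqOn (S ∘ ι) (fun _ => c) σ :=
    (hA.mono hσU).eqOn_of_preconnected_of_eventuallyEq analyticOnNhd_const hσc hyσ hev_top
  have hcomp : Continuous fun τ : ℝ => ι (γ τ) := hιc.comp hγc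
  have h1 : ∀ᶠ τ in 𝓝[>] η, S (γ τ, t) = c := by
    rcases hη.lt_or_eq with h | h
    · filter_upwards [Ioc_mem_nhdsGT h] with τ hτ
      exact hσeq ⟨τ, ⟨hτ.1.le, hτ.2⟩, rfl⟩
    · have h3 : Tendsto (fun τ : ℝ => ι (γ τ)) (𝓝 η) (𝓝 (y, t)) := by
        have := hcomp.tendsto η
        rwa [show ι (γ η) = (y, t) by rw [h, htop]] at this
      exact (h3.eventually hc).filter_mono nhdsWithin_le_nhds
  have h2 : ∀ᶠ τ in 𝓝[>] η, S (γ τ, t) = Sh.lift (γ τ, t) :=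
    ((hcomp.tendsto η).eventually heq).filter_mono nhdsWithin_le_nhds
  have h3 : ∃ᶠ u in 𝓝[≠] (γ η), (Sh.lift ∘ ι) u = (fun _ => c) u := by
    have ht : Tendsto γ (𝓝[>] η) (𝓝[≠] (γ η)) := by
      refine tendsto_nhdsWithin_iff.2 ⟨(hγc.tendsto η).mono_left nhdsWithin_le_nhds, ?_⟩
      filter_upwards [self_mem_nhdsWithin] with τ hτ
      intro hcon
      have : τ = η := by simpa [hγ] using congrArg Complex.im hcon
      exact (ne_of_gt hτ) this
    refine ht.frequently (Eventually.frequently ?_)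
    filter_upwards [h1, h2] with τ a b
    simp only [Function.comp, hι]
    rw [← b, a]
  set F : Set ℂ := ι ⁻¹' Sh.T with hF
  have hFo : IsOpen F := Sh.s9k_T_open.preimage hιc
  have hFc : IsPreconnected F := (Sh.s6w_fibre_convex t).isPreconnected
  have hL : AnalyticOnNhd ℂ (Sh.lift ∘ ι) F :=
    (Sh.lift_diff.comp hιd.differentiableOn (fun w hw => hw)).analyticOnNhd hFo
  have hall : EqOn (Sh.lift ∘ ι) (fun _ => c) F :=
    hL.eqOn_of_preconnected_of_frequently_eq analyticOnNhd_const hFc hT h3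
  have hb2 : γ η + 2 * π ∈ F := by
    refine ⟨hT.1, ?_, ?_⟩
    · have : (γ η + 2 * π).im = (γ η).im := by simp
      simp only [hι]
      rw [this]; exact hT.2.1
    · have : (γ η + 2 * π).im = (γ η).im := by simp
      simp only [hι]
      rw [this]; exact hT.2.2
  have hper := Sh.lift_per (γ η, t) hT
  have e1 : Sh.lift (γ η + 2 * π, t) = c := hall hb2
  have e2 : Sh.lift (γ η, t) = c := hall hT
  simp only at hper
  rw [e1, e2] at hper
  have : (2 * π : ℂ) = 0 := by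
    have := hper
    linear_combination -this
  have h2pi : (2 * π : ℂ) ≠ 0 := by
    simp [Real.pi_ne_zero]
  exact h2pi this

/-- LEAF W2: the curve composed with a passage is jointly meromorphic. -/
theorem s6w_mero {R : Set (ℂ × ℂ)} {S : ℂ × ℂ → ℂ} (hP : Sh.IsPassage R S) :
    Mero2On₂ (fun z => Sh.Γ (S z)) R := by
  have hA : AnalyticOnNhd ℂ S R := SCV.analyticOnNhd_of_differentiableOn hP.isOpen hP.diff
  refine ⟨fun z hz => ?_, fun z hz => ?_⟩
  · exact s6w_mero_comp (m := fun s => (Sh.Γ s).1) (Sh.Γ_mero.1 _ (hP.mem z hz)) (hA z hz)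
      (Sh.s6w_nonconst hP z hz _)
  · exact s6w_mero_comp (m := fun s => (Sh.Γ s).2) (Sh.Γ_mero.2 _ (hP.mem z hz)) (hA z hz)
      (Sh.s6w_nonconst hP z hz _)

/-- LEAF W3: **real no-patch transfer**: a passage at a REAL parameter gives a lower bound for the width. -/
theorem s6_passage_width {R : Set (ℂ × ℂ)} {S : ℂ × ℂ → ℂ} (hP : Sh.IsPassage R S) (t₀ : ℝ) (y : ℂ)
    (hy : (y, (t₀ : ℂ)) ∈ R) : ENNReal.ofReal y.im < Sh.G.hX t₀ := by
  by_contra hcon
  rw [not_lt] at hcon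
  have hs : 0 < Sh.G.s := Sh.G.r₁_pos.trans Sh.G.r₁_lt
  have htρ : (t₀ : ℂ) ∈ ball (0 : ℂ) Sh.ρ := hP.param _ hy
  have htr : (t₀ : ℂ) ∈ ball (0 : ℂ) Sh.G.r₁ := ball_subset_ball Sh.ρ_le htρ
  have hfin : Sh.G.hX t₀ ≠ ⊤ := ne_top_of_le_ne_top ENNReal.ofReal_ne_top hcon
  set b₁ : ℝ := (Sh.G.hX t₀).toReal with hb₁
  have hb₁e : ENNReal.ofReal b₁ = Sh.G.hX t₀ := ENNReal.ofReal_toReal hfin
  have hb₁0 : 0 ≤ b₁ := ENNReal.toReal_nonneg
  have hsb : Sh.G.s ≤ b₁ := by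
    have := Sh.G.s6w_basic _ htr
    rw [← hb₁e] at this
    exact (ENNReal.ofReal_le_ofReal_iff hb₁0).1 this
  have hb₁p : 0 < b₁ := hs.trans_le hsb
  have hby : b₁ ≤ y.im := by
    rw [← hb₁e] at hcon
    rcases (ENNReal.ofReal_le_ofReal_iff').1 hcon with h | h
    · exact h
    · exact absurd h (not_le.2 hb₁p)
  obtain ⟨η, hη, hseg, hT, -⟩ := hP.attached _ hy
  simp only at hη hseg hT
  have hηb : η < b₁ := by
    have := hT.2.1
    simp only at this
    rw [← hb₁e] at this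
    exact (ENNReal.ofReal_lt_ofReal_iff hb₁p).1 this
  set y₁ : ℂ := ⟨y.re, b₁⟩ with hy₁
  have hy₁R : (y₁, (t₀ : ℂ)) ∈ R := hseg b₁ ⟨hηb.le, hby⟩
  obtain ⟨ε, hε, hεR⟩ := Metric.isOpen_iff.1 hP.isOpen _ hy₁R
  rw [← ball_prod_same] at hεR
  -- a primary extension
  have hlt : ENNReal.ofReal (max (b₁ - ε) (Sh.G.s / 2)) < Sh.G.hX t₀ := by
    rw [← hb₁e]
    refine (ENNReal.ofReal_lt_ofReal_iff hb₁p).2 (max_lt (by linarith) (by linarith))
  obtain ⟨w, ⟨b, hbs, ⟨V, F, htV, hF⟩, rfl⟩, hwb⟩ := lt_sSup_iff.1 hlt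
  have hb0 : 0 < b := by linarith
  have hbmax : max (b₁ - ε) (Sh.G.s / 2) < b := (ENNReal.ofReal_lt_ofReal_iff hb0).1 hwb
  have hwidth : ∀ t ∈ V, ENNReal.ofReal b ≤ Sh.G.hX t := fun t ht =>
    le_sSup ⟨b, hbs, ⟨V, F, ht, hF⟩, rfl⟩
  have hbb₁ : b ≤ b₁ := by
    have := hwidth _ htV
    rw [← hb₁e] at this
    exact (ENNReal.ofReal_le_ofReal_iff hb₁0).1 this
  obtain ⟨ε', hε', hε'V⟩ := Metric.isOpen_iff.1 (hF.isOpen.inter (isOpen_ball (x := (0 : ℂ)) (ε := Sh.ρ)))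
    _ ⟨htV, htρ⟩
  set V' : Set ℂ := ball (t₀ : ℂ) ε' with hV'
  have hF' : Sh.G.IsPrimaryExt Sh.G.X0 b V' F :=
    { isOpen := isOpen_ball
      sub := fun t ht => hF.sub (hε'V ht).1
      mero := ⟨fun z hz => hF.mero.1 z ⟨hz.1, (hε'V hz.2).1⟩, fun z hz => hF.mero.2 z ⟨hz.1, (hε'V hz.2).1⟩⟩
      agrees := fun z hz => hF.agrees z ⟨hz.1, (hε'V hz.2).1⟩ }
  set U : Set (ℂ × ℂ) := hband (-(Sh.G.s / 2)) b ×ˢ V' with hU
  have hUT : U ⊆ Sh.T := by
    rintro ⟨u, t⟩ ⟨hu, ht⟩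
    have htV' := hε'V ht
    refine ⟨htV'.2, ?_, ?_⟩
    · exact lt_of_lt_of_le ((ENNReal.ofReal_lt_ofReal_iff hb0).2 hu.2) (hwidth _ htV'.1)
    · have hc : (starRingEnd ℂ) t ∈ ball (0 : ℂ) Sh.G.r₁ := by
        have := hF.sub htV'.1
        simpa using this
      refine lt_of_lt_of_le ((ENNReal.ofReal_lt_ofReal_iff hs).2 ?_) (Sh.G.s6w_basic _ hc)
      have := hu.1
      simp only at this ⊢
      linarith
  have hUc : IsPreconnected U :=
    ((s6w_hband_convex _ _).prod (convex_ball _ _)).isPreconnected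
  have hL := Sh.s6w_mero Sh.s9k_tube
  have hz₀ : ((0 : ℂ), (t₀ : ℂ)) ∈ U := by
    refine ⟨⟨?_, ?_⟩, mem_ball_self hε'⟩
    · simp only [zero_im]; linarith
    · simpa using hb0
  have hev : F =ᶠ[𝓝 ((0 : ℂ), (t₀ : ℂ))] fun z => Sh.Γ (Sh.lift z) := by
    have ho : IsOpen (hstrip (Sh.G.s / 4) ×ˢ V') := by
      refine IsOpen.prod ?_ isOpen_ball
      exact isOpen_lt (continuous_abs.comp Complex.continuous_im) continuous_const
    have hm : ((0 : ℂ), (t₀ : ℂ)) ∈ hstrip (Sh.G.s / 4) ×ˢ V' := by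
      refine ⟨?_, mem_ball_self hε'⟩
      simp only [hstrip, mem_ofPred_eq, zero_im, abs_zero]
      linarith
    filter_upwards [ho.mem_nhds hm] with z hz
    have h1 : z ∈ hstrip (Sh.G.s / 2) ×ˢ V' := by
      refine ⟨?_, hz.2⟩
      have := hz.1
      simp only [hstrip, mem_ofPred_eq] at this ⊢
      linarith
    have h2 := Sh.lift_base z ⟨hz.1, (hε'V hz.2).2⟩
    rw [hF'.agrees z h1, h2.2, Sh.Γ_base _ h2.1]
  have hid1 : ∀ z ∈ U, Mero2EqAt (fun w => (F w).1) (fun w => (Sh.Γ (Sh.lift w)).1) z :=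
    Mero2On.eqAt_of_isPreconnected hUc hF'.mero.1 (fun z hz => hL.1 z (hUT hz)) hz₀
      ((hF'.mero.1 _ hz₀).eqAt_of_eventuallyEq (hev.mono fun w hw => by simp only [hw]))
  have hid2 : ∀ z ∈ U, Mero2EqAt (fun w => (F w).2) (fun w => (Sh.Γ (Sh.lift w)).2) z :=
    Mero2On.eqAt_of_isPreconnected hUc hF'.mero.2 (fun z hz => hL.2 z (hUT hz)) hz₀
      ((hF'.mero.2 _ hz₀).eqAt_of_eventuallyEq (hev.mono fun w hw => by simp only [hw]))
  have hPm := Sh.s6w_mero hP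
  refine Sh.no_patch_X t₀ (by simpa using htρ) y₁ hb₁e
    ⟨ε, fun z => Sh.Γ (S z), b, V', F, hε, ⟨fun z hz => hPm.1 z (hεR hz), fun z hz => hPm.2 z (hεR hz)⟩,
      ?_, by linarith, hbb₁, mem_ball_self hε', hF', ?_⟩
  · exact lt_of_le_of_lt (le_max_left _ _) hbmax
  · rintro z ⟨⟨hz1, hz2⟩, hz3, hz4⟩
    have hzR : z ∈ R := hεR ⟨hz1, hz3⟩
    have hzU : z ∈ U := ⟨hz2, hz4⟩
    have hzT : z ∈ Sh.T := hUT hzU
    have hSl : S =ᶠ[𝓝 z] Sh.lift := by
      filter_upwards [(hP.isOpen.inter Sh.s9k_T_open).mem_nhds ⟨hzR, hzT⟩] with w hw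
      exact Sh.s9k_eq_lift hP hw
    refine ⟨?_, ?_⟩
    · exact ((hPm.1 z hzR).eqAt_of_eventuallyEq (hSl.mono fun w hw => by simp only [hw])).trans
        (hid1 z hzU).symm
    · exact ((hPm.2 z hzR).eqAt_of_eventuallyEq (hSl.mono fun w hw => by simp only [hw])).trans
        (hid2 z hzU).symm

end Shape

end Claimed.Agent.R269
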