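/-
Row 269, P1 Section 6: shared definitions of the cone package.   Owner: helper218.
`h` = reference height (P1 Remark 6.4), depth of `y` = `h - y.im`; everything lives on the maximal passage `s9Rmax / s9Smax` (S9/PassageMax.lean).
-/
import Claimed.Agent.R269.S9.Konti

set_option autoImplicit false

namespace Claimed.Agent.R269

open Complex Filter Topology Set Metric
open scoped ENNReal Real

namespace Shape

variable (Sh : Shape)

/-- the field bound `M ≤ B depth^{-α}` on the truncated cone `lo ≤ depth ≤ hi`, `|Re s - x₀| ≤ L depth` below the reference height `h`. -/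
def S6Field (h x₀ L lo hi B α : ℝ) : Prop :=
  ∀ s : ℂ, lo ≤ h - s.im → h - s.im ≤ hi → |s.re - x₀| ≤ L * (h - s.im) →
    Sh.M s ≤ B * (h - s.im) ^ (-α)

/-- starting data on the slab `σ ≤ depth ≤ σ + τ` of the cone of aperture `L'`, for all parameters `|t| < ρ₀`:
the points belong to the maximal passage, `|S - y| ≤ A₀ |t|²`, and the steps satisfy `|S(y,t) - S(y-t,t) - t| ≤ A₁ |t|³`. -/
structure S6Slab (h x₀ L' σ τ ρ₀ A₀ A₁ : ℝ) : Prop where
  mem : ∀ y t : ℂ, σ ≤ h - y.im → h - y.im ≤ σ + τ → |y.re - x₀| < L' * (h - y.im) → ‖t‖ < ρ₀ →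
    (y, t) ∈ Sh.s9Rmax
  pos : ∀ y t : ℂ, σ ≤ h - y.im → h - y.im ≤ σ + τ → |y.re - x₀| < L' * (h - y.im) → ‖t‖ < ρ₀ →
    ‖Sh.s9Smax (y, t) - y‖ ≤ A₀ * ‖t‖ ^ 2
  step : ∀ y t : ℂ, σ ≤ h - y.im → h - y.im ≤ σ + τ → |y.re - x₀| < L' * (h - y.im) →
    σ ≤ h - (y - t).im → h - (y - t).im ≤ σ + τ → |(y - t).re - x₀| < L' * (h - (y - t).im) →
    ‖t‖ < ρ₀ → ‖Sh.s9Smax (y, t) - Sh.s9Smax (y - t, t) - t‖ ≤ A₁ * ‖t‖ ^ 3

end Shape

end Claimed.Agent.R269
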