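/-
Row 269, P1 Section 6, PACKAGE FILL = second half of the proof of Theorem 6.3 (analytic discs).   Blueprint: helper218.
NO PAPER READING NEEDED.  Tools: `Shape.s9k_konti` (S9/Konti.lean), `Shape.s9k_max`, `s9k_eq_lift`, `s9k_tube` (S9/PassageMax.lean), Mathlib.

LEAVES (one owner each; fill in place or in S6/Fill/<Name>.lean and wire):
 F1 `s6_bend`        explicit bending function (host-free)
 F2 `Shape.s6_Umax`  maximum principle for `(S - y)/t²` along an analytic disc in the maximal passage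
 F3 `Shape.s6_fill_step`  one band
 F4 `s6_fill`        choice of constants + induction on the bands (GLUE: validates the interfaces)

F1. `μ = 1/(8(4D₀+1))`, `λ = 1-μ`, `γ = 3μ/8`, `C₀ = (2/μ+1)/4`, `ω± = ±√(1-τ²) - iτ` (unit circle, `Im ω± = -τ`), `P_ω ζ = (ω+λζ)/(ω-λζ)`,
    `g₀ ζ = -(i/4) ((P_{ω₊} ζ + P_{ω₋} ζ)/2 - 1)`; holomorphic for `|ζ| < 1/λ`.  `Re P_ω ζ = (1-λ²|ζ|²)/|ω-λζ|² > 0` for `|ζ| ≤ 1`, so `Im g₀ < 1/4`; `|P_ω| ≤ 2/μ`.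
    If `|ζ| = 1`, `|Im ζ + τ| ≤ 4γ/3 = μ/2` and `Re ζ ≥ 0`: `|Im ζ| ≤ 1/2`, `|Re ζ - Re ω₊| = |Im ζ + τ||Im ζ - τ|/(Re ζ + Re ω₊) ≤ |Im ζ + τ|`, so `|ζ - ω₊| ≤ 2|Im ζ+τ| ≤ μ`,
    `|ω₊ - λζ| ≤ 2μ`, `Re P_{ω₊} ζ ≥ (1-λ)(1+λ)/(4μ²) ≥ 1/(4μ)`, `Im g₀ ≤ -(1/4)(1/(8μ) - 1) = -D₀`.  `Re ζ ≤ 0`: same with `ω₋`.
F2. `N t = Smax (g t, t) - g t` is DiffContOnCl on the ball (`Smax` differentiable on the open set `Rmax`).  `0 ∈ ball tc ϱ`.  Claim: `N = t² U` with `U` holomorphic on the ball; then `U` is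
    DiffContOnCl (away from `0` it is `N/t²`), `‖U‖ ≤ b` on the sphere, `Complex.norm_le_of_forall_mem_frontier_norm_le`.  For the claim it suffices that `N 0 = 0` and `deriv N 0 = 0` (two `dslope`s).
    (a) `(y,0) ∈ Rmax ⇒ Smax (y,0) = y` and `(y,0) ∈ T`: along the vertical segment of `attached`, `y' ↦ Smax (y',0) - y'` is analytic and vanishes near the lower end (`lift_zero`), identity theorem;
        then `y = Smax (y,0) ∈ D`, i.e. `(y,0) ∈ T` (`hX 0 = Hs`, `conj 0 = 0`).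
    (b) near `(y₀,0)`, `y₀ = g 0`: `Smax = lift` (`s9k_eq_lift`, `T` open by `s9k_tube.isOpen`), `ℓ (y,t) = lift (y,t) - y` is differentiable, `ℓ (y,0) = 0`, `ℓ (y,-t) = ℓ (y,t)` (`lift_even`), so the Frechet derivative of `ℓ` at
        `(y₀,0)` vanishes on `(1,0)` and on `(0,1)`, hence is `0`; chain rule: `deriv N 0 = 0`.
F3. Target `(yc,tc)`, `δ = h - Im yc`.  If `δ₁ < δ` use the hypothesis.  Otherwise `δ ∈ (max(δ₁/2,d), δ₁]`, `R = r (δ/d)^α > |tc|`, `τ = Im tc/(3R)`, `g₀` from `hbend`, `Ω = ball tc (3R)`,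
    `g t = yc + δ g₀ ((t-tc)/(3R))`, `s₀ = (D₀+1) δ`, `r₀ = δ/8`.  On `closure Ω`: `|t| ≤ 4R`.  depth of `g t - s i` = `δ - δ Im g₀ + s`.
    hdeep: depth `∈ [(D₀+7/4)δ, (C₀+D₀+2)δ]`, `> δ₁`; `|Re - x₀| < (m+C₀)δ ≤ m·depth`; `4R < r (depth/d)^α` since `5 ≤ D₀^α`.  Use `hall`.
    hbd, `ζ = (t-tc)/(3R)`, `|ζ| = 1`.  Case A `|Im ζ + τ| ≤ 4γ/3`: depth `≥ (D₀+7/8)δ > δ₁`, `|Re - x₀| < (m+C₀+1/8)δ ≤ m·depth` (`C₀+1 ≤ m D₀`), `4R < r(depth/d)^α`: `hall`.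
         Case B `|Im ζ + τ| > 4γ/3`: `|Im t| = 3R|Im ζ+τ| > 4γR ≥ γ|t|`; depth `≥ 5δ/8 > d/2`; `4R < 10 r (5δ/(8d))^α` since `(5/8)^α ≥ 5/8`; `|Re - x₀| < (m+C₀+1/8)δ ≤ (2(m+C₀)+1)·5δ/8`: `hsteep`.
    `s9k_konti` gives `(yc,tc) ∈ Rmax` (`t = tc`, `s = 0`).  `s6_Umax` with `b = Ψ(δ/2)`: on the sphere Case A gives `Ψ(depth/2) ≤ Ψ(δ/2)`, Case B `Ψ(depth) ≤ Ψ(δ/2)`.
F4. `D₀ = 5^(1/α)` (`≥ 5`), `(γ,C₀)` from `s6_bend D₀`, `m₁ = (C₀+1)/D₀`.  `S6All δs` from the base hypothesis; `S6All (max (δs/2^k) d)` by induction with F3; `k` large.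
-/
import Claimed.Agent.R269.S6.Defs

set_option autoImplicit false

namespace Claimed.Agent.R269

open Complex Filter Topology Set Metric
open scoped ENNReal Real

theorem s6b_P_re (ω ζ : ℂ) (l : ℝ) :
    ((ω + l * ζ) / (ω - l * ζ)).re = (normSq ω - l ^ 2 * normSq ζ) / normSq (ω - l * ζ) := by
  rw [Complex.div_re, ← add_div]
  congr 1
  simp [Complex.normSq_apply]
  ring

theorem s6b_den_lower {ω ζ : ℂ} {l : ℝ} (hω : ‖ω‖ = 1) (hζ : ‖ζ‖ ≤ 1) (hl0 : 0 ≤ l) :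
    1 - l ≤ ‖ω - l * ζ‖ := by
  have h1 := norm_sub_norm_le ω (l * ζ)
  rw [hω, norm_mul, Complex.norm_real, Real.norm_eq_abs, abs_of_nonneg hl0] at h1
  nlinarith [norm_nonneg ζ]

theorem s6b_P_re_nonneg {ω ζ : ℂ} {l : ℝ} (hω : ‖ω‖ = 1) (hζ : ‖ζ‖ ≤ 1) (hl0 : 0 ≤ l) (hl1 : l ≤ 1) :
    0 ≤ ((ω + l * ζ) / (ω - l * ζ)).re := by
  rw [s6b_P_re]
  apply div_nonneg _ (Complex.normSq_nonneg _)
  rw [Complex.normSq_eq_norm_sq, Complex.normSq_eq_norm_sq, hω]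
  have h1 : ‖ζ‖ ^ 2 ≤ 1 := by nlinarith [norm_nonneg ζ]
  have h2 : l ^ 2 ≤ 1 := by nlinarith
  nlinarith [sq_nonneg l, sq_nonneg ‖ζ‖]

theorem s6b_P_norm {ω ζ : ℂ} {l : ℝ} (hω : ‖ω‖ = 1) (hζ : ‖ζ‖ ≤ 1) (hl0 : 0 ≤ l) (hl1 : l < 1) :
    ‖(ω + l * ζ) / (ω - l * ζ)‖ ≤ 2 / (1 - l) := by
  rw [norm_div]
  have h1 : ‖ω + l * ζ‖ ≤ 2 := by
    refine (norm_add_le _ _).trans ?_
    rw [hω, norm_mul, Complex.norm_real, Real.norm_eq_abs, abs_of_nonneg hl0]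
    nlinarith [norm_nonneg ζ]
  exact div_le_div₀ (by norm_num) h1 (by linarith) (s6b_den_lower hω hζ hl0)

theorem s6b_close {ω ζ : ℂ} {τ μ : ℝ} (hω : ‖ω‖ = 1) (hζ : ‖ζ‖ = 1) (him : ω.im = -τ)
    (hτ : |τ| ≤ 1 / 3) (hsign : 0 ≤ ω.re * ζ.re) (hμ : μ ≤ 1 / 8) (hb : |ζ.im + τ| ≤ μ / 2) :
    ‖ζ - ω‖ ≤ μ := by
  have e1 : ω.re ^ 2 + ω.im ^ 2 = 1 := by
    have := Complex.sq_norm ω
    rw [hω, Complex.normSq_apply] at this
    nlinarith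
  have e2 : ζ.re ^ 2 + ζ.im ^ 2 = 1 := by
    have := Complex.sq_norm ζ
    rw [hζ, Complex.normSq_apply] at this
    nlinarith
  rw [him] at e1
  set A := ω.re with hA
  set a := ζ.re with ha
  set b := ζ.im with hb'
  have hτ' := abs_le.1 hτ
  have hb2 := abs_le.1 hb
  have hA2 : 25 / 36 ≤ A ^ 2 := by nlinarith
  -- |a + A| ≥ 5/6
  have h1 : (5 / 6 : ℝ) ^ 2 ≤ (a + A) ^ 2 := by nlinarith [sq_nonneg a]
  have h2 : 5 / 6 ≤ |a + A| := by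
    have := sq_le_sq.1 h1
    rwa [abs_of_nonneg (by norm_num : (0 : ℝ) ≤ 5 / 6)] at this
  have h3 : (a - A) * (a + A) = (τ - b) * (τ + b) := by nlinarith
  have h4 : |τ - b| ≤ 5 / 6 := by
    rw [abs_le]; constructor <;> linarith [hτ'.1, hτ'.2, hb2.1, hb2.2]
  have h5 : |a - A| * |a + A| = |τ - b| * |τ + b| := by rw [← abs_mul, ← abs_mul, h3]
  have h6 : |a - A| ≤ |b + τ| := by
    rw [add_comm b τ]
    by_contra hcon
    rw [not_le] at hcon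
    have : |τ - b| * |τ + b| < |a - A| * |a + A| := by
      calc |τ - b| * |τ + b| ≤ 5 / 6 * |τ + b| := mul_le_mul_of_nonneg_right h4 (abs_nonneg _)
        _ ≤ |a + A| * |τ + b| := mul_le_mul_of_nonneg_right h2 (abs_nonneg _)
        _ < |a + A| * |a - A| := mul_lt_mul_of_pos_left hcon (by linarith)
        _ = _ := mul_comm _ _
    linarith
  refine (Complex.norm_le_abs_re_add_abs_im _).trans ?_
  rw [Complex.sub_re, Complex.sub_im, him, sub_neg_eq_add]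
  linarith

theorem s6b_P_re_big {ω ζ : ℂ} {μ : ℝ} (hω : ‖ω‖ = 1) (hζ : ‖ζ‖ = 1) (hμ0 : 0 < μ) (hμ : μ ≤ 1)
    (hclose : ‖ζ - ω‖ ≤ μ) :
    1 / (4 * μ) ≤ ((ω + ((1 - μ : ℝ) : ℂ) * ζ) / (ω - ((1 - μ : ℝ) : ℂ) * ζ)).re := by
  rw [s6b_P_re, Complex.normSq_eq_norm_sq, Complex.normSq_eq_norm_sq, Complex.normSq_eq_norm_sq, hω, hζ]
  have h1 : ‖ω - ((1 - μ : ℝ) : ℂ) * ζ‖ ≤ 2 * μ := by
    have e : ω - ((1 - μ : ℝ) : ℂ) * ζ = (ω - ζ) + (μ : ℂ) * ζ := by push_cast; ring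
    rw [e]
    refine (norm_add_le _ _).trans ?_
    rw [norm_sub_rev, norm_mul, hζ, Complex.norm_real, Real.norm_eq_abs, abs_of_pos hμ0]
    linarith
  have h2 : μ ≤ ‖ω - ((1 - μ : ℝ) : ℂ) * ζ‖ := by
    have := s6b_den_lower (l := 1 - μ) hω hζ.le (by linarith)
    linarith
  have h3 : 0 < ‖ω - ((1 - μ : ℝ) : ℂ) * ζ‖ ^ 2 := pow_pos (lt_of_lt_of_le hμ0 h2) 2
  rw [div_le_div_iff₀ (by positivity) h3]
  have h4 : ‖ω - ((1 - μ : ℝ) : ℂ) * ζ‖ ^ 2 ≤ (2 * μ) ^ 2 := pow_le_pow_left₀ (norm_nonneg _) h1 2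
  nlinarith

/-- LEAF F1: the bending function. -/
theorem s6_bend (D₀ : ℝ) (hD₀ : 0 < D₀) :
    ∃ γ C₀ : ℝ, 0 < γ ∧ γ ≤ 1 ∧ 0 < C₀ ∧ ∀ τ : ℝ, |τ| ≤ 1 / 3 →
      ∃ g₀ : ℂ → ℂ, DiffContOnCl ℂ g₀ (ball 0 1) ∧ g₀ 0 = 0 ∧
        (∀ ζ ∈ closedBall (0 : ℂ) 1, ‖g₀ ζ‖ ≤ C₀) ∧
        (∀ ζ ∈ closedBall (0 : ℂ) 1, (g₀ ζ).im ≤ 1 / 4) ∧
        (∀ ζ ∈ sphere (0 : ℂ) 1, |ζ.im + τ| ≤ 4 / 3 * γ → (g₀ ζ).im ≤ -D₀) := by
  set μ : ℝ := 1 / (8 * (4 * D₀ + 1)) with hμdef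
  have hμ0 : 0 < μ := by positivity
  have hμ8 : μ ≤ 1 / 8 := by
    rw [hμdef, div_le_div_iff₀ (by positivity) (by norm_num)]
    nlinarith
  have hμinv : 1 / (4 * μ) = 2 * (4 * D₀ + 1) := by
    rw [hμdef]; field_simp; ring
  refine ⟨3 * μ / 8, (2 / μ + 1) / 4, by positivity, by linarith, by positivity, ?_⟩
  intro τ hτ
  have hτ' := abs_le.1 hτ
  have hτ2 : 0 ≤ 1 - τ ^ 2 := by nlinarith
  set A : ℝ := Real.sqrt (1 - τ ^ 2) with hA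
  have hA0 : 0 ≤ A := Real.sqrt_nonneg _
  have hA2 : A ^ 2 = 1 - τ ^ 2 := Real.sq_sqrt hτ2
  set ωp : ℂ := ⟨A, -τ⟩ with hωp
  set ωm : ℂ := ⟨-A, -τ⟩ with hωm
  have nωp : ‖ωp‖ = 1 := by
    have : ‖ωp‖ ^ 2 = 1 := by
      rw [Complex.sq_norm, Complex.normSq_apply]; simp only [hωp]; nlinarith
    nlinarith [norm_nonneg ωp, sq_nonneg (‖ωp‖ - 1)]
  have nωm : ‖ωm‖ = 1 := by
    have : ‖ωm‖ ^ 2 = 1 := by
      rw [Complex.sq_norm, Complex.normSq_apply]; simp only [hωm]; nlinarith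
    nlinarith [norm_nonneg ωm, sq_nonneg (‖ωm‖ - 1)]
  set l : ℝ := 1 - μ with hl
  have hl0 : 0 ≤ l := by linarith
  have hl1 : l < 1 := by linarith
  set g₀ : ℂ → ℂ := fun ζ => -(I / 4) *
    (((ωp + (l : ℂ) * ζ) / (ωp - (l : ℂ) * ζ) + (ωm + (l : ℂ) * ζ) / (ωm - (l : ℂ) * ζ)) / 2 - 1)
    with hg₀
  have him : ∀ ζ, (g₀ ζ).im = 1 / 4 - (((ωp + (l : ℂ) * ζ) / (ωp - (l : ℂ) * ζ)).re
      + ((ωm + (l : ℂ) * ζ) / (ωm - (l : ℂ) * ζ)).re) / 8 := by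
    intro ζ
    simp only [hg₀]
    set P1 := (ωp + (l : ℂ) * ζ) / (ωp - (l : ℂ) * ζ)
    set P2 := (ωm + (l : ℂ) * ζ) / (ωm - (l : ℂ) * ζ)
    have e : -(I / 4) * ((P1 + P2) / 2 - 1) = ((1 / 4 - (P1 + P2) / 8 : ℂ)) * I := by ring
    rw [e, Complex.mul_I_im]
    simp
  have hne : ∀ {ω : ℂ}, ‖ω‖ = 1 → ∀ ζ ∈ closedBall (0 : ℂ) 1, ω - (l : ℂ) * ζ ≠ 0 := by
    intro ω hω ζ hζ
    have hζ' : ‖ζ‖ ≤ 1 := by simpa using hζ
    have := s6b_den_lower hω hζ' hl0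
    intro h0
    rw [h0, norm_zero] at this
    linarith
  refine ⟨g₀, ?_, ?_, ?_, ?_, ?_⟩
  · apply DifferentiableOn.diffContOnCl
    rw [closure_ball (0 : ℂ) one_ne_zero]
    intro ζ hζ
    apply DifferentiableAt.differentiableWithinAt
    have d1 : DifferentiableAt ℂ (fun ζ : ℂ => (ωp + (l : ℂ) * ζ) / (ωp - (l : ℂ) * ζ)) ζ :=
      DifferentiableAt.div (by fun_prop) (by fun_prop) (hne nωp ζ hζ)
    have d2 : DifferentiableAt ℂ (fun ζ : ℂ => (ωm + (l : ℂ) * ζ) / (ωm - (l : ℂ) * ζ)) ζ :=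
      DifferentiableAt.div (by fun_prop) (by fun_prop) (hne nωm ζ hζ)
    exact (((d1.add d2).div_const 2).sub_const 1).const_mul _
  · have h1 : ωp ≠ 0 := by intro h; rw [h, norm_zero] at nωp; norm_num at nωp
    have h2 : ωm ≠ 0 := by intro h; rw [h, norm_zero] at nωm; norm_num at nωm
    simp only [hg₀, mul_zero, add_zero, sub_zero, div_self h1, div_self h2]
    norm_num
  · intro ζ hζ
    have hζ' : ‖ζ‖ ≤ 1 := by simpa using hζ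
    have p1 := s6b_P_norm nωp hζ' hl0 hl1
    have p2 := s6b_P_norm nωm hζ' hl0 hl1
    have e1 : 1 - l = μ := by rw [hl]; ring
    rw [e1] at p1 p2
    simp only [hg₀]
    rw [norm_mul, norm_neg, norm_div, Complex.norm_I]
    have h4 : ‖(4 : ℂ)‖ = 4 := by simp
    rw [h4]
    have h5 : ‖((ωp + (l : ℂ) * ζ) / (ωp - (l : ℂ) * ζ) + (ωm + (l : ℂ) * ζ) / (ωm - (l : ℂ) * ζ)) / 2 - 1‖
        ≤ 2 / μ + 1 := by
      refine (norm_sub_le _ _).trans ?_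
      rw [norm_div, norm_one]
      have h2 : ‖(2 : ℂ)‖ = 2 := by simp
      rw [h2]
      have := norm_add_le ((ωp + (l : ℂ) * ζ) / (ωp - (l : ℂ) * ζ)) ((ωm + (l : ℂ) * ζ) / (ωm - (l : ℂ) * ζ))
      linarith
    linarith
  · intro ζ hζ
    have hζ' : ‖ζ‖ ≤ 1 := by simpa using hζ
    rw [him]
    have p1 := s6b_P_re_nonneg nωp hζ' hl0 hl1.le
    have p2 := s6b_P_re_nonneg nωm hζ' hl0 hl1.le
    linarith
  · intro ζ hζ hb
    have hζ' : ‖ζ‖ = 1 := by simpa using hζ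
    have hb' : |ζ.im + τ| ≤ μ / 2 := by linarith
    rw [him]
    have p1 := s6b_P_re_nonneg nωp hζ'.le hl0 hl1.le
    have p2 := s6b_P_re_nonneg nωm hζ'.le hl0 hl1.le
    rcases le_total 0 ζ.re with hre | hre
    · have hc := s6b_close nωp hζ' (by simp [hωp]) hτ (by simp only [hωp]; positivity) hμ8 hb'
      have := s6b_P_re_big nωp hζ' hμ0 (by linarith) hc
      rw [hμinv] at this
      linarith
    · have hc := s6b_close nωm hζ' (by simp [hωm]) hτ (by simp only [hωm]; nlinarith) hμ8 hb'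
      have := s6b_P_re_big nωm hζ' hμ0 (by linarith) hc
      rw [hμinv] at this
      linarith

/-- coordinates of a point near `yc + δ w - s i`. -/
theorem s6f_pt {yc w y : ℂ} {δ s r₀ h : ℝ} (hδ : δ = h - yc.im)
    (hy : y ∈ ball (yc + (δ : ℂ) * w - (s : ℂ) * I) r₀) :
    |(h - y.im) - (δ - δ * w.im + s)| < r₀ ∧ |y.re - (yc.re + δ * w.re)| < r₀ := by
  rw [mem_ball, dist_eq_norm] at hy
  constructor
  · have h1 := (Complex.abs_im_le_norm _).trans_lt hy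
    have e : (y - (yc + (δ : ℂ) * w - (s : ℂ) * I)).im = -((h - y.im) - (δ - δ * w.im + s)) := by
      simp [hδ]; ring
    rwa [e, abs_neg] at h1
  · have h1 := (Complex.abs_re_le_norm _).trans_lt hy
    have e : (y - (yc + (δ : ℂ) * w - (s : ℂ) * I)).re = y.re - (yc.re + δ * w.re) := by
      simp
    rwa [e] at h1

/-- scaling of the radius function. -/
theorem s6f_rpow {α κ δ d Dp : ℝ} (hα : 0 < α) (hκ : 0 < κ) (hδ : 0 < δ) (hd : 0 < d)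
    (h : κ * δ ≤ Dp) : κ ^ α * (δ / d) ^ α ≤ (Dp / d) ^ α := by
  rw [← Real.mul_rpow hκ.le (by positivity)]
  apply Real.rpow_le_rpow (by positivity) _ hα.le
  rw [← mul_div_assoc]
  exact div_le_div_of_nonneg_right h hd.le

/-- the four conditions of `S6All` at a deep point. -/
theorem s6f_all {α C₀ D₀ m x₀ r d δs δt δ₁ δ r₀ base Dp yre ycre b nt : ℝ}
    (hα : 0 < α) (hC₀ : 0 < C₀) (hD₀ : 5 ≤ D₀ ^ α) (hD₀' : 5 ≤ D₀)
    (hm : C₀ + 1 ≤ m * D₀) (hm0 : 0 < m) (hr : 0 < r) (hd : 0 < d)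
    (hδ₁s : δ₁ ≤ δs) (hδt : (C₀ + D₀ + 3) * δs ≤ δt) (hδ1 : δ₁ / 2 < δ) (hδd : d < δ) (hδle : δ ≤ δ₁)
    (hr₀ : (m + 1) * r₀ = δ / 8) (hr₀0 : 0 < r₀)
    (hb1 : (D₀ + 1) * δ ≤ base) (hb2 : base ≤ (C₀ + D₀ + 2) * δ)
    (hDp : |Dp - base| < r₀) (hre : |yre - (ycre + δ * b)| < r₀) (hb : |b| ≤ C₀)
    (hyc : |ycre - x₀| < m * δ) (hnt : nt < 4 * (r * (δ / d) ^ α)) :
    δ₁ < Dp ∧ Dp < δt ∧ |yre - x₀| < m * Dp ∧ nt < r * (Dp / d) ^ α ∧ δ ≤ Dp := by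
  have hδ0 : 0 < δ := lt_trans hd hδd
  have hr₀8 : r₀ ≤ δ / 8 := by nlinarith
  have h1 := abs_lt.1 hDp
  have h2 := abs_lt.1 hre
  have h3 := abs_le.1 hb
  have h4 := abs_lt.1 hyc
  have hlow : D₀ * δ ≤ Dp := by nlinarith
  have hP : 0 < (δ / d) ^ α := Real.rpow_pos_of_pos (by positivity) _
  refine ⟨by nlinarith, ?_, ?_, ?_, by nlinarith⟩
  · have : (C₀ + D₀ + 3) * δ ≤ (C₀ + D₀ + 3) * δs :=
      mul_le_mul_of_nonneg_left (hδle.trans hδ₁s) (by linarith)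
    nlinarith
  · have hmD : m * (base - r₀) < m * Dp := mul_lt_mul_of_pos_left (by linarith) hm0
    have hmb : m * ((D₀ + 1) * δ) ≤ m * base := mul_le_mul_of_nonneg_left hb1 hm0.le
    have hmd : (C₀ + 1) * δ ≤ m * D₀ * δ := mul_le_mul_of_nonneg_right hm hδ0.le
    have hδb1 : δ * b ≤ δ * C₀ := mul_le_mul_of_nonneg_left h3.2 hδ0.le
    have hδb2 : δ * (-C₀) ≤ δ * b := mul_le_mul_of_nonneg_left h3.1 hδ0.le
    rw [abs_lt]
    constructor <;> nlinarith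
  · have := s6f_rpow hα (by linarith : (0 : ℝ) < D₀) hδ0 hd hlow
    have h5 : 5 * (δ / d) ^ α ≤ (Dp / d) ^ α :=
      le_trans (mul_le_mul_of_nonneg_right hD₀ hP.le) this
    have h6 : r * (5 * (δ / d) ^ α) ≤ r * (Dp / d) ^ α := mul_le_mul_of_nonneg_left h5 hr.le
    have h7 : 0 < r * (δ / d) ^ α := by positivity
    linarith

/-- the conditions of `S6Stp` at a shallow point. -/
theorem s6f_stp {α C₀ D₀ m x₀ r d δs δt δ₁ δ r₀ base Dp yre ycre b nt : ℝ}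
    (hα : 0 < α) (hα1 : α ≤ 1) (hC₀ : 0 < C₀) (hD₀' : 5 ≤ D₀)
    (hm0 : 0 < m) (hr : 0 < r) (hd : 0 < d)
    (hδ₁s : δ₁ ≤ δs) (hδt : (C₀ + D₀ + 3) * δs ≤ δt) (hδd : d < δ) (hδle : δ ≤ δ₁)
    (hr₀ : (m + 1) * r₀ = δ / 8) (hr₀0 : 0 < r₀)
    (hb1 : 3 / 4 * δ ≤ base) (hb2 : base ≤ (C₀ + D₀ + 2) * δ)
    (hDp : |Dp - base| < r₀) (hre : |yre - (ycre + δ * b)| < r₀) (hb : |b| ≤ C₀)
    (hyc : |ycre - x₀| < m * δ) (hnt : nt < 4 * (r * (δ / d) ^ α)) :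
    d / 2 < Dp ∧ Dp < δt ∧ |yre - x₀| < (2 * (m + C₀) + 1) * Dp ∧ nt < 10 * r * (Dp / d) ^ α
      ∧ δ / 2 ≤ Dp := by
  have hδ0 : 0 < δ := lt_trans hd hδd
  have hr₀8 : r₀ ≤ δ / 8 := by nlinarith
  have h1 := abs_lt.1 hDp
  have h2 := abs_lt.1 hre
  have h3 := abs_le.1 hb
  have h4 := abs_lt.1 hyc
  have hlow : 5 / 8 * δ ≤ Dp := by linarith
  have hP : 0 < (δ / d) ^ α := Real.rpow_pos_of_pos (by positivity) _
  refine ⟨by linarith, ?_, ?_, ?_, by linarith⟩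
  · have : (C₀ + D₀ + 3) * δ ≤ (C₀ + D₀ + 3) * δs :=
      mul_le_mul_of_nonneg_left (hδle.trans hδ₁s) (by linarith)
    nlinarith
  · have hmD : (2 * (m + C₀) + 1) * (5 / 8 * δ) ≤ (2 * (m + C₀) + 1) * Dp :=
      mul_le_mul_of_nonneg_left hlow (by linarith)
    have hδb1 : δ * b ≤ δ * C₀ := mul_le_mul_of_nonneg_left h3.2 hδ0.le
    have hδb2 : δ * (-C₀) ≤ δ * b := mul_le_mul_of_nonneg_left h3.1 hδ0.le
    have z1 : 0 < m * δ := by positivity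
    have z2 : 0 < C₀ * δ := by positivity
    rw [abs_lt]
    constructor <;> nlinarith
  · have := s6f_rpow hα (by norm_num : (0 : ℝ) < 5 / 8) hδ0 hd hlow
    have h58 : (5 / 8 : ℝ) ≤ (5 / 8 : ℝ) ^ α := by
      have := Real.rpow_le_rpow_of_exponent_ge (by norm_num : (0 : ℝ) < 5 / 8) (by norm_num) hα1
      rwa [Real.rpow_one] at this
    have h5 : 5 / 8 * (δ / d) ^ α ≤ (Dp / d) ^ α :=
      le_trans (mul_le_mul_of_nonneg_right h58 hP.le) this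
    have h6 : 10 * r * (5 / 8 * (δ / d) ^ α) ≤ 10 * r * (Dp / d) ^ α :=
      mul_le_mul_of_nonneg_left h5 (by positivity)
    have h7 : 0 < r * (δ / d) ^ α := by positivity
    linarith

namespace Shape

variable (Sh : Shape)

theorem s6f_tube_zero (y : ℂ) : (y, (0 : ℂ)) ∈ Sh.T ↔ y ∈ Sh.D := by
  constructor
  · rintro ⟨-, h1, h2⟩
    simp only [map_zero] at h1 h2
    show ENNReal.ofReal |y.im| < Sh.G.Hs
    rcases abs_cases y.im with ⟨h, -⟩ | ⟨h, -⟩ <;> rw [h]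
    exacts [h1, h2]
  · intro h
    refine ⟨by simpa using Sh.ρ_pos, ?_, ?_⟩
    · exact lt_of_le_of_lt (ENNReal.ofReal_le_ofReal (le_abs_self _)) h
    · simp only [map_zero]
      exact lt_of_le_of_lt (ENNReal.ofReal_le_ofReal (neg_le_abs _)) h

/-- the maximal passage is the identity at the parameter `0`. -/
theorem s6f_zero {y : ℂ} (hy : (y, (0 : ℂ)) ∈ Sh.s9Rmax) : Sh.s9Smax (y, 0) = y := by
  obtain ⟨η, hη, hseg, hT, hev⟩ := Sh.s9k_max.attached _ hy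
  simp only at hη hseg hT hev
  set p : ℂ × ℂ → ℂ × ℂ := fun z => (z.1, 0) with hp
  have hpc : Continuous p := by fun_prop
  have hpd : Differentiable ℂ p := by fun_prop
  set R' := p ⁻¹' Sh.s9Rmax with hR'
  have hR'o : IsOpen R' := Sh.s9k_max.isOpen.preimage hpc
  have h1 : DifferentiableOn ℂ (Sh.s9Smax ∘ p) R' :=
    Sh.s9k_max.diff.comp hpd.differentiableOn (fun _ h => h)
  have h2 : DifferentiableOn ℂ (fun z : ℂ × ℂ => z.1) R' := differentiable_fst.differentiableOn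
  have hev' : (Sh.s9Smax ∘ p) =ᶠ[𝓝 ((⟨y.re, η⟩ : ℂ), (0 : ℂ))] fun z => z.1 := by
    have a1 : ∀ᶠ z in 𝓝 ((⟨y.re, η⟩ : ℂ), (0 : ℂ)), Sh.s9Smax (p z) = Sh.lift (p z) :=
      (hpc.tendsto ((⟨y.re, η⟩ : ℂ), (0 : ℂ))).eventually hev
    have a2 : ∀ᶠ z in 𝓝 ((⟨y.re, η⟩ : ℂ), (0 : ℂ)), p z ∈ Sh.T :=
      (hpc.tendsto ((⟨y.re, η⟩ : ℂ), (0 : ℂ))).eventually (Sh.s9k_T_open.mem_nhds hT)
    filter_upwards [a1, a2] with z b1 b2
    simp only [Function.comp]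
    rw [b1]
    exact Sh.lift_zero _ ((Sh.s6f_tube_zero _).1 b2)
  have := s9k_vert hR'o h1 h2 y.re η y.im 0 hη (fun τ hτ => hseg τ hτ) hev' y.im ⟨hη, le_rfl⟩
  simpa [hp] using this

/-- the derivative of `S - y` vanishes at the parameter `0`. -/
theorem s6f_fderiv_zero {y : ℂ} (hy : (y, (0 : ℂ)) ∈ Sh.s9Rmax) :
    HasFDerivAt (fun z : ℂ × ℂ => Sh.s9Smax z - z.1) (0 : ℂ × ℂ →L[ℂ] ℂ) (y, 0) := by
  set l : ℂ × ℂ → ℂ := fun z => Sh.s9Smax z - z.1 with hl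
  have hd : DifferentiableAt ℂ l (y, 0) :=
    ((Sh.s9k_max.diff _ hy).differentiableAt (Sh.s9k_max.isOpen.mem_nhds hy)).sub differentiableAt_fst
  set L := fderiv ℂ l (y, 0) with hL
  have hLd : HasFDerivAt l L (y, 0) := hd.hasFDerivAt
  have hR : Sh.s9Rmax ∈ 𝓝 (y, (0 : ℂ)) := Sh.s9k_max.isOpen.mem_nhds hy
  have hyT : (y, (0 : ℂ)) ∈ Sh.T := by
    rw [s6f_tube_zero, ← Sh.s6f_zero hy]
    exact Sh.s9k_max.mem _ hy
  have hT : Sh.T ∈ 𝓝 (y, (0 : ℂ)) := Sh.s9k_T_open.mem_nhds hyT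
  -- first direction
  have e1 : L (1, 0) = 0 := by
    have hc : HasDerivAt (fun u : ℂ => (u, (0 : ℂ))) ((1 : ℂ), (0 : ℂ)) y :=
      (hasDerivAt_id y).prodMk (hasDerivAt_const y (0 : ℂ))
    have h1 : HasDerivAt (l ∘ fun u : ℂ => (u, (0 : ℂ))) (L (1, 0)) y :=
      HasFDerivAt.comp_hasDerivAt y hLd hc
    have h2 : (l ∘ fun u : ℂ => (u, (0 : ℂ))) =ᶠ[𝓝 y] fun _ => 0 := by
      have : ∀ᶠ u in 𝓝 y, (u, (0 : ℂ)) ∈ Sh.s9Rmax := hc.continuousAt.eventually hR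
      filter_upwards [this] with u hu
      simp only [Function.comp, hl]
      rw [Sh.s6f_zero hu, sub_self]
    exact (h1.congr_of_eventuallyEq h2.symm).unique (hasDerivAt_const y (0 : ℂ)) |>.trans rfl
  have e2 : L (0, 1) = 0 := by
    have hc : HasDerivAt (fun t : ℂ => (y, t)) ((0 : ℂ), (1 : ℂ)) 0 :=
      (hasDerivAt_const (0 : ℂ) y).prodMk (hasDerivAt_id (0 : ℂ))
    have h1 : HasDerivAt (l ∘ fun t : ℂ => (y, t)) (L (0, 1)) 0 :=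
      HasFDerivAt.comp_hasDerivAt (0 : ℂ) hLd hc
    have h2 : HasDerivAt (fun t : ℂ => (l ∘ fun t : ℂ => (y, t)) (-t)) (L (0, 1) * (-1)) 0 := by
      have h0 : HasDerivAt (l ∘ fun t : ℂ => (y, t)) (L (0, 1)) (-(0 : ℂ)) := by simpa using h1
      exact h0.comp (0 : ℂ) (hasDerivAt_neg (0 : ℂ))
    have h3 : (fun t : ℂ => (l ∘ fun t : ℂ => (y, t)) (-t)) =ᶠ[𝓝 0] (l ∘ fun t : ℂ => (y, t)) := by
      have a1 : ∀ᶠ t in 𝓝 (0 : ℂ), (y, t) ∈ Sh.s9Rmax ∩ Sh.T := hc.continuousAt.eventually (inter_mem hR hT)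
      have a2 : ∀ᶠ t in 𝓝 (0 : ℂ), (y, -t) ∈ Sh.s9Rmax ∩ Sh.T := by
        have hn : Tendsto (fun t : ℂ => -t) (𝓝 0) (𝓝 0) := by
          simpa using (continuous_neg (G := ℂ)).tendsto 0
        exact hn.eventually a1
      filter_upwards [a1, a2] with t b1 b2
      simp only [Function.comp, hl]
      rw [Sh.s9k_eq_lift Sh.s9k_max b1, Sh.s9k_eq_lift Sh.s9k_max b2]
      rw [show Sh.lift (y, -t) = Sh.lift (y, t) from Sh.lift_even (y, t) b1.2]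
    have h4 := (h2.congr_of_eventuallyEq h3.symm).unique h1
    have : L (0, 1) * 2 = 0 := by linear_combination -h4
    simpa using this
  have hL0 : L = 0 := by
    ext
    · simpa using e1
    · simpa using e2
  rw [← hL0]
  exact hLd

/-- LEAF F2: maximum principle for `(S - y)/t²` along an analytic disc contained in the maximal passage. -/
theorem s6_Umax (tc : ℂ) (ϱ : ℝ) (htc : ‖tc‖ < ϱ) (hsub : closedBall tc ϱ ⊆ ball (0 : ℂ) Sh.ρ)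
    (g : ℂ → ℂ) (hg : DiffContOnCl ℂ g (ball tc ϱ))
    (hin : ∀ t ∈ closedBall tc ϱ, (g t, t) ∈ Sh.s9Rmax) (b : ℝ)
    (hb : ∀ t ∈ sphere tc ϱ, ‖Sh.s9Smax (g t, t) - g t‖ ≤ ‖t‖ ^ 2 * b) :
    ∀ t ∈ ball tc ϱ, ‖Sh.s9Smax (g t, t) - g t‖ ≤ ‖t‖ ^ 2 * b := by
  have hϱ : 0 < ϱ := (norm_nonneg _).trans_lt htc
  have h0 : (0 : ℂ) ∈ ball tc ϱ := by
    rw [mem_ball, dist_eq_norm, zero_sub, norm_neg]; exact htc
  have hcl : closure (ball tc ϱ) = closedBall tc ϱ := closure_ball tc hϱ.ne'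
  set N : ℂ → ℂ := fun t => Sh.s9Smax (g t, t) - g t with hN
  have hSat : ∀ t ∈ closedBall tc ϱ, DifferentiableAt ℂ Sh.s9Smax (g t, t) := fun t ht =>
    (Sh.s9k_max.diff _ (hin t ht)).differentiableAt (Sh.s9k_max.isOpen.mem_nhds (hin t ht))
  have hNdiff : DifferentiableOn ℂ N (ball tc ϱ) := by
    intro t ht
    have hgt : DifferentiableAt ℂ g t := hg.differentiableAt isOpen_ball ht
    have h1 : DifferentiableAt ℂ (fun t => (g t, t)) t := hgt.prodMk differentiableAt_id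
    have h2 : DifferentiableAt ℂ Sh.s9Smax ((fun t => (g t, t)) t) := hSat t (ball_subset_closedBall ht)
    exact ((DifferentiableAt.comp (f := fun t => (g t, t)) t h2 h1).sub hgt).differentiableWithinAt
  have hNcont : ContinuousOn N (closedBall tc ϱ) := by
    intro t ht
    have hgt : ContinuousWithinAt g (closedBall tc ϱ) t := by
      have := hg.continuousOn t (by rw [hcl]; exact ht)
      rwa [hcl] at this
    have h1 : ContinuousWithinAt (fun t => (g t, t)) (closedBall tc ϱ) t :=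
      hgt.prodMk continuousWithinAt_id
    have h2 : ContinuousAt Sh.s9Smax ((fun t => (g t, t)) t) := (hSat t ht).continuousAt
    exact (ContinuousAt.comp_continuousWithinAt (f := fun t => (g t, t)) h2 h1).sub hgt
  have hball : ball tc ϱ ∈ 𝓝 (0 : ℂ) := isOpen_ball.mem_nhds h0
  have hcball : closedBall tc ϱ ∈ 𝓝 (0 : ℂ) := mem_of_superset hball ball_subset_closedBall
  have hN0 : N 0 = 0 := by
    simp only [hN]
    rw [Sh.s6f_zero (hin 0 (ball_subset_closedBall h0)), sub_self]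
  have hNd0 : HasDerivAt N 0 0 := by
    have hg0 : HasDerivAt g (deriv g 0) 0 := (hg.differentiableAt isOpen_ball h0).hasDerivAt
    have hc : HasDerivAt (fun t : ℂ => (g t, t)) (deriv g 0, (1 : ℂ)) 0 := hg0.prodMk (hasDerivAt_id (0 : ℂ))
    have h2 : HasFDerivAt (fun z : ℂ × ℂ => Sh.s9Smax z - z.1) (0 : ℂ × ℂ →L[ℂ] ℂ) ((fun t : ℂ => (g t, t)) 0) :=
      Sh.s6f_fderiv_zero (hin 0 (ball_subset_closedBall h0))
    have := HasFDerivAt.comp_hasDerivAt (f := fun t : ℂ => (g t, t)) (0 : ℂ) h2 hc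
    rw [zero_apply] at this
    exact this
  set N1 : ℂ → ℂ := dslope N 0 with hN1
  set U : ℂ → ℂ := dslope N1 0 with hU
  have hN1d : DifferentiableOn ℂ N1 (ball tc ϱ) := (differentiableOn_dslope hball).2 hNdiff
  have hN1c : ContinuousOn N1 (closedBall tc ϱ) :=
    (continuousOn_dslope hcball).2 ⟨hNcont, hNd0.differentiableAt⟩
  have hUd : DifferentiableOn ℂ U (ball tc ϱ) := (differentiableOn_dslope hball).2 hN1d
  have hUc : ContinuousOn U (closedBall tc ϱ) :=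
    (continuousOn_dslope hcball).2 ⟨hN1c, (hN1d 0 h0).differentiableAt hball⟩
  have hN10 : N1 0 = 0 := by
    rw [hN1, dslope_same, hNd0.deriv]
  have hUN : ∀ t : ℂ, N t = t ^ 2 * U t := by
    intro t
    by_cases ht : t = 0
    · subst ht; simp [hN0]
    · rw [hU, dslope_of_ne _ ht, slope_def_field, hN10, hN1, dslope_of_ne _ ht, slope_def_field, hN0]
      field_simp
      ring
  have hmax : ∀ t ∈ closedBall tc ϱ, ‖U t‖ ≤ b := by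
    intro t ht
    refine Complex.norm_le_of_forall_mem_frontier_norm_le isBounded_ball
      ⟨hUd, by rw [hcl]; exact hUc⟩ ?_ (by rw [hcl]; exact ht)
    intro z hz
    rw [frontier_ball tc hϱ.ne'] at hz
    have hz0 : z ≠ 0 := by
      rintro rfl
      rw [mem_sphere] at hz
      rw [mem_ball] at h0
      exact absurd hz h0.ne
    have h1 := hb z hz
    have h2 : ‖N z‖ = ‖z‖ ^ 2 * ‖U z‖ := by rw [hUN z, norm_mul, norm_pow]
    have h3 : ‖z‖ ^ 2 * ‖U z‖ ≤ ‖z‖ ^ 2 * b := h2 ▸ h1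
    exact le_of_mul_le_mul_left h3 (by positivity)
  intro t ht
  have h2 : ‖N t‖ = ‖t‖ ^ 2 * ‖U t‖ := by rw [hUN t, norm_mul, norm_pow]
  show ‖N t‖ ≤ _
  rw [h2]
  exact mul_le_mul_of_nonneg_left (hmax t (ball_subset_closedBall ht)) (by positivity)

/-- all parameter directions are reached, with the bound `Ψ(depth/2)`, at the depths in `(δ₁, δt)`. -/
def S6All (h x₀ m r d α : ℝ) (Ψ : ℝ → ℝ) (δ₁ δt : ℝ) : Prop :=
  ∀ y t : ℂ, δ₁ < h - y.im → h - y.im < δt → |y.re - x₀| < m * (h - y.im) →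
    ‖t‖ < r * ((h - y.im) / d) ^ α →
    (y, t) ∈ Sh.s9Rmax ∧ ‖Sh.s9Smax (y, t) - y‖ ≤ ‖t‖ ^ 2 * Ψ ((h - y.im) / 2)

/-- the steep sectors are reached, with the bound `Ψ(depth)`, at the depths in `(d/2, δt)`. -/
def S6Stp (h x₀ L' γ r d α : ℝ) (Ψ : ℝ → ℝ) (δt : ℝ) : Prop :=
  ∀ y t : ℂ, d / 2 < h - y.im → h - y.im < δt → |y.re - x₀| < L' * (h - y.im) → γ * ‖t‖ < |t.im| →
    ‖t‖ < 10 * r * ((h - y.im) / d) ^ α →
    (y, t) ∈ Sh.s9Rmax ∧ ‖Sh.s9Smax (y, t) - y‖ ≤ ‖t‖ ^ 2 * Ψ (h - y.im)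

set_option maxHeartbeats 1600000 in
/-- LEAF F3: one band of analytic discs. -/
theorem s6_fill_step (hH : Sh.H ≠ ⊤) (α γ C₀ D₀ m h x₀ r d δs δt δ₁ : ℝ) (Ψ : ℝ → ℝ)
    (hα : 0 < α) (hα1 : α ≤ 1) (hγ : 0 < γ) (hC₀ : 0 < C₀) (hD₀ : 5 ≤ D₀ ^ α) (hD₀' : 5 ≤ D₀)
    (hbend : ∀ τ : ℝ, |τ| ≤ 1 / 3 →
      ∃ g₀ : ℂ → ℂ, DiffContOnCl ℂ g₀ (ball 0 1) ∧ g₀ 0 = 0 ∧
        (∀ ζ ∈ closedBall (0 : ℂ) 1, ‖g₀ ζ‖ ≤ C₀) ∧
        (∀ ζ ∈ closedBall (0 : ℂ) 1, (g₀ ζ).im ≤ 1 / 4) ∧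
        (∀ ζ ∈ sphere (0 : ℂ) 1, |ζ.im + τ| ≤ 4 / 3 * γ → (g₀ ζ).im ≤ -D₀))
    (hm : C₀ + 1 ≤ m * D₀) (hm0 : 0 < m) (hΨ : AntitoneOn Ψ (Ioi 0)) (hr : 0 < r) (hd : 0 < d)
    (hδ₁ : d ≤ δ₁) (hδ₁s : δ₁ ≤ δs) (hδt : (C₀ + D₀ + 3) * δs ≤ δt)
    (hρ : 10 * r * (δt / d) ^ α < Sh.ρ)
    (hsteep : Sh.S6Stp h x₀ (2 * (m + C₀) + 1) γ r d α Ψ δt)
    (hall : Sh.S6All h x₀ m r d α Ψ δ₁ δt) :
    Sh.S6All h x₀ m r d α Ψ (max (δ₁ / 2) d) δt := by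
  intro yc tc h1 h2 h3 h4
  by_cases hcase : δ₁ < h - yc.im
  · exact hall yc tc hcase h2 h3 h4
  rw [not_lt] at hcase
  obtain ⟨δ, hδdef⟩ : ∃ δ : ℝ, δ = h - yc.im := ⟨_, rfl⟩
  rw [← hδdef] at h1 h2 h3 h4 hcase ⊢
  have hδ1 : δ₁ / 2 < δ := lt_of_le_of_lt (le_max_left _ _) h1
  have hδd : d < δ := lt_of_le_of_lt (le_max_right _ _) h1
  have hδ0 : 0 < δ := lt_trans hd hδd
  have hP : 0 < (δ / d) ^ α := Real.rpow_pos_of_pos (by positivity) _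
  obtain ⟨R, hRdef⟩ : ∃ R : ℝ, R = r * (δ / d) ^ α := ⟨_, rfl⟩
  have hR : 0 < R := by rw [hRdef]; positivity
  rw [← hRdef] at h4
  have h3R : (0 : ℝ) < 3 * R := by positivity
  have h3Rne : ((3 * R : ℝ) : ℂ) ≠ 0 := by exact_mod_cast h3R.ne'
  -- the bending function
  have hτ : |tc.im / (3 * R)| ≤ 1 / 3 := by
    rw [abs_div, abs_of_pos h3R, div_le_div_iff₀ h3R (by norm_num)]
    have := Complex.abs_im_le_norm tc
    linarith
  obtain ⟨g₀, hg₀d, hg₀0, hg₀n, hg₀i, hg₀D⟩ := hbend _ hτ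
  set Z : ℂ → ℂ := fun t => (t - tc) / ((3 * R : ℝ) : ℂ) with hZ
  set g : ℂ → ℂ := fun t => yc + (δ : ℂ) * g₀ (Z t) with hg
  have hZn : ∀ t, ‖Z t‖ = ‖t - tc‖ / (3 * R) := by
    intro t
    simp only [hZ]
    rw [norm_div, Complex.norm_real, Real.norm_eq_abs, abs_of_pos h3R]
  have hZcl : ∀ t ∈ closedBall tc (3 * R), Z t ∈ closedBall (0 : ℂ) 1 := by
    intro t ht
    rw [mem_closedBall, dist_eq_norm] at ht
    rw [mem_closedBall, dist_zero_right, hZn, div_le_one h3R]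
    exact ht
  have hZb : MapsTo Z (ball tc (3 * R)) (ball (0 : ℂ) 1) := by
    intro t ht
    rw [mem_ball, dist_eq_norm] at ht
    rw [mem_ball, dist_zero_right, hZn, div_lt_one h3R]
    exact ht
  have hZs : ∀ t ∈ sphere tc (3 * R), Z t ∈ sphere (0 : ℂ) 1 := by
    intro t ht
    rw [mem_sphere, dist_eq_norm] at ht
    rw [mem_sphere, dist_zero_right, hZn, ht, div_self h3R.ne']
  have hZim : ∀ t, (Z t).im + tc.im / (3 * R) = t.im / (3 * R) := by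
    intro t
    simp only [hZ]
    rw [Complex.div_ofReal_im, Complex.sub_im]
    ring
  have hnt : ∀ t ∈ closedBall tc (3 * R), ‖t‖ < 4 * (r * (δ / d) ^ α) := by
    intro t ht
    rw [mem_closedBall, dist_eq_norm] at ht
    rw [← hRdef]
    have := norm_add_le (t - tc) tc
    rw [sub_add_cancel] at this
    linarith
  have hgd : DiffContOnCl ℂ g (ball tc (3 * R)) := by
    have hZd : DiffContOnCl ℂ Z (ball tc (3 * R)) := by
      apply Differentiable.diffContOnCl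
      simp only [hZ]
      fun_prop
    have hc := hg₀d.comp hZd hZb
    exact ⟨(hc.differentiableOn.const_mul _).const_add _,
      continuousOn_const.add (continuousOn_const.mul hc.continuousOn)⟩
  have hcl : closure (ball tc (3 * R)) = closedBall tc (3 * R) := closure_ball tc h3R.ne'
  have hfr : frontier (ball tc (3 * R)) = sphere tc (3 * R) := frontier_ball tc h3R.ne'
  have hsub : closedBall tc (3 * R) ⊆ ball (0 : ℂ) Sh.ρ := by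
    intro t ht
    rw [mem_ball, dist_zero_right]
    refine lt_trans (hnt t ht) (lt_of_le_of_lt ?_ hρ)
    have h5 : (δ / d) ^ α ≤ (δt / d) ^ α :=
      Real.rpow_le_rpow (by positivity) (div_le_div_of_nonneg_right h2.le hd.le) hα.le
    have h6 : r * (δ / d) ^ α ≤ r * (δt / d) ^ α := mul_le_mul_of_nonneg_left h5 hr.le
    have h7 : 0 < r * (δ / d) ^ α := by positivity
    linarith
  obtain ⟨r₀, hr₀def⟩ : ∃ r₀ : ℝ, r₀ = δ / (8 * (m + 1)) := ⟨_, rfl⟩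
  have hr₀0 : 0 < r₀ := by rw [hr₀def]; positivity
  have hr₀ : (m + 1) * r₀ = δ / 8 := by rw [hr₀def]; field_simp
  obtain ⟨s₀, hs₀def⟩ : ∃ s₀ : ℝ, s₀ = (D₀ + 1) * δ := ⟨_, rfl⟩
  have hs₀0 : 0 ≤ s₀ := by rw [hs₀def]; positivity
  -- bounds of `g₀`
  have hw : ∀ t ∈ closedBall tc (3 * R), |(g₀ (Z t)).re| ≤ C₀ ∧ -C₀ ≤ (g₀ (Z t)).im
      ∧ (g₀ (Z t)).im ≤ 1 / 4 := by
    intro t ht
    have hn := hg₀n _ (hZcl t ht)
    refine ⟨(Complex.abs_re_le_norm _).trans hn, ?_, hg₀i _ (hZcl t ht)⟩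
    have := (abs_le.1 ((Complex.abs_im_le_norm (g₀ (Z t))).trans hn)).1
    exact this
  -- deep points
  have hDeep : ∀ t ∈ closedBall tc (3 * R), ∀ s : ℝ, ∀ y ∈ ball (g t - (s : ℂ) * I) r₀,
      (D₀ + 1) * δ ≤ δ - δ * (g₀ (Z t)).im + s → s ≤ s₀ →
      (y, t) ∈ Sh.s9Rmax ∧ ‖Sh.s9Smax (y, t) - y‖ ≤ ‖t‖ ^ 2 * Ψ (δ / 2) := by
    intro t ht s y hy hb1 hs
    obtain ⟨w1, w2, w3⟩ := hw t ht
    obtain ⟨p1, p2⟩ := s6f_pt hδdef hy
    have hb2 : δ - δ * (g₀ (Z t)).im + s ≤ (C₀ + D₀ + 2) * δ := by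
      rw [hs₀def] at hs
      nlinarith
    obtain ⟨q1, q2, q3, q4, q5⟩ := s6f_all hα hC₀ hD₀ hD₀' hm hm0 hr hd hδ₁s hδt hδ1 hδd hcase hr₀
      hr₀0 hb1 hb2 p1 p2 w1 h3 (hnt t ht)
    obtain ⟨a1, a2⟩ := hall y t q1 q2 q3 q4
    refine ⟨a1, a2.trans (mul_le_mul_of_nonneg_left ?_ (by positivity))⟩
    exact hΨ (by show (0 : ℝ) < δ / 2; positivity) (by show (0 : ℝ) < (h - y.im) / 2; linarith)
      (by linarith)
  -- boundary points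
  have hBd : ∀ t ∈ sphere tc (3 * R), ∀ s ∈ Icc 0 s₀, ∀ y ∈ ball (g t - (s : ℂ) * I) r₀,
      (y, t) ∈ Sh.s9Rmax ∧ ‖Sh.s9Smax (y, t) - y‖ ≤ ‖t‖ ^ 2 * Ψ (δ / 2) := by
    intro t ht s hs y hy
    have htc : t ∈ closedBall tc (3 * R) := sphere_subset_closedBall ht
    obtain ⟨w1, w2, w3⟩ := hw t htc
    by_cases hA : |(Z t).im + tc.im / (3 * R)| ≤ 4 / 3 * γ
    · have hD := hg₀D _ (hZs t ht) hA
      apply hDeep t htc s y hy _ hs.2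
      nlinarith [hs.1]
    · rw [not_le] at hA
      obtain ⟨p1, p2⟩ := s6f_pt hδdef hy
      have hb1 : 3 / 4 * δ ≤ δ - δ * (g₀ (Z t)).im + s := by nlinarith [hs.1]
      have hb2 : δ - δ * (g₀ (Z t)).im + s ≤ (C₀ + D₀ + 2) * δ := by
        have := hs.2
        rw [hs₀def] at this
        nlinarith
      obtain ⟨q1, q2, q3, q4, q5⟩ := s6f_stp hα hα1 hC₀ hD₀' hm0 hr hd hδ₁s hδt hδd hcase hr₀
        hr₀0 hb1 hb2 p1 p2 w1 h3 (hnt t htc)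
      have hst : γ * ‖t‖ < |t.im| := by
        rw [hZim, abs_div, abs_of_pos h3R, lt_div_iff₀ h3R] at hA
        have := hnt t htc
        rw [← hRdef] at this
        have h8 := mul_lt_mul_of_pos_left this hγ
        linarith
      obtain ⟨a1, a2⟩ := hsteep y t q1 q2 q3 hst q4
      refine ⟨a1, a2.trans (mul_le_mul_of_nonneg_left ?_ (by positivity))⟩
      exact hΨ (by show (0 : ℝ) < δ / 2; positivity) (by show (0 : ℝ) < h - y.im; linarith) q5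
  -- the Kontinuitaetssatz
  have hk := Sh.s9k_konti hH (ball tc (3 * R)) isOpen_ball (by rw [hcl]; exact hsub) g hgd s₀ r₀ hs₀0
    hr₀0
    (by
      intro t ht
      rw [hcl] at ht
      obtain ⟨w1, w2, w3⟩ := hw t ht
      refine (hDeep t ht s₀ _ (mem_ball_self hr₀0) ?_ le_rfl).1
      rw [hs₀def]; nlinarith)
    (by
      intro t ht s hs y hy
      rw [hfr] at ht
      exact (hBd t ht s hs y hy).1)
  have hgtc : g tc = yc := by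
    simp only [hg, hZ, sub_self, zero_div, hg₀0, mul_zero, add_zero]
  have htcb : tc ∈ ball tc (3 * R) := mem_ball_self h3R
  have e0 : ∀ t, g t - ((0 : ℝ) : ℂ) * I = g t := by intro t; simp
  have hin : ∀ t ∈ closedBall tc (3 * R), (g t, t) ∈ Sh.s9Rmax := by
    intro t ht
    rcases (mem_closedBall.1 ht).lt_or_eq with hlt | heq
    · have := hk t (mem_ball.2 hlt) 0 ⟨le_rfl, hs₀0⟩
      rwa [e0] at this
    · have := (hBd t (mem_sphere.2 heq) 0 ⟨le_rfl, hs₀0⟩ (g t) (by rw [e0]; exact mem_ball_self hr₀0)).1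
      exact this
  have hU := Sh.s6_Umax tc (3 * R) (by linarith) hsub g hgd hin (Ψ (δ / 2))
    (fun t ht => (hBd t ht 0 ⟨le_rfl, hs₀0⟩ (g t) (by rw [e0]; exact mem_ball_self hr₀0)).2)
    tc htcb
  rw [hgtc] at hU
  have := hin tc (mem_closedBall_self h3R.le)
  rw [hgtc] at this
  exact ⟨this, hU⟩

end Shape

/-- **Analytic discs** (second half of the proof of P1 Theorem 6.3).  `γ` = steep cutoff, `C₀` = horizontal size of the discs, `D₀` = dip of the discs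
on the non-steep arcs, `m₁` = least admissible aperture. -/
theorem s6_fill (α : ℝ) (hα : 0 < α) (hα1 : α ≤ 1) :
    ∃ γ C₀ D₀ m₁ : ℝ, 0 < γ ∧ γ ≤ 1 ∧ 0 < C₀ ∧ 1 ≤ D₀ ∧ 0 < m₁ ∧
      ∀ (Sh : Shape), Sh.H ≠ ⊤ → ∀ (m h x₀ r d δs δt : ℝ) (Ψ : ℝ → ℝ), m₁ ≤ m →
        AntitoneOn Ψ (Ioi 0) → 0 < r → 0 < d → d ≤ δs → (C₀ + D₀ + 3) * δs ≤ δt →
        10 * r * (δt / d) ^ α < Sh.ρ →
        (∀ y t : ℂ, d / 2 < h - y.im → h - y.im < δt →
          |y.re - x₀| < (2 * (m + C₀) + 1) * (h - y.im) → γ * ‖t‖ < |t.im| →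
          ‖t‖ < 10 * r * ((h - y.im) / d) ^ α →
          (y, t) ∈ Sh.s9Rmax ∧ ‖Sh.s9Smax (y, t) - y‖ ≤ ‖t‖ ^ 2 * Ψ (h - y.im)) →
        (∀ y t : ℂ, δs ≤ h - y.im → h - y.im < δt → |y.re - x₀| < m * (h - y.im) →
          ‖t‖ < r * ((h - y.im) / d) ^ α →
          (y, t) ∈ Sh.s9Rmax ∧ ‖Sh.s9Smax (y, t) - y‖ ≤ ‖t‖ ^ 2 * Ψ ((h - y.im) / 2)) →
        ∀ y t : ℂ, d < h - y.im → h - y.im < δt → |y.re - x₀| < m * (h - y.im) →
          ‖t‖ < r * ((h - y.im) / d) ^ α →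
          (y, t) ∈ Sh.s9Rmax ∧ ‖Sh.s9Smax (y, t) - y‖ ≤ ‖t‖ ^ 2 * Ψ ((h - y.im) / 2) := by
  have h5 : (0 : ℝ) < 5 := by norm_num
  set D₀ : ℝ := 5 ^ (1 / α) with hD₀def
  have hD₀α : D₀ ^ α = 5 := by
    rw [hD₀def, ← Real.rpow_mul h5.le, one_div_mul_cancel hα.ne', Real.rpow_one]
  have hD₀5 : 5 ≤ D₀ := by
    have h1 : (1 : ℝ) ≤ 1 / α := by rw [le_div_iff₀ hα]; linarith
    calc (5 : ℝ) = 5 ^ (1 : ℝ) := (Real.rpow_one 5).symm
      _ ≤ 5 ^ (1 / α) := Real.rpow_le_rpow_of_exponent_le (by norm_num) h1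
  have hD₀0 : 0 < D₀ := by linarith
  obtain ⟨γ, C₀, hγ, hγ1, hC₀, hbend⟩ := s6_bend D₀ hD₀0
  refine ⟨γ, C₀, D₀, (C₀ + 1) / D₀, hγ, hγ1, hC₀, by linarith, by positivity, ?_⟩
  intro Sh hH m h x₀ r d δs δt Ψ hm hΨ hr hd hdδs hδt hρ hsteep hbase
  have hm' : C₀ + 1 ≤ m * D₀ := by rwa [div_le_iff₀ hD₀0] at hm
  have hm0 : 0 < m := lt_of_lt_of_le (by positivity) hm
  have hδs0 : 0 < δs := lt_of_lt_of_le hd hdδs
  have hind : ∀ k : ℕ, Sh.S6All h x₀ m r d α Ψ (max (δs / 2 ^ k) d) δt := by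
    intro k
    induction k with
    | zero =>
      intro y t h1 h2 h3 h4
      refine hbase y t ?_ h2 h3 h4
      have : δs ≤ max (δs / 2 ^ 0) d := by simp
      linarith
    | succ k ih =>
      have h1 : max (δs / 2 ^ k) d ≤ δs := by
        refine max_le ?_ hdδs
        exact div_le_self hδs0.le (one_le_pow₀ (by norm_num))
      have h2 := Sh.s6_fill_step hH α γ C₀ D₀ m h x₀ r d δs δt (max (δs / 2 ^ k) d) Ψ hα hα1 hγ hC₀
        hD₀α.ge hD₀5 hbend hm' hm0 hΨ hr hd (le_max_right _ _) h1 hδt hρ hsteep ih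
      have e : max (max (δs / 2 ^ k) d / 2) d = max (δs / 2 ^ (k + 1)) d := by
        have e1 : δs / 2 ^ (k + 1) = δs / 2 ^ k / 2 := by rw [pow_succ]; field_simp
        rw [e1]
        apply le_antisymm
        · refine max_le ?_ (le_max_right _ _)
          rcases le_total (δs / 2 ^ k) d with h3 | h3
          · rw [max_eq_right h3]
            exact le_max_of_le_right (by linarith)
          · rw [max_eq_left h3]
            exact le_max_left _ _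
        · refine max_le ?_ (le_max_right _ _)
          refine le_max_of_le_left ?_
          have := le_max_left (δs / 2 ^ k) d
          linarith
      rw [e] at h2
      exact h2
  obtain ⟨k, hk⟩ := pow_unbounded_of_one_lt (δs / d) (by norm_num : (1 : ℝ) < 2)
  have hk' : δs / 2 ^ k ≤ d := by
    rw [div_lt_iff₀ hd] at hk
    rw [div_le_iff₀ (by positivity)]
    linarith
  have := hind k
  rw [max_eq_right hk'] at this
  exact this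

end Claimed.Agent.R269
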