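/-
Row 269, P1 Section 6: EVENNESS IN THE PARAMETER of the width, the tube and the maximal passage.   Blueprint: helper218.   NO PAPER READING NEEDED.

E1 `Glance.s6e_hX_neg`.  `X0 (y,-t) = X0 (y,t)` for `y ∈ hstrip (s/2)`, `t ∈ ball 0 r₁` (`Θ_even` at `y ± t/2 ∈ hstrip (2s)`; `add_comm`).  If `IsPrimaryExt X0 b V F` then `IsPrimaryExt X0 b (-V) (fun z => F (z.1,-z.2))`
   (`Mero2At.comp` / `Mero2At.comp_of_le_map` of Lib/Mero2.lean with the linear involution `(y,t) ↦ (y,-t)`).  So `ExtendsTo X0 t b ↔ ExtendsTo X0 (-t) b`, and the two `sSup` are taken over the same set.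
E2 `Shape.s6e_T_neg`.  Unfold `Glance.tube`; `conj (-t) = - conj t`; E1.
E3 `Shape.s6e_passage_neg`.  Every field of `IsPassage` is transported by the homeomorphism `(y,t) ↦ (y,-t)`; `attached`: `S (·,-·) = lift (·,-·) = lift` near the base point (`lift_even` on the open set `T`, `s9k_tube.isOpen`).
E4 `Shape.s6e_Rmax_neg`, `Shape.s6e_Smax_neg`: E3 for `s9k_max` + `s9k_max_spec`.
-/
import Claimed.Agent.R269.S9.PassageMax
import Claimed.Agent.R269.Lib.Mero2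
import Claimed.Agent.R269.S5.LiftWidth

set_option autoImplicit false

namespace Claimed.Agent.R269

open Complex Filter Topology Set Metric
open scoped ENNReal Real

/-- E1: the width is even (from `Glance.hX_neg`, S5/LiftWidth.lean, leaf LF-S5d-width; outside the parameter disc both widths are `sSup ∅`). -/
theorem Glance.s6e_hX_neg (G : Glance) (t : ℂ) : G.hX (-t) = G.hX t := by
  by_cases ht : t ∈ ball (0 : ℂ) G.r₁
  · exact G.hX_neg ht
  · have key : ∀ u : ℂ, u ∉ ball (0 : ℂ) G.r₁ → G.hX u = 0 := by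
      intro u hu
      have : {w : ℝ≥0∞ | ∃ b : ℝ, G.s / 2 < b ∧ G.ExtendsTo G.X0 u b ∧ w = ENNReal.ofReal b} = ∅ := by
        ext w
        simp only [Set.mem_ofPred_eq, Set.mem_empty_iff_false, iff_false]
        rintro ⟨b, -, ⟨V, F, huV, hF⟩, -⟩
        exact hu (hF.sub huV)
      simp only [Glance.hX, Glance.width, this, sSup_empty, bot_eq_zero']
    have ht' : -t ∉ ball (0 : ℂ) G.r₁ := by
      simpa [mem_ball, dist_zero_right] using ht
    rw [key t ht, key (-t) ht']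

namespace Shape

variable (Sh : Shape)

/-- LEAF E2: the tube is symmetric. -/
theorem s6e_T_neg (y t : ℂ) : (y, -t) ∈ Sh.T ↔ (y, t) ∈ Sh.T := by
  have h1 : Sh.G.hX (-t) = Sh.G.hX t := Sh.G.s6e_hX_neg t
  have h2 : Sh.G.hX ((starRingEnd ℂ) (-t)) = Sh.G.hX ((starRingEnd ℂ) t) := by
    rw [map_neg]; exact Sh.G.s6e_hX_neg _
  have h3 : -t ∈ ball (0 : ℂ) Sh.ρ ↔ t ∈ ball (0 : ℂ) Sh.ρ := by
    simp [mem_ball_zero_iff]
  show (-t ∈ ball (0 : ℂ) Sh.ρ ∧ ENNReal.ofReal y.im < Sh.G.hX (-t) ∧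
    ENNReal.ofReal (-y.im) < Sh.G.hX ((starRingEnd ℂ) (-t))) ↔
    (t ∈ ball (0 : ℂ) Sh.ρ ∧ ENNReal.ofReal y.im < Sh.G.hX t ∧
    ENNReal.ofReal (-y.im) < Sh.G.hX ((starRingEnd ℂ) t))
  rw [h1, h2, h3]

/-- LEAF E3: the reflection of a passage is a passage. -/
theorem s6e_passage_neg {R : Set (ℂ × ℂ)} {S : ℂ × ℂ → ℂ} (hP : Sh.IsPassage R S) :
    Sh.IsPassage {z | (z.1, -z.2) ∈ R} (fun z => S (z.1, -z.2)) := by
  have hνc : Continuous (fun z : ℂ × ℂ => (z.1, -z.2)) := by fun_prop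
  have hνd : Differentiable ℂ (fun z : ℂ × ℂ => (z.1, -z.2)) := by fun_prop
  refine ⟨hP.isOpen.preimage hνc, hP.diff.comp hνd.differentiableOn (fun z hz => hz),
    fun z hz => hP.mem _ hz, fun z hz => ?_, fun z hz => ?_⟩
  · have := hP.param _ hz
    simpa [mem_ball_zero_iff] using this
  · obtain ⟨η, hη, hseg, hbT, hev⟩ := hP.attached _ hz
    simp only at hη hseg hbT hev
    have hbT' : ((⟨z.1.re, η⟩ : ℂ), z.2) ∈ Sh.T := (Sh.s6e_T_neg _ _).1 hbT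
    refine ⟨η, hη, fun τ hτ => hseg τ hτ, hbT', ?_⟩
    have h1 : ∀ᶠ w in 𝓝 ((⟨z.1.re, η⟩ : ℂ), z.2), S (w.1, -w.2) = Sh.lift (w.1, -w.2) :=
      (hνc.tendsto ((⟨z.1.re, η⟩ : ℂ), z.2)).eventually hev
    filter_upwards [h1, Sh.s9k_T_open.mem_nhds hbT'] with w hw1 hw2
    rw [hw1, Sh.lift_even w hw2]

/-- LEAF E4a: the maximal passage is symmetric. -/
theorem s6e_Rmax_neg (y t : ℂ) : (y, -t) ∈ Sh.s9Rmax ↔ (y, t) ∈ Sh.s9Rmax := by
  have hsub := (Sh.s9k_max_spec (Sh.s6e_passage_neg Sh.s9k_max)).1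
  constructor
  · intro h
    exact hsub (show ((y, t) : ℂ × ℂ) ∈ {z : ℂ × ℂ | (z.1, -z.2) ∈ Sh.s9Rmax} from h)
  · intro h
    apply hsub
    show (y, - -t) ∈ Sh.s9Rmax
    rwa [neg_neg]

/-- LEAF E4b: the maximal passage is even. -/
theorem s6e_Smax_neg (y t : ℂ) (h : (y, t) ∈ Sh.s9Rmax) : Sh.s9Smax (y, -t) = Sh.s9Smax (y, t) := by
  have heq := (Sh.s9k_max_spec (Sh.s6e_passage_neg Sh.s9k_max)).2
  have hm : ((y, -t) : ℂ × ℂ) ∈ {z : ℂ × ℂ | (z.1, -z.2) ∈ Sh.s9Rmax} := by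
    show (y, - -t) ∈ Sh.s9Rmax
    rwa [neg_neg]
  have := heq hm
  simp only [neg_neg] at this
  exact this.symm

end Shape

end Claimed.Agent.R269
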