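/-
Row 269, P1 Section 6: GLUING A HOLOMORPHIC FUNCTION TO THE MAXIMAL PASSAGE.   Blueprint: helper218.   NO PAPER READING NEEDED.

`Shape.s6_extend`.  `R' = Rmax ∪ O`, `S'' z = Smax z` for `z ∈ Rmax`, `S' z` otherwise.
 (1) `S' = Smax` on `O ∩ Rmax`: let `z = (y,t)`, `b = (⟨Re y, η⟩, t)` from `hatt`.  The vertical segment from `b` to `z` lies in `O` (`hatt`) and in `Rmax` (`s9k_fibre`, both end points are in `Rmax`).  `u ↦ S' (u,t)` and `u ↦ Smax (u,t)` are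
     analytic at every point of the segment (one variable, `DifferentiableOn.analyticAt` on the open fibres), equal near `b`: `AnalyticOnNhd.eqOn_of_preconnected_of_eventuallyEq`.
 (2) so `S'' = S'` on the open set `O` and `S'' = Smax` on the open set `Rmax`: `diff`, `mem`, `param` are local.
 (3) `attached` for `z ∈ O`: go down to `b` inside `O`, then use `attached` of `s9k_max` at `b` (it gives `η' ≤ η`); concatenate the two segments; `S'' = Smax = lift` near the base point.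
 (4) `s9k_max_spec`: `R' ⊆ Rmax`, `S'' = Smax` on `R'`.
-/
import Claimed.Agent.R269.S9.PassageMax

set_option autoImplicit false

namespace Claimed.Agent.R269

open Complex Filter Topology Set Metric
open scoped ENNReal Real

/-- identity theorem along a vertical segment with the parameter fixed. -/
theorem s6x_vert {U : Set (ℂ × ℂ)} (hU : IsOpen U) {F G : ℂ × ℂ → ℂ} (hF : DifferentiableOn ℂ F U)
    (hG : DifferentiableOn ℂ G U) {x η τ₁ : ℝ} {t : ℂ} (hη : η ≤ τ₁)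
    (hseg : ∀ τ ∈ Icc η τ₁, ((⟨x, τ⟩ : ℂ), t) ∈ U)
    (heq : F =ᶠ[𝓝 ((⟨x, η⟩ : ℂ), t)] G) : F ((⟨x, τ₁⟩ : ℂ), t) = G ((⟨x, τ₁⟩ : ℂ), t) := by
  have hcont : Continuous fun u : ℂ => (u, t) := by fun_prop
  set Ut : Set ℂ := (fun u : ℂ => (u, t)) ⁻¹' U with hUt
  have hUto : IsOpen Ut := hU.preimage hcont
  have hdiffmap : Differentiable ℂ fun u : ℂ => (u, t) := by fun_prop
  have hF1 : DifferentiableOn ℂ (fun u : ℂ => F (u, t)) Ut :=
    hF.comp hdiffmap.differentiableOn (fun u hu => hu)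
  have hG1 : DifferentiableOn ℂ (fun u : ℂ => G (u, t)) Ut :=
    hG.comp hdiffmap.differentiableOn (fun u hu => hu)
  set Sg : Set ℂ := (fun τ : ℝ => (⟨x, τ⟩ : ℂ)) '' Icc η τ₁ with hSg
  have hSgU : Sg ⊆ Ut := by
    rintro _ ⟨τ, hτ, rfl⟩
    exact hseg τ hτ
  have hcv : Continuous fun τ : ℝ => (⟨x, τ⟩ : ℂ) := by
    have : (fun τ : ℝ => (⟨x, τ⟩ : ℂ)) = fun τ : ℝ => (x : ℂ) + (τ : ℂ) * I := by
      funext τ
      apply Complex.ext <;> simp
    rw [this]
    fun_prop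
  have hSgc : IsPreconnected Sg := isPreconnected_Icc.image _ hcv.continuousOn
  have h1 : (fun u : ℂ => F (u, t)) =ᶠ[𝓝 (⟨x, η⟩ : ℂ)] fun u : ℂ => G (u, t) :=
    hcont.continuousAt.eventually heq
  have := ((hF1.analyticOnNhd hUto).mono hSgU).eqOn_of_preconnected_of_eventuallyEq
    ((hG1.analyticOnNhd hUto).mono hSgU) hSgc ⟨η, ⟨le_rfl, hη⟩, rfl⟩ h1
  exact this ⟨τ₁, ⟨hη, le_rfl⟩, rfl⟩

open Classical in
/-- LEAF X: a holomorphic function with values in the shape strip, on an open set each point of which is joined downwards inside the set to a point where the function coincides with the maximal passage, is part of the maximal passage. -/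
theorem Shape.s6_extend (Sh : Shape) (O : Set (ℂ × ℂ)) (hO : IsOpen O) (S' : ℂ × ℂ → ℂ)
    (hS' : DifferentiableOn ℂ S' O) (hD : ∀ z ∈ O, S' z ∈ Sh.D)
    (hρ : ∀ z ∈ O, z.2 ∈ ball (0 : ℂ) Sh.ρ)
    (hatt : ∀ z ∈ O, ∃ η : ℝ, η ≤ z.1.im ∧ (∀ τ ∈ Icc η z.1.im, ((⟨z.1.re, τ⟩ : ℂ), z.2) ∈ O) ∧
      ((⟨z.1.re, η⟩ : ℂ), z.2) ∈ Sh.s9Rmax ∧ S' =ᶠ[𝓝 ((⟨z.1.re, η⟩ : ℂ), z.2)] Sh.s9Smax) :
    O ⊆ Sh.s9Rmax ∧ EqOn S' Sh.s9Smax O := by
  have hmax := Sh.s9k_max
  have hRo : IsOpen Sh.s9Rmax := hmax.isOpen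
  -- (1) equality on the intersection
  have h1 : ∀ z ∈ O, z ∈ Sh.s9Rmax → S' z = Sh.s9Smax z := by
    rintro ⟨y, t⟩ hzO hzR
    obtain ⟨η, hη, hseg, hb, heq⟩ := hatt (y, t) hzO
    simp only at hη hseg hb heq
    have hyy : (⟨y.re, y.im⟩ : ℂ) = y := Complex.eta y
    have hsegR : ∀ τ ∈ Icc η y.im, ((⟨y.re, τ⟩ : ℂ), t) ∈ Sh.s9Rmax := fun τ hτ =>
      Sh.s9k_fibre y.re η y.im τ t hb (by rw [hyy]; exact hzR) hτ
    have := s6x_vert (hO.inter hRo) (hS'.mono inter_subset_left) (hmax.diff.mono inter_subset_right)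
      hη (fun τ hτ => ⟨hseg τ hτ, hsegR τ hτ⟩) heq
    rwa [hyy] at this
  -- the glued function
  set S'' : ℂ × ℂ → ℂ := fun z => if z ∈ Sh.s9Rmax then Sh.s9Smax z else S' z with hS''
  have hA : ∀ z ∈ Sh.s9Rmax, S'' z = Sh.s9Smax z := fun z hz => by simp only [hS'', if_pos hz]
  have hB : ∀ z ∈ O, S'' z = S' z := fun z hz => by
    by_cases hzR : z ∈ Sh.s9Rmax
    · rw [hA z hzR, h1 z hz hzR]
    · simp only [hS'', if_neg hzR]
  have hAe : ∀ z ∈ Sh.s9Rmax, S'' =ᶠ[𝓝 z] Sh.s9Smax := fun z hz => by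
    filter_upwards [hRo.mem_nhds hz] with w hw using hA w hw
  have hBe : ∀ z ∈ O, S'' =ᶠ[𝓝 z] S' := fun z hz => by
    filter_upwards [hO.mem_nhds hz] with w hw using hB w hw
  have hP : Sh.IsPassage (Sh.s9Rmax ∪ O) S'' := by
    refine ⟨hRo.union hO, ?_, ?_, ?_, ?_⟩
    · rintro z (hz | hz)
      · exact (((hmax.diff z hz).differentiableAt (hRo.mem_nhds hz)).congr_of_eventuallyEq
          (hAe z hz)).differentiableWithinAt
      · exact (((hS' z hz).differentiableAt (hO.mem_nhds hz)).congr_of_eventuallyEq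
          (hBe z hz)).differentiableWithinAt
    · rintro z (hz | hz)
      · rw [hA z hz]; exact hmax.mem z hz
      · rw [hB z hz]; exact hD z hz
    · rintro z (hz | hz)
      · exact hmax.param z hz
      · exact hρ z hz
    · rintro z (hz | hz)
      · obtain ⟨η, hη, hseg, hT, heq⟩ := hmax.attached z hz
        exact ⟨η, hη, fun τ hτ => Or.inl (hseg τ hτ), hT,
          (hAe _ (hseg η ⟨le_rfl, hη⟩)).trans heq⟩
      · obtain ⟨η, hη, hseg, hb, -⟩ := hatt z hz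
        obtain ⟨η', hη', hseg', hT, heq⟩ := hmax.attached _ hb
        simp only at hη' hseg' hT heq
        refine ⟨η', hη'.trans hη, fun τ hτ => ?_, hT, (hAe _ (hseg' η' ⟨le_rfl, hη'⟩)).trans heq⟩
        rcases le_total τ η with h | h
        · exact Or.inl (hseg' τ ⟨hτ.1, h⟩)
        · exact Or.inr (hseg τ ⟨h, hτ.2⟩)
  obtain ⟨hsub, heqOn⟩ := Sh.s9k_max_spec hP
  refine ⟨fun z hz => hsub (Or.inr hz), fun z hz => ?_⟩
  rw [← hB z hz]
  exact heqOn (Or.inr hz)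

end Claimed.Agent.R269
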