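/-
Row 269, P1 Section 6, PACKAGE STEEP (first half of the proof of Theorem 6.3): DEFINITIONS AND ROUTE.   Blueprint: helper218.   NO PAPER READING NEEDED.

NOTATION.  `x = h - Im y` = depth of `y` below the reference height `h`;  `S = s9Smax`, `Rmax = s9Rmax` (S9/PassageMax.lean);  `chREC`, `ch_rec`, `chStadium`, `chord_step`, `ch_root_holo` (Lib/Chord*.lean, helper146).
A context `c : Sh.S6Ctx` bundles all parameters and all numerical inequalities between the constants; NOTHING else is used in the leaves.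

ROUTE (upward parameters `γ|t| < Im t`; the downward ones follow from evenness, S6/Even.lean).
 The backward orbit `y, y-t, y-2t, ...` goes DOWN (depth increases by `Im t ≥ γ|t|`), stays in the cone (`1/γ ≤ L'`) and reaches the slab `σ ≤ x ≤ σ+τ`, where it makes at least three steps (`3ρ₀ ≤ τ`).
 `c.Cond y t`  : the region.   `c.Kset j` : the points of the region with `σ - j Im t < x` ("reached after `j` steps").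
 `c.Inv j`     : on `Kset j`:  `(y,t) ∈ Rmax`,   (E2) `|S(y,t) - y| ≤ b2(t,x)`,   (E1) `|S(y,t) - S(y-t,t) - t| ≤ |t| b1(t,x)` if `x + Im t < σ+τ`;
                 `b1(t,x) = |t|² (A₁ + Ca B² x^(-2α))`,   `b2(t,x) = |t|² (A₀ + A₁ (σ+τ-x)/γ + Cb B² x^(1-2α))`.
 `Inv 0` = slab data.   `Inv j → Inv (j+1)`: on `O = c.Oset j = {Cond, σ - (j+1) Im t < x, x + 2 Im t < σ+τ}` put `s = S(y-t,t)`, `s₋ = S(y-2t,t)`, `J₋ = (s - s₋)/t`; the step lemma (`S6StepProp`, stadium of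
 thickness `w = x/(4|t|) ≥ w₀ = 1/(4K)`, field `a = 2^α |t| B x^(-α)`) gives the root `J₊`, holomorphic on `O`; `S' = s + t J₊` is glued to the maximal passage by `Shape.s6_extend`;
 `|J₊ - J₋| ≤ C₁ a²/w = 4^(α+1) C₁ |t|³ B² x^(-2α-1)` and the two barrier inequalities close the induction.
-/
import Claimed.Agent.R269.S6.Defs
import Claimed.Agent.R269.Lib.ChordHost
import Claimed.Agent.R269.Lib.ChordStep

set_option autoImplicit false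

namespace Claimed.Agent.R269

open Complex Filter Topology Set Metric
open scoped ENNReal Real

namespace Shape

variable (Sh : Shape)

/-- the step lemma in the variables of the shape strip: `s₋ = s - t J₋`, `s₊ = s + t J₊`; fields bounded by `a/|t|` on the stadium of thickness `w ≥ w₀` about `[s-t,s+t]`. -/
def S6StepProp (w₀ e₁ C₁ : ℝ) : Prop :=
  ∀ (s t Jm : ℂ) (w a : ℝ), w₀ ≤ w → t ≠ 0 → a ≤ e₁ →
    (∀ u ∈ chStadium w, s + t * u ∈ Sh.D ∧ ‖t‖ * Sh.M (s + t * u) ≤ a) → ‖Jm - 1‖ ≤ w₀ / 8 →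
    ∃ Jp : ℂ, ‖Jp - 1‖ < w₀ / 4 ∧ Sh.chREC (s - t * Jm) s (s + t * Jp) = 0 ∧
      deriv (fun J : ℂ => Sh.chREC (s - t * Jm) s (s + t * J)) Jp ≠ 0 ∧ ‖Jp - Jm‖ ≤ C₁ * a ^ 2 / w ∧
      ∀ J : ℂ, ‖J - 1‖ < w₀ / 4 → Sh.chREC (s - t * Jm) s (s + t * J) = 0 → J = Jp

/-- all parameters of the steep-sector estimate, with the inequalities between them. -/
structure S6Ctx where
  (α γ K w₀ e₁ C₁ Ca Cb ε₁ c₀ : ℝ)
  (h x₀ L' lo σ τ hi B A₀ A₁ ρ₀ : ℝ)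
  hα : 1 / 2 < α
  hγ : 0 < γ
  hγ1 : γ ≤ 1
  hK : 1 ≤ K
  hw₀ : w₀ = 1 / (4 * K)
  he₁ : 0 < e₁
  hC₁ : 0 < C₁
  hCa0 : 0 < Ca
  hCb0 : 0 < Cb
  hε₁ : 0 < ε₁
  hc₀ : 0 < c₀
  hstep : Sh.S6StepProp w₀ e₁ C₁
  /-- first barrier constant -/
  hCa : 4 ^ (α + 1) * C₁ * (1 + K) ^ (2 * α + 1) ≤ Ca * (2 * α * γ)
  /-- second barrier constant -/
  hCb : Ca * (1 + K) ^ (2 * α) ≤ Cb * ((2 * α - 1) * γ)
  hεe : 2 ^ α * ε₁ ≤ e₁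
  hεa : c₀ + Ca * ε₁ ^ 2 ≤ w₀ / 8
  hεb : c₀ + Cb * ε₁ ^ 2 ≤ 1 / 8
  hD : ∀ s : ℂ, 0 < h - s.im → h - s.im ≤ hi → s ∈ Sh.D
  hL' : 1 / γ ≤ L'
  hlo : 0 < lo
  hloσ : lo ≤ σ
  hτ : 0 < τ
  hhi : 3 / 2 * (σ + τ) ≤ hi
  hB : 0 < B
  hA₀ : 0 ≤ A₀
  hA₁ : 0 ≤ A₁
  hρ₀ : 0 < ρ₀
  hρ₀ρ : ρ₀ ≤ Sh.ρ
  hρ₀τ : 3 * ρ₀ ≤ τ
  hsm0 : (A₀ + A₁ * (σ + τ) / γ) * ρ₀ * K ≤ c₀
  hsm1 : A₁ * ρ₀ ^ 2 ≤ c₀
  field : Sh.S6Field h x₀ (2 * L' + 1) (lo / 2) hi B α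
  slab : Sh.S6Slab h x₀ L' σ τ ρ₀ A₀ A₁

namespace S6Ctx

variable {Sh} (c : Sh.S6Ctx)

/-- the region (upward steep parameters). -/
def Cond (y t : ℂ) : Prop :=
  c.lo < c.h - y.im ∧ c.h - y.im < c.σ + c.τ ∧ |y.re - c.x₀| < c.L' * (c.h - y.im) ∧
    c.γ * ‖t‖ < t.im ∧ ‖t‖ < c.ρ₀ ∧ ‖t‖ < c.K * (c.h - y.im) ∧ ‖t‖ * c.B * (c.h - y.im) ^ (-c.α) < c.ε₁

/-- the points of the region reached after `j` steps from the slab. -/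
def Kset (j : ℕ) : Set (ℂ × ℂ) := {z | c.Cond z.1 z.2 ∧ c.σ - j * z.2.im < c.h - z.1.im}

/-- the domain of the `(j+1)`-st step. -/
def Oset (j : ℕ) : Set (ℂ × ℂ) :=
  {z | c.Cond z.1 z.2 ∧ c.σ - (j + 1 : ℕ) * z.2.im < c.h - z.1.im ∧ c.h - z.1.im + 2 * z.2.im < c.σ + c.τ}

/-- barrier for `|J - 1|`. -/
noncomputable def b1 (t : ℂ) (x : ℝ) : ℝ := ‖t‖ ^ 2 * (c.A₁ + c.Ca * c.B ^ 2 * x ^ (-(2 * c.α)))

/-- barrier for `|S - y|`. -/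
noncomputable def b2 (t : ℂ) (x : ℝ) : ℝ :=
  ‖t‖ ^ 2 * (c.A₀ + c.A₁ * (c.σ + c.τ - x) / c.γ + c.Cb * c.B ^ 2 * x ^ (1 - 2 * c.α))

/-- the induction hypothesis. -/
def Inv (j : ℕ) : Prop :=
  ∀ y t : ℂ, (y, t) ∈ c.Kset j → (y, t) ∈ Sh.s9Rmax ∧
    ‖Sh.s9Smax (y, t) - y‖ ≤ c.b2 t (c.h - y.im) ∧
    (c.h - y.im + t.im < c.σ + c.τ →
      ‖Sh.s9Smax (y, t) - Sh.s9Smax (y - t, t) - t‖ ≤ ‖t‖ * c.b1 t (c.h - y.im))

end S6Ctx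

end Shape

end Claimed.Agent.R269
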