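/-
Row 269, P1 Section 6, PACKAGE STEEP: THE BARRIER INEQUALITIES.   Blueprint: helper218.   NO PAPER READING NEEDED; real analysis (rpow) from the fields of `S6Ctx` (S6/SteepDefs.lean).

HOST-FREE CORE.  For `p > 0`, `0 < x`, `0 ≤ τ'`:   `x^(-p) - (x+τ')^(-p) ≥ p τ' (x+τ')^(-p-1)`   (mean value theorem / convexity of `x^(-p)`: `s6_rpow_barrier`).
B1 `barrier1`.  `C₁ a²/w` with `a = 2^α |t| B x^(-α)`, `w = x/(4|t|)` equals `4^(α+1) C₁ |t|³ B² x^(-2α-1)`.   `b1 t x - b1 t (x+τ') = |t|² Ca B² (x^(-2α) - (x+τ')^(-2α)) ≥ |t|² Ca B² 2α τ' (x+τ')^(-2α-1)`,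
    `τ' ≥ γ|t|`, `x + τ' ≤ (1+K) x` so `(x+τ')^(-2α-1) ≥ (1+K)^(-2α-1) x^(-2α-1)`; `hCa`.
B2 `barrier2`.  `b2 t x - b2 t (x+τ') = |t|² (A₁ τ'/γ + Cb B² (x^(1-2α) - (x+τ')^(1-2α))) ≥ |t|³ (A₁ + Cb B² (2α-1) γ (1+K)^(-2α) x^(-2α)) ≥ |t| b1 t x`; `hCb`.
B3 `b1_le`: `b1 t x = A₁|t|² + Ca (|t| B x^(-α))² ≤ A₁ ρ₀² + Ca ε₁² ≤ c₀ + Ca ε₁² ≤ w₀/8`.
B4 `b2_le`: `|t|² (A₀ + A₁(σ+τ-x)/γ) ≤ (K x) ρ₀ (A₀ + A₁(σ+τ)/γ) ≤ c₀ x`;  `Cb |t|² B² x^(1-2α) = Cb (|t| B x^(-α))² x ≤ Cb ε₁² x`; `hεb`.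
B5 `b1`, `b2` are antitone in `x` on `Ioi 0`.
-/
import Claimed.Agent.R269.S6.SteepDefs

set_option autoImplicit false

namespace Claimed.Agent.R269

open Complex Filter Topology Set Metric
open scoped ENNReal Real

/-- LEAF B0 (host-free). -/
theorem s6_rpow_barrier (p x τ' : ℝ) (hp : 0 < p) (hx : 0 < x) (hτ' : 0 ≤ τ') :
    p * τ' * (x + τ') ^ (-p - 1) ≤ x ^ (-p) - (x + τ') ^ (-p) := by
  rcases hτ'.eq_or_lt with h0 | h0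
  · rw [← h0]; simp
  have hab : x < x + τ' := by linarith
  obtain ⟨c, hc, hc'⟩ := exists_hasDerivAt_eq_slope (fun z : ℝ => z ^ (-p))
    (fun z : ℝ => (-p) * z ^ (-p - 1)) hab
    (fun z hz => (Real.continuousAt_rpow_const z (-p)
      (Or.inl (by linarith [hz.1] : z ≠ 0))).continuousWithinAt)
    (fun z hz => Real.hasDerivAt_rpow_const (Or.inl (by linarith [hz.1] : z ≠ 0)))
  have e : x + τ' - x = τ' := by ring
  rw [e, eq_div_iff h0.ne'] at hc'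
  have hc0 : 0 < c := by linarith [hc.1]
  have h1 : (x + τ') ^ (-p - 1) ≤ c ^ (-p - 1) :=
    Real.rpow_le_rpow_of_nonpos hc0 hc.2.le (by linarith)
  have h2 : p * τ' * (x + τ') ^ (-p - 1) ≤ p * τ' * c ^ (-p - 1) :=
    mul_le_mul_of_nonneg_left h1 (by positivity)
  linarith

/-- comparison of the negative power at `x + τ'` with the one at `x`. -/
theorem s6bar_shift {K x τ' e : ℝ} (hK : 0 ≤ K) (hx : 0 < x) (hτ0 : 0 ≤ τ') (hτ : τ' ≤ K * x)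
    (he : 0 ≤ e) : x ^ (-e) / (1 + K) ^ e ≤ (x + τ') ^ (-e) := by
  have h1 : ((1 + K) * x) ^ (-e) ≤ (x + τ') ^ (-e) :=
    Real.rpow_le_rpow_of_nonpos (by linarith) (by linarith) (by linarith)
  rw [Real.mul_rpow (by linarith) hx.le, Real.rpow_neg (by linarith : (0 : ℝ) ≤ 1 + K)] at h1
  calc x ^ (-e) / (1 + K) ^ e = ((1 + K) ^ e)⁻¹ * x ^ (-e) := by rw [div_eq_mul_inv, mul_comm]
    _ ≤ _ := h1

theorem s6bar_1 {α γ K C₁ Ca B A₁ x τ' n : ℝ} (hα : 1 / 2 < α) (hγ : 0 < γ) (hK : 1 ≤ K)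
    (hCa0 : 0 < Ca) (hx : 0 < x) (hn : 0 < n) (h1 : γ * n ≤ τ') (h3 : τ' ≤ K * x)
    (hCa : 4 ^ (α + 1) * C₁ * (1 + K) ^ (2 * α + 1) ≤ Ca * (2 * α * γ)) :
    n ^ 2 * (A₁ + Ca * B ^ 2 * (x + τ') ^ (-(2 * α)))
        + C₁ * (2 ^ α * (n * B * x ^ (-α))) ^ 2 / (x / (4 * n))
      ≤ n ^ 2 * (A₁ + Ca * B ^ 2 * x ^ (-(2 * α))) := by
  have hτ0 : 0 ≤ τ' := le_trans (by positivity) h1
  have hb := s6_rpow_barrier (2 * α) x τ' (by linarith) hx hτ0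
  have hs := s6bar_shift (e := 2 * α + 1) (by linarith) hx hτ0 h3 (by linarith)
  have e0 : -(2 * α + 1) = -(2 * α) - 1 := by ring
  rw [e0] at hs
  set X := x ^ (-(2 * α) - 1) with hX
  set Q := (1 + K) ^ (2 * α + 1) with hQ
  have hXp : 0 < X := Real.rpow_pos_of_pos hx _
  have hQp : 0 < Q := Real.rpow_pos_of_pos (by linarith) _
  -- the term
  have e1 : (2 : ℝ) ^ α * 2 ^ α = 4 ^ α := by
    rw [← Real.mul_rpow (by norm_num) (by norm_num)]; norm_num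
  have e2 : x ^ (-α) * x ^ (-α) = x ^ (-(2 * α)) := by
    rw [← Real.rpow_add hx]; congr 1; ring
  have e3 : X = x ^ (-(2 * α)) / x := Real.rpow_sub_one hx.ne' _
  have e4 : (4 : ℝ) ^ (α + 1) = 4 ^ α * 4 := Real.rpow_add_one (by norm_num) _
  have term : C₁ * (2 ^ α * (n * B * x ^ (-α))) ^ 2 / (x / (4 * n))
      = 4 ^ (α + 1) * C₁ * (n ^ 3 * B ^ 2 * X) := by
    rw [e3, e4, ← e1, ← e2]
    field_simp
  rw [term]
  -- lower bound of the difference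
  have d1 : 2 * α * (γ * n) * (X / Q) ≤ x ^ (-(2 * α)) - (x + τ') ^ (-(2 * α)) := by
    refine le_trans ?_ hb
    have : 2 * α * (γ * n) * (X / Q) ≤ 2 * α * τ' * (X / Q) := by
      apply mul_le_mul_of_nonneg_right _ (by positivity)
      apply mul_le_mul_of_nonneg_left h1 (by linarith)
    refine this.trans ?_
    apply mul_le_mul_of_nonneg_left hs
    have : 0 ≤ α := by linarith
    positivity
  have d2 : 4 ^ (α + 1) * C₁ ≤ Ca * (2 * α * γ) / Q := by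
    rw [le_div_iff₀ hQp]; exact hCa
  have d3 : 4 ^ (α + 1) * C₁ * (n ^ 3 * B ^ 2 * X) ≤ Ca * (2 * α * γ) / Q * (n ^ 3 * B ^ 2 * X) :=
    mul_le_mul_of_nonneg_right d2 (by positivity)
  have d4 : n ^ 2 * (Ca * B ^ 2) * (2 * α * (γ * n) * (X / Q))
      ≤ n ^ 2 * (Ca * B ^ 2) * (x ^ (-(2 * α)) - (x + τ') ^ (-(2 * α))) :=
    mul_le_mul_of_nonneg_left d1 (by positivity)
  have e5 : Ca * (2 * α * γ) / Q * (n ^ 3 * B ^ 2 * X)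
      = n ^ 2 * (Ca * B ^ 2) * (2 * α * (γ * n) * (X / Q)) := by
    field_simp
  nlinarith

theorem s6bar_2 {α γ K Ca Cb B A₀ A₁ S x τ' n : ℝ} (hα : 1 / 2 < α) (hγ : 0 < γ) (hK : 1 ≤ K)
    (hCb0 : 0 < Cb) (hA₁ : 0 ≤ A₁) (hx : 0 < x) (hn : 0 < n) (h1 : γ * n ≤ τ') (h3 : τ' ≤ K * x)
    (hCb : Ca * (1 + K) ^ (2 * α) ≤ Cb * ((2 * α - 1) * γ)) :
    n ^ 2 * (A₀ + A₁ * (S - (x + τ')) / γ + Cb * B ^ 2 * (x + τ') ^ (1 - 2 * α))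
        + n * (n ^ 2 * (A₁ + Ca * B ^ 2 * x ^ (-(2 * α))))
      ≤ n ^ 2 * (A₀ + A₁ * (S - x) / γ + Cb * B ^ 2 * x ^ (1 - 2 * α)) := by
  have hτ0 : 0 ≤ τ' := le_trans (by positivity) h1
  have hb := s6_rpow_barrier (2 * α - 1) x τ' (by linarith) hx hτ0
  have hs := s6bar_shift (e := 2 * α) (by linarith) hx hτ0 h3 (by linarith)
  have e0 : -(2 * α - 1) - 1 = -(2 * α) := by ring
  have e0' : -(2 * α - 1) = 1 - 2 * α := by ring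
  rw [e0, e0'] at hb
  set X := x ^ (-(2 * α)) with hX
  set Q := (1 + K) ^ (2 * α) with hQ
  have hXp : 0 < X := Real.rpow_pos_of_pos hx _
  have hQp : 0 < Q := Real.rpow_pos_of_pos (by linarith) _
  have d1 : (2 * α - 1) * (γ * n) * (X / Q) ≤ x ^ (1 - 2 * α) - (x + τ') ^ (1 - 2 * α) := by
    refine le_trans ?_ hb
    have : (2 * α - 1) * (γ * n) * (X / Q) ≤ (2 * α - 1) * τ' * (X / Q) := by
      apply mul_le_mul_of_nonneg_right _ (by positivity)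
      apply mul_le_mul_of_nonneg_left h1 (by linarith)
    refine this.trans ?_
    apply mul_le_mul_of_nonneg_left hs
    have : 0 ≤ 2 * α - 1 := by linarith
    positivity
  have d2 : Ca ≤ Cb * ((2 * α - 1) * γ) / Q := by
    rw [le_div_iff₀ hQp]; exact hCb
  have d3 : Ca * (n ^ 3 * B ^ 2 * X) ≤ Cb * ((2 * α - 1) * γ) / Q * (n ^ 3 * B ^ 2 * X) :=
    mul_le_mul_of_nonneg_right d2 (by positivity)
  have d4 : n ^ 2 * (Cb * B ^ 2) * ((2 * α - 1) * (γ * n) * (X / Q))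
      ≤ n ^ 2 * (Cb * B ^ 2) * (x ^ (1 - 2 * α) - (x + τ') ^ (1 - 2 * α)) :=
    mul_le_mul_of_nonneg_left d1 (by positivity)
  have e5 : Cb * ((2 * α - 1) * γ) / Q * (n ^ 3 * B ^ 2 * X)
      = n ^ 2 * (Cb * B ^ 2) * ((2 * α - 1) * (γ * n) * (X / Q)) := by
    field_simp
  have d5 : A₁ * n ≤ A₁ * (τ' / γ) := by
    apply mul_le_mul_of_nonneg_left _ hA₁
    rw [le_div_iff₀ hγ]; linarith
  have e6 : A₁ * (S - x) / γ - A₁ * (S - (x + τ')) / γ = A₁ * (τ' / γ) := by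
    field_simp; ring
  have d6 : n ^ 2 * (A₁ * n) ≤ n ^ 2 * (A₁ * (τ' / γ)) := mul_le_mul_of_nonneg_left d5 (by positivity)
  nlinarith

theorem s6bar_sq {α B x n : ℝ} (hx : 0 < x) :
    (n * B * x ^ (-α)) ^ 2 = n ^ 2 * B ^ 2 * x ^ (-(2 * α)) := by
  have e2 : x ^ (-α) * x ^ (-α) = x ^ (-(2 * α)) := by
    rw [← Real.rpow_add hx]; congr 1; ring
  rw [← e2]; ring

namespace Shape.S6Ctx

variable {Sh : Shape} (c : Sh.S6Ctx)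

theorem bar_facts {y t : ℂ} (h : c.Cond y t) :
    0 < c.h - y.im ∧ 0 < ‖t‖ ∧ c.γ * ‖t‖ ≤ t.im ∧ t.im ≤ c.K * (c.h - y.im) := by
  obtain ⟨h1, h2, h3, h4, h5, h6, h7⟩ := h
  have hx : 0 < c.h - y.im := lt_trans c.hlo h1
  have him : t.im ≤ ‖t‖ := (le_abs_self _).trans (Complex.abs_im_le_norm t)
  refine ⟨hx, ?_, h4.le, him.trans h6.le⟩
  rcases (norm_nonneg t).eq_or_lt with h0 | h0
  · rw [← h0] at h4 him
    linarith
  · exact h0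

/-- LEAF B1. -/
theorem barrier1 {y t : ℂ} (h : c.Cond y t) :
    c.b1 t (c.h - y.im + t.im) +
        c.C₁ * (2 ^ c.α * (‖t‖ * c.B * (c.h - y.im) ^ (-c.α))) ^ 2 / ((c.h - y.im) / (4 * ‖t‖)) ≤
      c.b1 t (c.h - y.im) := by
  obtain ⟨hx, hn, h1, h3⟩ := c.bar_facts h
  exact s6bar_1 c.hα c.hγ c.hK c.hCa0 hx hn h1 h3 c.hCa

/-- LEAF B2. -/
theorem barrier2 {y t : ℂ} (h : c.Cond y t) :
    c.b2 t (c.h - y.im + t.im) + ‖t‖ * c.b1 t (c.h - y.im) ≤ c.b2 t (c.h - y.im) := by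
  obtain ⟨hx, hn, h1, h3⟩ := c.bar_facts h
  exact s6bar_2 c.hα c.hγ c.hK c.hCb0 c.hA₁ hx hn h1 h3 c.hCb

/-- LEAF B3. -/
theorem b1_le {y t : ℂ} (h : c.Cond y t) : c.b1 t (c.h - y.im) ≤ c.w₀ / 8 := by
  obtain ⟨hx, hn, -, -⟩ := c.bar_facts h
  obtain ⟨-, -, -, -, h5, -, h7⟩ := h
  have e : c.b1 t (c.h - y.im)
      = c.A₁ * ‖t‖ ^ 2 + c.Ca * (‖t‖ * c.B * (c.h - y.im) ^ (-c.α)) ^ 2 := by
    rw [s6bar_sq hx, b1]; ring
  rw [e]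
  have a1 : ‖t‖ ^ 2 ≤ c.ρ₀ ^ 2 := pow_le_pow_left₀ hn.le h5.le 2
  have a2 : (‖t‖ * c.B * (c.h - y.im) ^ (-c.α)) ^ 2 ≤ c.ε₁ ^ 2 := by
    apply pow_le_pow_left₀ _ h7.le 2
    have := Real.rpow_pos_of_pos hx (-c.α)
    have := c.hB
    positivity
  have a3 := mul_le_mul_of_nonneg_left a1 c.hA₁
  have a4 := mul_le_mul_of_nonneg_left a2 c.hCa0.le
  linarith [c.hsm1, c.hεa]

/-- LEAF B4. -/
theorem b2_le {y t : ℂ} (h : c.Cond y t) : c.b2 t (c.h - y.im) ≤ (c.h - y.im) / 8 := by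
  obtain ⟨hx, hn, -, -⟩ := c.bar_facts h
  obtain ⟨-, h2, -, -, h5, h6, h7⟩ := h
  set x := c.h - y.im with hxdef
  have e1 : x ^ (1 - 2 * c.α) = x ^ (-(2 * c.α)) * x := by
    have : 1 - 2 * c.α = -(2 * c.α) + 1 := by ring
    rw [this, Real.rpow_add_one hx.ne']
  have e : c.b2 t x = ‖t‖ ^ 2 * (c.A₀ + c.A₁ * (c.σ + c.τ - x) / c.γ)
      + c.Cb * (‖t‖ * c.B * x ^ (-c.α)) ^ 2 * x := by
    rw [s6bar_sq hx, b2, e1]; ring
  rw [e]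
  have hγ := c.hγ
  have hA₀ := c.hA₀
  have hA₁ := c.hA₁
  have hK : 0 < c.K := lt_of_lt_of_le one_pos c.hK
  have a2 : (‖t‖ * c.B * x ^ (-c.α)) ^ 2 ≤ c.ε₁ ^ 2 := by
    apply pow_le_pow_left₀ _ h7.le 2
    have := Real.rpow_pos_of_pos hx (-c.α)
    have := c.hB
    positivity
  have a4 : c.Cb * (‖t‖ * c.B * x ^ (-c.α)) ^ 2 * x ≤ c.Cb * c.ε₁ ^ 2 * x :=
    mul_le_mul_of_nonneg_right (mul_le_mul_of_nonneg_left a2 c.hCb0.le) hx.le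
  have a5 : ‖t‖ ^ 2 ≤ (c.K * x) * c.ρ₀ := by
    rw [sq]; exact mul_le_mul h6.le h5.le hn.le (by positivity)
  have a6 : c.A₀ + c.A₁ * (c.σ + c.τ - x) / c.γ ≤ c.A₀ + c.A₁ * (c.σ + c.τ) / c.γ := by
    have : c.A₁ * (c.σ + c.τ - x) / c.γ ≤ c.A₁ * (c.σ + c.τ) / c.γ := by
      apply div_le_div_of_nonneg_right _ hγ.le
      apply mul_le_mul_of_nonneg_left _ hA₁
      linarith
    linarith
  have a7 : 0 ≤ c.A₀ + c.A₁ * (c.σ + c.τ - x) / c.γ := by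
    have : 0 ≤ c.σ + c.τ - x := by linarith
    positivity
  have a8 : ‖t‖ ^ 2 * (c.A₀ + c.A₁ * (c.σ + c.τ - x) / c.γ)
      ≤ (c.K * x) * c.ρ₀ * (c.A₀ + c.A₁ * (c.σ + c.τ) / c.γ) :=
    mul_le_mul a5 a6 a7 (by have := c.hρ₀; positivity)
  have a9 : (c.K * x) * c.ρ₀ * (c.A₀ + c.A₁ * (c.σ + c.τ) / c.γ) ≤ c.c₀ * x := by
    have := mul_le_mul_of_nonneg_right c.hsm0 hx.le
    nlinarith
  have a10 := mul_le_mul_of_nonneg_right c.hεb hx.le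
  nlinarith

/-- LEAF B5a. -/
theorem b1_anti (t : ℂ) : AntitoneOn (c.b1 t) (Ioi 0) := by
  intro x hx x' _ hxx'
  have h1 : x' ^ (-(2 * c.α)) ≤ x ^ (-(2 * c.α)) :=
    Real.rpow_le_rpow_of_nonpos hx hxx' (by linarith [c.hα])
  unfold b1
  apply mul_le_mul_of_nonneg_left _ (by positivity)
  have : c.Ca * c.B ^ 2 * x' ^ (-(2 * c.α)) ≤ c.Ca * c.B ^ 2 * x ^ (-(2 * c.α)) :=
    mul_le_mul_of_nonneg_left h1 (by have := c.hCa0; positivity)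
  linarith

/-- LEAF B5b. -/
theorem b2_anti (t : ℂ) : AntitoneOn (c.b2 t) (Ioi 0) := by
  intro x hx x' _ hxx'
  have h1 : x' ^ (1 - 2 * c.α) ≤ x ^ (1 - 2 * c.α) :=
    Real.rpow_le_rpow_of_nonpos hx hxx' (by linarith [c.hα])
  unfold b2
  apply mul_le_mul_of_nonneg_left _ (by positivity)
  have h2 : c.Cb * c.B ^ 2 * x' ^ (1 - 2 * c.α) ≤ c.Cb * c.B ^ 2 * x ^ (1 - 2 * c.α) :=
    mul_le_mul_of_nonneg_left h1 (by have := c.hCb0; positivity)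
  have h3 : c.A₁ * (c.σ + c.τ - x') / c.γ ≤ c.A₁ * (c.σ + c.τ - x) / c.γ := by
    apply div_le_div_of_nonneg_right _ c.hγ.le
    apply mul_le_mul_of_nonneg_left _ c.hA₁
    linarith
  linarith

end Shape.S6Ctx

end Claimed.Agent.R269
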