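/-
Row 269, P1 Section 6, PACKAGE STEEP: THE INDUCTION.   Blueprint: helper218.   NO PAPER READING NEEDED.   Route: header of S6/SteepDefs.lean.   Black boxes: S6/SteepGeo.lean, S6/SteepBar.lean, S6/Extend.lean, Lib/Chord*.lean.
Throughout `x = c.h - y.im`, `S = s9Smax`.

I0 `inv_zero`.  On `Kset 0`: `σ < x < σ+τ`.  `slab.mem`, `slab.pos` (`A₀|t|² ≤ b2 t x`: the other two terms are `≥ 0`, `x < σ+τ`), `slab.step` for `y` and `y - t` (`cond_back`; `A₁|t|³ ≤ |t| b1 t x`).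
I1 `exists_step`.  Let `z = (y,t) ∈ Oset j`, `z₁ = (y-t,t)`, `z₂ = (y-2t,t) ∈ Kset j` (`Oset_back`), `s = S z₁`, `s₋ = S z₂`, `Jm = (s - s₋)/t`, `x₁ = x + Im t`; note `y - t - t = y - 2t`, `t ≠ 0`.
    `Inv j` at `z₁`:  `‖Jm - 1‖ ≤ b1 t x₁ ≤ w₀/8` (`b1_le` for `cond_back`),  `‖s - (y-t)‖ ≤ b2 t x₁ ≤ b2 t x ≤ x/8` (`b2_anti`, `b2_le`).
    `hstep` with `w = x/(4‖t‖)` (`w₀_le`), `a = 2^α (‖t‖ B x^(-α)) ≤ 2^α ε₁ ≤ e₁`, `stadium`: root `Jp z`.  `S' z = s + t Jp z` (choice; `0` outside `Oset j`).   `s - t Jm = s₋`.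
    `S' z ∈ D`: `Jp ∈ chStadium w` (`‖Jp - 1‖ < w₀/4 ≤ w`).   Estimate: `‖Jp - 1‖ ≤ ‖Jm - 1‖ + C₁a²/w ≤ b1 t x₁ + C₁a²/w ≤ b1 t x` (`barrier1`).
    Holomorphy: `ch_root_holo` with `E = ℂ × ℂ`, `O = Oset j` (`isOpen_Oset`), `𝒰 = {(z,J) | z ∈ O ∧ S z₁ + z.2 J ∈ D}`, `Φ (z,J) = chREC (S z₂) (S z₁) (S z₁ + z.2 J)`, centre `1`, radius `w₀/4`;
    `z ↦ S z₁, S z₂` are differentiable on `O` (`s9k_max.diff`, `Rmax` open, affine maps), with values in `D` (`s9k_max.mem`); `chC`, `chD` jointly differentiable on `D ×ˢ D` (`ch_isChord.c_joint`, `d_joint`).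
I2 `step_eq_slab`.  `z = (y,t) ∈ Oset j`, `σ < x`.  Then `y, y-t, y-2t` have depths in `(σ, σ+τ)` and satisfy `Cond`: `slab.mem` three times; `ch_rec (y-t) t` (`y - t + t = y`, `y - t - t = y - 2t`);
    `slab.step` at `y`: `‖(S z - S z₁)/t - 1‖ ≤ A₁‖t‖² ≤ A₁ρ₀² ≤ c₀ < w₀/4` (`hsm1`, `hεa`); uniqueness in `IsStep`.
I3 `inv_succ`.  `S'` from I1.  `Shape.s6_extend` on `O = Oset j`: for `z = (y,t) ∈ O` let `x* = max x (σ + τ/2 - Im t)`, `η = h - x*`.  Then `σ < x*` (`Im t < τ/3`), `x* + 2 Im t < σ+τ`, the points `(⟨Re y, τ'⟩, t)`, `τ' ∈ [η, Im y]`,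
    lie in `O` (`cond_down`); the set `O ∩ {σ < depth}` is an open neighbourhood of the lowest point, on which `S' = S` by I2.   So `O ⊆ Rmax`, `S' = S` on `O`.
    Now let `(y,t) ∈ Kset (j+1)`; `Kset_succ`: if it lies in `Kset 0 ⊆ Kset j` use `Inv j`.  If it lies in `O`: (E1) is the estimate of `IsStep`; (E2): `‖S z - y‖ ≤ ‖S z₁ - (y-t)‖ + ‖S z - S z₁ - t‖ ≤ b2 t x₁ + ‖t‖ b1 t x ≤ b2 t x` (`barrier2`).
-/
import Claimed.Agent.R269.S6.SteepGeo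
import Claimed.Agent.R269.S6.SteepBar
import Claimed.Agent.R269.S6.Extend

set_option autoImplicit false

namespace Claimed.Agent.R269

open Complex Filter Topology Set Metric
open scoped ENNReal Real

namespace Shape.S6Ctx

variable {Sh : Shape} (c : Sh.S6Ctx)

/-- `S'` is the continuation by one step of the recurrence on `Oset j`. -/
structure IsStep (j : ℕ) (S' : ℂ × ℂ → ℂ) : Prop where
  diff : DifferentiableOn ℂ S' (c.Oset j)
  mem : ∀ z ∈ c.Oset j, S' z ∈ Sh.D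
  est : ∀ y t : ℂ, (y, t) ∈ c.Oset j →
    ‖S' (y, t) - Sh.s9Smax (y - t, t) - t‖ ≤ ‖t‖ * c.b1 t (c.h - y.im)
  uniq : ∀ y t : ℂ, (y, t) ∈ c.Oset j → ∀ v : ℂ, ‖(v - Sh.s9Smax (y - t, t)) / t - 1‖ < c.w₀ / 4 →
    Sh.chREC (Sh.s9Smax (y - 2 * t, t)) (Sh.s9Smax (y - t, t)) v = 0 → v = S' (y, t)

/-- LEAF I0. -/
theorem inv_zero : c.Inv 0 := by
  intro y t hz
  obtain ⟨hC, hσ⟩ := hz
  obtain ⟨h1, h2, h3, h4, h5, h6, h7⟩ := hC
  have hC : c.Cond y t := ⟨h1, h2, h3, h4, h5, h6, h7⟩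
  simp only [Nat.cast_zero, zero_mul, sub_zero] at hσ
  set x : ℝ := c.h - y.im with hx
  have hx0 : 0 < x := lt_trans c.hlo h1
  have ht0 : 0 ≤ ‖t‖ := norm_nonneg t
  have him : 0 < t.im := lt_of_le_of_lt (mul_nonneg c.hγ.le ht0) h4
  refine ⟨c.slab.mem y t hσ.le h2.le h3 h5, (c.slab.pos y t hσ.le h2.le h3 h5).trans ?_, ?_⟩
  · show c.A₀ * ‖t‖ ^ 2
      ≤ ‖t‖ ^ 2 * (c.A₀ + c.A₁ * (c.σ + c.τ - x) / c.γ + c.Cb * c.B ^ 2 * x ^ (1 - 2 * c.α))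
    have a1 : 0 ≤ c.A₁ * (c.σ + c.τ - x) / c.γ :=
      div_nonneg (mul_nonneg c.hA₁ (by linarith)) c.hγ.le
    have a2 : 0 ≤ c.Cb * c.B ^ 2 * x ^ (1 - 2 * c.α) :=
      mul_nonneg (mul_nonneg c.hCb0.le (sq_nonneg _)) (Real.rpow_pos_of_pos hx0 _).le
    rw [mul_comm]
    apply mul_le_mul_of_nonneg_left _ (sq_nonneg _)
    linarith
  · intro htop
    have hb := c.cond_back hC htop
    have e : c.h - (y - t).im = x + t.im := by rw [Complex.sub_im, hx]; ring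
    have hs := c.slab.step y t hσ.le h2.le h3 (by rw [e]; linarith) (by rw [e]; linarith) hb.2.2.1 h5
    refine hs.trans ?_
    show c.A₁ * ‖t‖ ^ 3 ≤ ‖t‖ * (‖t‖ ^ 2 * (c.A₁ + c.Ca * c.B ^ 2 * x ^ (-(2 * c.α))))
    have a2 : 0 ≤ c.Ca * c.B ^ 2 * x ^ (-(2 * c.α)) :=
      mul_nonneg (mul_nonneg c.hCa0.le (sq_nonneg _)) (Real.rpow_pos_of_pos hx0 _).le
    have a3 : 0 ≤ ‖t‖ ^ 3 := by positivity
    nlinarith

theorem ind_im_pos {y t : ℂ} (h : c.Cond y t) : 0 < t.im :=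
  lt_of_le_of_lt (mul_nonneg c.hγ.le (norm_nonneg t)) h.2.2.2.1

theorem ind_w₀_pos : 0 < c.w₀ := by
  rw [c.hw₀]
  have := c.hK
  positivity

/-- LEAF I2: in the slab the next step is the maximal passage. -/
theorem step_eq_slab (j : ℕ) {S' : ℂ × ℂ → ℂ} (hS' : c.IsStep j S') {y t : ℂ}
    (hz : (y, t) ∈ c.Oset j) (hx : c.σ < c.h - y.im) :
    (y, t) ∈ Sh.s9Rmax ∧ S' (y, t) = Sh.s9Smax (y, t) := by
  have hz' := hz
  obtain ⟨hC, -, htop⟩ := hz'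
  change c.Cond y t at hC
  change c.h - y.im + 2 * t.im < c.σ + c.τ at htop
  have him := c.ind_im_pos hC
  have ht0 : t ≠ 0 := by
    intro h; rw [h] at him; simp at him
  have htn : 0 < ‖t‖ := norm_pos_iff.2 ht0
  have hC1 := c.cond_back hC (by linarith)
  have e1 : c.h - (y - t).im = c.h - y.im + t.im := by rw [Complex.sub_im]; ring
  have hC2 := c.cond_back hC1 (by rw [e1]; linarith)
  have e2 : c.h - (y - t - t).im = c.h - y.im + 2 * t.im := by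
    rw [Complex.sub_im, Complex.sub_im]; ring
  have m0 := c.slab.mem y t hx.le hC.2.1.le hC.2.2.1 hC.2.2.2.2.1
  have m1 := c.slab.mem (y - t) t (by rw [e1]; linarith) hC1.2.1.le hC1.2.2.1 hC.2.2.2.2.1
  have m2 := c.slab.mem (y - t - t) t (by rw [e2]; linarith) hC2.2.1.le hC2.2.2.1 hC.2.2.2.2.1
  have hrec := Sh.ch_rec (y - t) t m2 m1 (by rw [sub_add_cancel]; exact m0)
  rw [sub_add_cancel] at hrec
  have e3 : y - t - t = y - 2 * t := by ring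
  rw [e3] at hrec
  have hs := c.slab.step y t hx.le hC.2.1.le hC.2.2.1 (by rw [e1]; linarith) hC1.2.1.le hC1.2.2.1
    hC.2.2.2.2.1
  refine ⟨m0, (hS'.uniq y t hz _ ?_ hrec).symm⟩
  have e4 : (Sh.s9Smax (y, t) - Sh.s9Smax (y - t, t)) / t - 1
      = (Sh.s9Smax (y, t) - Sh.s9Smax (y - t, t) - t) / t := by
    field_simp
  rw [e4, norm_div, div_lt_iff₀ htn]
  have a1 : c.A₁ * ‖t‖ ^ 2 ≤ c.A₁ * c.ρ₀ ^ 2 := by
    apply mul_le_mul_of_nonneg_left _ c.hA₁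
    exact pow_le_pow_left₀ htn.le hC.2.2.2.2.1.le 2
  have a2 : c.c₀ ≤ c.w₀ / 8 := by
    have := c.hεa
    have h2 : 0 ≤ c.Ca * c.ε₁ ^ 2 := mul_nonneg c.hCa0.le (sq_nonneg _)
    linarith
  have a3 := c.ind_w₀_pos
  have a4 : c.A₁ * ‖t‖ ^ 2 < c.w₀ / 4 := by
    have := c.hsm1
    linarith
  calc ‖Sh.s9Smax (y, t) - Sh.s9Smax (y - t, t) - t‖ ≤ c.A₁ * ‖t‖ ^ 3 := hs
    _ = (c.A₁ * ‖t‖ ^ 2) * ‖t‖ := by ring
    _ < c.w₀ / 4 * ‖t‖ := by gcongr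

/-- the root at one point of `Oset j`. -/
theorem ind_root (j : ℕ) (hj : c.Inv j) {y t : ℂ} (hO : (y, t) ∈ c.Oset j) :
    ∃ Jp : ℂ, ‖Jp - 1‖ < c.w₀ / 4 ∧
      Sh.chREC (Sh.s9Smax (y - 2 * t, t)) (Sh.s9Smax (y - t, t)) (Sh.s9Smax (y - t, t) + t * Jp) = 0 ∧
      deriv (fun J : ℂ => Sh.chREC (Sh.s9Smax (y - 2 * t, t)) (Sh.s9Smax (y - t, t))
        (Sh.s9Smax (y - t, t) + t * J)) Jp ≠ 0 ∧
      ‖Jp - 1‖ ≤ c.b1 t (c.h - y.im) ∧ Sh.s9Smax (y - t, t) + t * Jp ∈ Sh.D ∧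
      ∀ J : ℂ, ‖J - 1‖ < c.w₀ / 4 →
        Sh.chREC (Sh.s9Smax (y - 2 * t, t)) (Sh.s9Smax (y - t, t)) (Sh.s9Smax (y - t, t) + t * J) = 0 →
        J = Jp := by
  have hO' := hO
  obtain ⟨hC, -, htop⟩ := hO'
  change c.Cond y t at hC
  change c.h - y.im + 2 * t.im < c.σ + c.τ at htop
  have him := c.ind_im_pos hC
  have ht0 : t ≠ 0 := by
    intro h; rw [h] at him; simp at him
  have htn : 0 < ‖t‖ := norm_pos_iff.2 ht0
  have hx0 : 0 < c.h - y.im := lt_trans c.hlo hC.1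
  have hb := c.Oset_back hO
  obtain ⟨-, hj2, hj3⟩ := hj (y - t) t hb.1
  have e1 : c.h - (y - t).im = c.h - y.im + t.im := by rw [Complex.sub_im]; ring
  have e3 : y - t - t = y - 2 * t := by ring
  rw [e1] at hj2 hj3
  rw [e3] at hj3
  have hj3' := hj3 (by linarith)
  have hC1 := c.cond_back hC (by linarith)
  have hb1 := c.b1_le hC1
  rw [e1] at hb1
  set s := Sh.s9Smax (y - t, t) with hs
  set sm := Sh.s9Smax (y - 2 * t, t) with hsm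
  set x := c.h - y.im with hx
  have hJm : ‖(s - sm) / t - 1‖ ≤ c.b1 t (x + t.im) := by
    have e4 : (s - sm) / t - 1 = (s - sm - t) / t := by field_simp
    rw [e4, norm_div, div_le_iff₀ htn]
    linarith
  have hs8 : ‖s - (y - t)‖ ≤ x / 8 := by
    have h1 := c.b2_anti t (show x ∈ Ioi (0 : ℝ) from hx0)
      (show x + t.im ∈ Ioi (0 : ℝ) from by show 0 < x + t.im; linarith) (by linarith)
    have h2 := c.b2_le hC
    linarith
  have hstad := c.stadium hC htop hs8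
  have ha : 2 ^ c.α * (‖t‖ * c.B * x ^ (-c.α)) ≤ c.e₁ := by
    have h1 : 2 ^ c.α * (‖t‖ * c.B * x ^ (-c.α)) ≤ 2 ^ c.α * c.ε₁ := by
      apply mul_le_mul_of_nonneg_left hC.2.2.2.2.2.2.le
      exact (Real.rpow_pos_of_pos (by norm_num) _).le
    exact h1.trans c.hεe
  obtain ⟨Jp, p1, p2, p3, p4, p5⟩ := c.hstep s t ((s - sm) / t) (x / (4 * ‖t‖))
    (2 ^ c.α * (‖t‖ * c.B * x ^ (-c.α))) (c.w₀_le hC) ht0 ha hstad (hJm.trans hb1)
  have e5 : s - t * ((s - sm) / t) = sm := by field_simp; ring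
  rw [e5] at p2 p3 p5
  refine ⟨Jp, p1, p2, p3, ?_, ?_, p5⟩
  · have h1 := c.barrier1 hC
    have e6 : Jp - 1 = (Jp - (s - sm) / t) + ((s - sm) / t - 1) := by ring
    rw [e6]
    refine (norm_add_le _ _).trans ?_
    linarith
  · refine (hstad Jp ⟨1, ⟨by norm_num, le_rfl⟩, ?_⟩).1
    have h1 := c.w₀_le hC
    have h2 := c.ind_w₀_pos
    push_cast
    linarith

/-- LEAF I1: construction of the next step. -/
theorem exists_step (j : ℕ) (hj : c.Inv j) : ∃ S' : ℂ × ℂ → ℂ, c.IsStep j S' := by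
  classical
  have hex : ∀ z : ℂ × ℂ, ∃ Jp : ℂ, z ∈ c.Oset j → (‖Jp - 1‖ < c.w₀ / 4 ∧
      Sh.chREC (Sh.s9Smax (z.1 - 2 * z.2, z.2)) (Sh.s9Smax (z.1 - z.2, z.2))
        (Sh.s9Smax (z.1 - z.2, z.2) + z.2 * Jp) = 0 ∧
      deriv (fun J : ℂ => Sh.chREC (Sh.s9Smax (z.1 - 2 * z.2, z.2)) (Sh.s9Smax (z.1 - z.2, z.2))
        (Sh.s9Smax (z.1 - z.2, z.2) + z.2 * J)) Jp ≠ 0 ∧
      ‖Jp - 1‖ ≤ c.b1 z.2 (c.h - z.1.im) ∧ Sh.s9Smax (z.1 - z.2, z.2) + z.2 * Jp ∈ Sh.D ∧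
      ∀ J : ℂ, ‖J - 1‖ < c.w₀ / 4 →
        Sh.chREC (Sh.s9Smax (z.1 - 2 * z.2, z.2)) (Sh.s9Smax (z.1 - z.2, z.2))
          (Sh.s9Smax (z.1 - z.2, z.2) + z.2 * J) = 0 → J = Jp) := by
    intro z
    by_cases hz : z ∈ c.Oset j
    · obtain ⟨Jp, h⟩ := c.ind_root j hj (y := z.1) (t := z.2) hz
      exact ⟨Jp, fun _ => h⟩
    · exact ⟨0, fun h => absurd h hz⟩
  choose Jf hJf using hex
  set g1 : ℂ × ℂ → ℂ := fun z => Sh.s9Smax (z.1 - z.2, z.2) with hg1def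
  set g2 : ℂ × ℂ → ℂ := fun z => Sh.s9Smax (z.1 - 2 * z.2, z.2) with hg2def
  have hR1 : ∀ z ∈ c.Oset j, (z.1 - z.2, z.2) ∈ Sh.s9Rmax := fun z hz =>
    (hj _ _ (c.Oset_back (y := z.1) (t := z.2) hz).1).1
  have hR2 : ∀ z ∈ c.Oset j, (z.1 - 2 * z.2, z.2) ∈ Sh.s9Rmax := fun z hz =>
    (hj _ _ (c.Oset_back (y := z.1) (t := z.2) hz).2).1
  have hg1 : DifferentiableOn ℂ g1 (c.Oset j) := by
    refine Sh.s9k_max.diff.comp (f := fun z : ℂ × ℂ => (z.1 - z.2, z.2)) ?_ hR1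
    exact ((differentiable_fst.sub differentiable_snd).prodMk differentiable_snd).differentiableOn
  have hg2 : DifferentiableOn ℂ g2 (c.Oset j) := by
    refine Sh.s9k_max.diff.comp (f := fun z : ℂ × ℂ => (z.1 - 2 * z.2, z.2)) ?_ hR2
    exact ((differentiable_fst.sub (differentiable_snd.const_mul 2)).prodMk
      differentiable_snd).differentiableOn
  have hD1 : ∀ z ∈ c.Oset j, g1 z ∈ Sh.D := fun z hz => Sh.s9k_max.mem _ (hR1 z hz)
  have hD2 : ∀ z ∈ c.Oset j, g2 z ∈ Sh.D := fun z hz => Sh.s9k_max.mem _ (hR2 z hz)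
  -- the domain of the equation
  set 𝒪 : Set ((ℂ × ℂ) × ℂ) := Prod.fst ⁻¹' c.Oset j with h𝒪
  have h𝒪open : IsOpen 𝒪 := (c.isOpen_Oset j).preimage continuous_fst
  have hG1 : DifferentiableOn ℂ (fun p : (ℂ × ℂ) × ℂ => g1 p.1) 𝒪 :=
    hg1.comp differentiableOn_fst (fun p hp => hp)
  have hG2 : DifferentiableOn ℂ (fun p : (ℂ × ℂ) × ℂ => g2 p.1) 𝒪 :=
    hg2.comp differentiableOn_fst (fun p hp => hp)
  have hG3 : DifferentiableOn ℂ (fun p : (ℂ × ℂ) × ℂ => g1 p.1 + p.1.2 * p.2) 𝒪 :=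
    hG1.add ((differentiable_snd.comp differentiable_fst).mul differentiable_snd).differentiableOn
  set 𝒰 : Set ((ℂ × ℂ) × ℂ) := 𝒪 ∩ (fun p : (ℂ × ℂ) × ℂ => g1 p.1 + p.1.2 * p.2) ⁻¹' Sh.D with h𝒰
  have h𝒰open : IsOpen 𝒰 := hG3.continuousOn.isOpen_inter_preimage h𝒪open Sh.ch_isOpen_D
  have hsub : 𝒰 ⊆ 𝒪 := inter_subset_left
  have hΦ : DifferentiableOn ℂ (fun p : (ℂ × ℂ) × ℂ =>
      Sh.chREC (g2 p.1) (g1 p.1) (g1 p.1 + p.1.2 * p.2)) 𝒰 := by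
    have d13 : DifferentiableOn ℂ (fun p : (ℂ × ℂ) × ℂ =>
        Sh.chD (g1 p.1) (g1 p.1 + p.1.2 * p.2)) 𝒰 :=
      Sh.ch_isChord.d_joint.comp ((hG1.mono hsub).prodMk (hG3.mono hsub))
        (fun p hp => ⟨hD1 _ hp.1, hp.2⟩)
    have c13 : DifferentiableOn ℂ (fun p : (ℂ × ℂ) × ℂ =>
        Sh.chC (g1 p.1) (g1 p.1 + p.1.2 * p.2)) 𝒰 :=
      Sh.ch_isChord.c_joint.comp ((hG1.mono hsub).prodMk (hG3.mono hsub))
        (fun p hp => ⟨hD1 _ hp.1, hp.2⟩)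
    have d12 : DifferentiableOn ℂ (fun p : (ℂ × ℂ) × ℂ => Sh.chD (g1 p.1) (g2 p.1)) 𝒰 :=
      Sh.ch_isChord.d_joint.comp ((hG1.mono hsub).prodMk (hG2.mono hsub))
        (fun p hp => ⟨hD1 _ hp.1, hD2 _ hp.1⟩)
    have c12 : DifferentiableOn ℂ (fun p : (ℂ × ℂ) × ℂ => Sh.chC (g1 p.1) (g2 p.1)) 𝒰 :=
      Sh.ch_isChord.c_joint.comp ((hG1.mono hsub).prodMk (hG2.mono hsub))
        (fun p hp => ⟨hD1 _ hp.1, hD2 _ hp.1⟩)
    exact (d13.mul c12).add (d12.mul c13)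
  have hJ : DifferentiableOn ℂ Jf (c.Oset j) :=
    ch_root_holo (c.isOpen_Oset j) h𝒰open hΦ (c := fun _ => (1 : ℂ)) (r := c.w₀ / 4)
      continuousOn_const (fun z hz => ⟨hz, (hJf z hz).2.2.2.2.1⟩) (fun z hz => (hJf z hz).2.1)
      (fun z hz => (hJf z hz).1) (fun z hz w hw _ h0 => (hJf z hz).2.2.2.2.2 w hw h0)
      (fun z hz => (hJf z hz).2.2.1)
  refine ⟨fun z => g1 z + z.2 * Jf z, ?_, ?_, ?_, ?_⟩
  · exact hg1.add (differentiableOn_snd.mul hJ)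
  · exact fun z hz => (hJf z hz).2.2.2.2.1
  · intro y t hz
    have h1 := (hJf (y, t) hz).2.2.2.1
    have e : g1 (y, t) + t * Jf (y, t) - Sh.s9Smax (y - t, t) - t = t * (Jf (y, t) - 1) := by
      simp only [hg1def]; ring
    show ‖g1 (y, t) + t * Jf (y, t) - Sh.s9Smax (y - t, t) - t‖ ≤ _
    rw [e, norm_mul]
    exact mul_le_mul_of_nonneg_left h1 (norm_nonneg _)
  · intro y t hz v hv h0
    have hC : c.Cond y t := hz.1
    have him := c.ind_im_pos hC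
    have ht0 : t ≠ 0 := by
      intro h; rw [h] at him; simp at him
    have e : Sh.s9Smax (y - t, t) + t * ((v - Sh.s9Smax (y - t, t)) / t) = v := by
      field_simp; ring
    have h1 := (hJf (y, t) hz).2.2.2.2.2 ((v - Sh.s9Smax (y - t, t)) / t) hv
      (by show Sh.chREC _ _ (Sh.s9Smax (y - t, t) + t * ((v - Sh.s9Smax (y - t, t)) / t)) = 0
          rw [e]; exact h0)
    show v = g1 (y, t) + t * Jf (y, t)
    rw [← h1]
    exact e.symm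

/-- LEAF I3: the induction step. -/
theorem inv_succ (j : ℕ) (hj : c.Inv j) : c.Inv (j + 1) := by
  obtain ⟨S', hS'⟩ := c.exists_step j hj
  have hext := Sh.s6_extend (c.Oset j) (c.isOpen_Oset j) S' hS'.diff hS'.mem
    (by
      rintro ⟨y, t⟩ ⟨hC, -, -⟩
      change c.Cond y t at hC
      rw [mem_ball_zero_iff]
      exact lt_of_lt_of_le hC.2.2.2.2.1 c.hρ₀ρ)
    (by
      rintro ⟨y, t⟩ hz
      have hz' := hz
      obtain ⟨hC, hlow, htop⟩ := hz'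
      change c.Cond y t at hC
      change c.σ - ((j + 1 : ℕ) : ℝ) * t.im < c.h - y.im at hlow
      change c.h - y.im + 2 * t.im < c.σ + c.τ at htop
      have him := c.ind_im_pos hC
      have him2 : t.im < c.τ / 3 := by
        have h1 : t.im ≤ ‖t‖ := Complex.im_le_norm t
        have h2 := hC.2.2.2.2.1
        have h3 := c.hρ₀τ
        linarith
      have hτ := c.hτ
      set xs : ℝ := max (c.h - y.im) (c.σ + c.τ / 2 - t.im) with hxs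
      have hxs1 : c.h - y.im ≤ xs := le_max_left _ _
      have hxs2 : c.σ < xs := lt_of_lt_of_le (by linarith) (le_max_right _ _)
      have hxs3 : xs + 2 * t.im < c.σ + c.τ := by
        rcases max_cases (c.h - y.im) (c.σ + c.τ / 2 - t.im) with ⟨h1, _⟩ | ⟨h1, _⟩
        · rw [hxs, h1]; exact htop
        · rw [hxs, h1]; linarith
      have hseg : ∀ τ' ∈ Icc (c.h - xs) y.im, ((⟨y.re, τ'⟩ : ℂ), t) ∈ c.Oset j := by
        intro τ' hτ'
        refine ⟨c.cond_down hC rfl hτ'.2 ?_, ?_, ?_⟩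
        · show c.h - τ' < c.σ + c.τ
          linarith [hτ'.1]
        · show c.σ - ((j + 1 : ℕ) : ℝ) * t.im < c.h - τ'
          linarith [hτ'.2]
        · show c.h - τ' + 2 * t.im < c.σ + c.τ
          linarith [hτ'.1]
      have hb : ((⟨y.re, c.h - xs⟩ : ℂ), t) ∈ c.Oset j := hseg _ ⟨le_rfl, by linarith⟩
      refine ⟨c.h - xs, by show c.h - xs ≤ y.im; linarith, hseg, ?_, ?_⟩
      · exact (c.step_eq_slab j hS' hb (by show c.σ < c.h - (c.h - xs); linarith)).1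
      · have hopen : IsOpen {z : ℂ × ℂ | c.σ < c.h - z.1.im} :=
          isOpen_lt continuous_const
            (continuous_const.sub (Complex.continuous_im.comp continuous_fst))
        have hmem : ((⟨y.re, c.h - xs⟩ : ℂ), t) ∈ c.Oset j ∩ {z : ℂ × ℂ | c.σ < c.h - z.1.im} :=
          ⟨hb, by show c.σ < c.h - (c.h - xs); linarith⟩
        filter_upwards [((c.isOpen_Oset j).inter hopen).mem_nhds hmem] with w hw
        obtain ⟨w1, w2⟩ := w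
        exact (c.step_eq_slab j hS' hw.1 hw.2).2)
  intro y t hz
  rcases c.Kset_succ hz with hO | h0
  · have hC : c.Cond y t := hO.1
    have hR := hext.1 hO
    have hE := hext.2 hO
    have hest := hS'.est y t hO
    rw [hE] at hest
    refine ⟨hR, ?_, fun _ => hest⟩
    have hb := (c.Oset_back hO).1
    have h1 := (hj (y - t) t hb).2.1
    have e1 : c.h - (y - t).im = c.h - y.im + t.im := by rw [Complex.sub_im]; ring
    rw [e1] at h1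
    have h2 := c.barrier2 hC
    have e2 : Sh.s9Smax (y, t) - y
        = (Sh.s9Smax (y - t, t) - (y - t)) + (Sh.s9Smax (y, t) - Sh.s9Smax (y - t, t) - t) := by
      ring
    rw [e2]
    refine (norm_add_le _ _).trans ?_
    linarith
  · exact hj y t (c.Kset_mono (Nat.zero_le j) h0)

theorem inv_all (j : ℕ) : c.Inv j := by
  induction j with
  | zero => exact c.inv_zero
  | succ j ih => exact c.inv_succ j ih

/-- the result of the induction: upward steep parameters. -/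
theorem main_up {y t : ℂ} (h : c.Cond y t) :
    (y, t) ∈ Sh.s9Rmax ∧ ‖Sh.s9Smax (y, t) - y‖ ≤ c.b2 t (c.h - y.im) := by
  obtain ⟨j, hj⟩ := c.exists_Kset h
  exact ⟨(c.inv_all j y t hj).1, (c.inv_all j y t hj).2.1⟩

end Shape.S6Ctx

end Claimed.Agent.R269
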