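/-
Row 269, P1 Section 6: THE STEP LEMMA IN THE VARIABLES OF THE SHAPE STRIP.   Blueprint: helper218.   NO PAPER READING NEEDED.

`s6_step` from `chord_step` (Lib/ChordStep.lean) and `Shape.ch_isFast` (Lib/ChordHost.lean).
 `(e₁', C₁)` from `chord_step w₀`;  `e₁ = min e₁' (w₀ / sqrt (16 C₁))`, so that `C₁ e₁² / w₀ ≤ w₀/16 < w₀/8`.
 Given `s t Jm w a`:  `0 ∈ chStadium w` gives `s ∈ D` and `0 ≤ a`.  `ch_isFast hs ht` restricted to `chStadium w ⊆ {u | s + t u ∈ D}` (all fields of `IsFast` are `∀ u ∈ V`).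
 `‖F u‖ = ‖t‖ ‖f‖ ≤ ‖t‖ M ≤ a`;  `‖Q u‖ = (‖t‖ sqrt ‖q‖)² ≤ a²`;  `Q` differentiable (`q_diff`).   `w₀/8 ≤ min w 1 / 8`.
 With `C u = chC s (s+tu)/t²`, `C' u = chC' s (s+tu)/t`, `Dd u = chD s (s+tu)/t`, `Dd' u = chD' s (s+tu)`:
   `chREC (s - t Jm) s (s + t J) = t³ (Dd J * C (-Jm) + Dd (-Jm) * C J)`   (`s - t Jm = s + t (-Jm)`),
   `deriv (fun J => chREC (s - t Jm) s (s + t J)) Jp = t³ (Dd' Jp * C (-Jm) + Dd (-Jm) * C' Jp)`   (`ch_isChord.c_deriv`, `d_deriv`, chain rule; `s + t Jp ∈ D` because `Jp ∈ chStadium w`).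
 `‖Jp - 1‖ ≤ ‖Jm - 1‖ + C₁ a²/w ≤ w₀/8 + C₁ e₁²/w₀ < w₀/4`.   Uniqueness: `ball 1 (w₀/4) ⊆ ball 1 (min w 1 / 4)`.
-/
import Claimed.Agent.R269.S6.SteepDefs

set_option autoImplicit false

namespace Claimed.Agent.R269

open Complex Filter Topology Set Metric
open scoped ENNReal Real

theorem s6st_fast_mono {V V' : Set ℂ} {F Q θ C C' Dd Dd' : ℂ → ℂ} (h : IsFast V F Q θ C C' Dd Dd')
    (hV : V' ⊆ V) : IsFast V' F Q θ C C' Dd Dd' :=
  ⟨h.θ_zero, h.C_zero, h.C'_zero, h.Dd_zero, h.Dd'_zero, fun u hu => h.θ_deriv u (hV hu),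
    fun u hu => h.C_deriv u (hV hu), fun u hu => h.C'_deriv u (hV hu),
    fun u hu => h.Dd_deriv u (hV hu), fun u hu => h.Dd'_deriv u (hV hu)⟩

/-- LEAF ST: the step lemma, uniformly in the shape. -/
theorem s6_step (w₀ : ℝ) (hw₀ : 0 < w₀) (hw₀' : w₀ ≤ 1) :
    ∃ e₁ C₁ : ℝ, 0 < e₁ ∧ 0 < C₁ ∧ ∀ Sh : Shape, Sh.S6StepProp w₀ e₁ C₁ := by
  obtain ⟨e₁', C₁, he₁', hC₁, hstep⟩ := chord_step w₀ hw₀ hw₀'
  refine ⟨min e₁' (min 1 (w₀ ^ 2 / (16 * C₁))), C₁, by positivity, hC₁, ?_⟩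
  intro Sh s t Jm w a hw ht ha hfield hJm
  have ha1 : a ≤ e₁' := ha.trans (min_le_left _ _)
  have ha2 : a ≤ 1 := ha.trans ((min_le_right _ _).trans (min_le_left _ _))
  have ha3 : a ≤ w₀ ^ 2 / (16 * C₁) := ha.trans ((min_le_right _ _).trans (min_le_right _ _))
  have hwpos : 0 < w := hw₀.trans_le hw
  have h0st : (0 : ℂ) ∈ chStadium w := ⟨0, ⟨by norm_num, by norm_num⟩, by simpa using hwpos⟩
  have hs : s ∈ Sh.D := by simpa using (hfield 0 h0st).1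
  have hM0 : ∀ z, 0 ≤ Sh.M z := fun z => le_max_of_le_left (norm_nonneg _)
  have ha0 : 0 ≤ a := (mul_nonneg (norm_nonneg t) (hM0 _)).trans (hfield 0 h0st).2
  have hsub : chStadium w ⊆ {u | s + t * u ∈ Sh.D} := fun u hu => (hfield u hu).1
  have hfast := s6st_fast_mono (Sh.ch_isFast hs ht) hsub
  have hQd : DifferentiableOn ℂ (fun u => t ^ 2 * Sh.q (s + t * u)) (chStadium w) := by
    have h1 : DifferentiableOn ℂ (fun u : ℂ => s + t * u) (chStadium w) := by fun_prop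
    exact (Sh.q_diff.comp h1 hsub).const_mul _
  have hbd : ∀ u ∈ chStadium w, ‖t * Sh.f (s + t * u)‖ ≤ a ∧ ‖t ^ 2 * Sh.q (s + t * u)‖ ≤ a ^ 2 := by
    intro u hu
    have h1 := (hfield u hu).2
    constructor
    · rw [norm_mul]
      exact (mul_le_mul_of_nonneg_left (le_max_left _ _) (norm_nonneg t)).trans h1
    · rw [norm_mul, norm_pow]
      have h2 : ‖t‖ * Real.sqrt ‖Sh.q (s + t * u)‖ ≤ a :=
        (mul_le_mul_of_nonneg_left (le_max_right _ _) (norm_nonneg t)).trans h1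
      have h3 : ‖t‖ ^ 2 * ‖Sh.q (s + t * u)‖ = (‖t‖ * Real.sqrt ‖Sh.q (s + t * u)‖) ^ 2 := by
        rw [mul_pow, Real.sq_sqrt (norm_nonneg _)]
      rw [h3]
      exact pow_le_pow_left₀ (by positivity) h2 2
  have hmin : w₀ ≤ min w 1 := le_min hw hw₀'
  have hJm' : Jm ∈ closedBall (1 : ℂ) (min w 1 / 8) := by
    rw [mem_closedBall, dist_eq_norm]; linarith
  obtain ⟨Jp, hJp, hJp0, hJpd, hJpb, hJpu⟩ := hstep w a _ _ _ _ _ _ _ hw ha0 ha1 hfast hQd hbd Jm hJm'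
  have ht3 : t ^ 3 ≠ 0 := pow_ne_zero _ ht
  have hrec : ∀ J : ℂ, Sh.chREC (s - t * Jm) s (s + t * J)
      = t ^ 3 * (Sh.chD s (s + t * J) / t * (Sh.chC s (s + t * -Jm) / t ^ 2)
        + Sh.chD s (s + t * -Jm) / t * (Sh.chC s (s + t * J) / t ^ 2)) := by
    intro J
    have e : s + t * -Jm = s - t * Jm := by ring
    rw [e]
    unfold Shape.chREC
    field_simp
  have hsmall : C₁ * a ^ 2 / w < w₀ / 8 := by
    have h1 : a * (16 * C₁) ≤ w₀ ^ 2 := (le_div_iff₀ (by positivity)).1 ha3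
    have h2 : a ^ 2 ≤ a := by nlinarith
    have h3 : C₁ * a ^ 2 / w ≤ C₁ * a ^ 2 / w₀ := by gcongr
    have h4 : C₁ * a ^ 2 / w₀ ≤ w₀ / 16 := by
      rw [div_le_iff₀ hw₀]
      nlinarith
    linarith
  refine ⟨Jp, ?_, ?_, ?_, hJpb, ?_⟩
  · have h1 : ‖Jp - 1‖ ≤ ‖Jp - Jm‖ + ‖Jm - 1‖ := by simpa using norm_add_le (Jp - Jm) (Jm - 1)
    linarith
  · rw [hrec Jp, hJp0, mul_zero]
  · have hJpst : Jp ∈ chStadium w := by
      have h1 : min w 1 / 4 ≤ w := by have := min_le_left w 1; linarith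
      exact chs_mono h1 (chs_ball_one hJp)
    have hD := (hfield Jp hJpst).1
    have hγ : HasDerivAt (fun J : ℂ => s + t * J) t Jp := by
      simpa using ((hasDerivAt_id Jp).const_mul t).const_add s
    have hI := Sh.ch_isChord
    have hd : HasDerivAt (fun J : ℂ => Sh.chREC (s - t * Jm) s (s + t * J))
        (Sh.chD' s (s + t * Jp) * t * Sh.chC s (s - t * Jm)
          + Sh.chD s (s - t * Jm) * (Sh.chC' s (s + t * Jp) * t)) Jp := by
      unfold Shape.chREC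
      exact (((hI.d_deriv s hs _ hD).comp Jp hγ).mul_const _).add
        (((hI.c_deriv s hs _ hD).comp Jp hγ).const_mul _)
    rw [hd.deriv]
    intro h0
    apply hJpd
    have e : s + t * -Jm = s - t * Jm := by ring
    rw [e]
    have : t ^ 3 * (Sh.chD' s (s + t * Jp) * (Sh.chC s (s - t * Jm) / t ^ 2)
        + Sh.chD s (s - t * Jm) / t * (Sh.chC' s (s + t * Jp) / t)) = 0 := by
      rw [← h0]
      field_simp
    rcases mul_eq_zero.1 this with h | h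
    · exact absurd h ht3
    · exact h
  · intro J hJ hJ0
    apply hJpu J (by rw [mem_ball, dist_eq_norm]; linarith)
    rw [hrec J] at hJ0
    rcases mul_eq_zero.1 hJ0 with h | h
    · exact absurd h ht3
    · exact h

end Claimed.Agent.R269
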