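/-
Row 269, P1 Section 6, PACKAGE STEEP = first half of the proof of Theorem 6.3 (the recurrence estimate on steep parameter sectors, (6.13)-(6.15)).   Blueprint: helper218.   NO PAPER READING NEEDED.
Route: header of S6/SteepDefs.lean.   This file: FINAL ASSEMBLY (LEAF SF, GLUE).

CONSTANTS.  `w₀ = 1/(4K)` (`0 < w₀ ≤ 1`), `(e₁,C₁)` from `s6_step w₀`,  `Ca = 4^(α+1) C₁ (1+K)^(2α+1)/(2αγ)`,  `Cb = Ca (1+K)^(2α)/((2α-1)γ)`,  `c₀ = w₀/16`,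
   `ε₁ = min (e₁/2^α) (min (sqrt (w₀/(16 Ca))) (sqrt (1/(16 Cb))))`,  `C = Cb`.   Then `c₀ + Ca ε₁² ≤ w₀/8`, `c₀ + Cb ε₁² ≤ 1/64 + 1/16 ≤ 1/8`.
Given the data build `c : Sh.S6Ctx` (all other fields are hypotheses of the theorem).   Let `x = h - Im y`.
 * `σ ≤ x`: `slab.mem`, `slab.pos`; `A₀‖t‖² ≤` the claimed bound.
 * `x < σ`, `0 < Im t`: `c.Cond y t` holds, `c.main_up`; `b2 t x ≤ ‖t‖² (A₀ + A₁(σ+τ)/γ + Cb B² x^(1-2α))`.
 * `x < σ`, `Im t < 0`: the same for `(y,-t)`; `s6e_Rmax_neg`, `s6e_Smax_neg` (S6/Even.lean); `‖-t‖ = ‖t‖`.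
-/
import Claimed.Agent.R269.S6.SteepInd
import Claimed.Agent.R269.S6.Step
import Claimed.Agent.R269.S6.Even

set_option autoImplicit false

namespace Claimed.Agent.R269

open Complex Filter Topology Set Metric
open scoped ENNReal Real

/-- **Steep sectors** (first half of the proof of P1 Theorem 6.3; (6.13)-(6.15)). -/
theorem s6_steep (α γ K : ℝ) (hα : 1 / 2 < α) (hγ : 0 < γ) (hγ1 : γ ≤ 1) (hK : 1 ≤ K) :
    ∃ ε₁ c₀ C : ℝ, 0 < ε₁ ∧ 0 < c₀ ∧ 0 < C ∧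
      ∀ (Sh : Shape) (h x₀ L' lo σ τ hi B A₀ A₁ ρ₀ : ℝ),
        (∀ s : ℂ, 0 < h - s.im → h - s.im ≤ hi → s ∈ Sh.D) →
        1 / γ ≤ L' → 0 < lo → lo ≤ σ → 0 < τ → 3 / 2 * (σ + τ) ≤ hi → 0 < B → 0 ≤ A₀ → 0 ≤ A₁ →
        0 < ρ₀ → ρ₀ ≤ Sh.ρ → 3 * ρ₀ ≤ τ →
        (A₀ + A₁ * (σ + τ) / γ) * ρ₀ * K ≤ c₀ → A₁ * ρ₀ ^ 2 ≤ c₀ →
        Sh.S6Field h x₀ (2 * L' + 1) (lo / 2) hi B α →
        Sh.S6Slab h x₀ L' σ τ ρ₀ A₀ A₁ →
        ∀ y t : ℂ, lo < h - y.im → h - y.im ≤ σ + τ → |y.re - x₀| < L' * (h - y.im) →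
          γ * ‖t‖ < |t.im| → ‖t‖ < ρ₀ → ‖t‖ < K * (h - y.im) → ‖t‖ * B * (h - y.im) ^ (-α) < ε₁ →
          (y, t) ∈ Sh.s9Rmax ∧
            ‖Sh.s9Smax (y, t) - y‖ ≤
              ‖t‖ ^ 2 * (A₀ + A₁ * (σ + τ) / γ + C * B ^ 2 * (h - y.im) ^ (1 - 2 * α)) := by
  have hK0 : 0 < K := by linarith
  have hα0 : 0 < α := by linarith
  set w₀ : ℝ := 1 / (4 * K) with hw₀
  have hw₀0 : 0 < w₀ := by positivity
  have hw₀1 : w₀ ≤ 1 := by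
    rw [hw₀, div_le_one (by positivity)]; linarith
  obtain ⟨e₁, C₁, he₁, hC₁, hstep⟩ := s6_step w₀ hw₀0 hw₀1
  have h1K : 0 < 1 + K := by linarith
  have p1 : 0 < (4 : ℝ) ^ (α + 1) := Real.rpow_pos_of_pos (by norm_num) _
  have p2 : 0 < (1 + K) ^ (2 * α + 1) := Real.rpow_pos_of_pos h1K _
  have p3 : 0 < (1 + K) ^ (2 * α) := Real.rpow_pos_of_pos h1K _
  have p4 : 0 < (2 : ℝ) ^ α := Real.rpow_pos_of_pos (by norm_num) _
  have h2α : 0 < 2 * α - 1 := by linarith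
  set Ca : ℝ := 4 ^ (α + 1) * C₁ * (1 + K) ^ (2 * α + 1) / (2 * α * γ) with hCa
  have hCa0 : 0 < Ca := by positivity
  set Cb : ℝ := Ca * (1 + K) ^ (2 * α) / ((2 * α - 1) * γ) with hCb
  have hCb0 : 0 < Cb := by positivity
  set ε₁ : ℝ := min (e₁ / 2 ^ α) (min (Real.sqrt (w₀ / (16 * Ca))) (Real.sqrt (1 / (16 * Cb))))
    with hε₁
  have hε₁0 : 0 < ε₁ := by
    refine lt_min (by positivity) (lt_min ?_ ?_)
    · exact Real.sqrt_pos.2 (by positivity)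
    · exact Real.sqrt_pos.2 (by positivity)
  have hεe : 2 ^ α * ε₁ ≤ e₁ := by
    have : ε₁ ≤ e₁ / 2 ^ α := min_le_left _ _
    rw [le_div_iff₀ p4] at this
    linarith
  have hεa' : Ca * ε₁ ^ 2 ≤ w₀ / 16 := by
    have h1 : ε₁ ≤ Real.sqrt (w₀ / (16 * Ca)) := (min_le_right _ _).trans (min_le_left _ _)
    have h2 : ε₁ ^ 2 ≤ w₀ / (16 * Ca) := by
      rw [← Real.sq_sqrt (by positivity : 0 ≤ w₀ / (16 * Ca))]
      exact pow_le_pow_left₀ hε₁0.le h1 2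
    calc Ca * ε₁ ^ 2 ≤ Ca * (w₀ / (16 * Ca)) := by gcongr
      _ = w₀ / 16 := by field_simp
  have hεb' : Cb * ε₁ ^ 2 ≤ 1 / 16 := by
    have h1 : ε₁ ≤ Real.sqrt (1 / (16 * Cb)) := (min_le_right _ _).trans (min_le_right _ _)
    have h2 : ε₁ ^ 2 ≤ 1 / (16 * Cb) := by
      rw [← Real.sq_sqrt (by positivity : 0 ≤ 1 / (16 * Cb))]
      exact pow_le_pow_left₀ hε₁0.le h1 2
    calc Cb * ε₁ ^ 2 ≤ Cb * (1 / (16 * Cb)) := by gcongr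
      _ = 1 / 16 := by field_simp
  refine ⟨ε₁, w₀ / 16, Cb, hε₁0, by positivity, hCb0, ?_⟩
  intro Sh h x₀ L' lo σ τ hi B A₀ A₁ ρ₀ hD hL' hlo hloσ hτ hhi hB hA₀ hA₁ hρ₀ hρ₀ρ hρ₀τ hsm0 hsm1
    hfield hslab y t hy1 hy2 hy3 ht1 ht2 ht3 ht4
  let c : Sh.S6Ctx :=
    { α := α, γ := γ, K := K, w₀ := w₀, e₁ := e₁, C₁ := C₁, Ca := Ca, Cb := Cb, ε₁ := ε₁,
      c₀ := w₀ / 16, h := h, x₀ := x₀, L' := L', lo := lo, σ := σ, τ := τ, hi := hi, B := B,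
      A₀ := A₀, A₁ := A₁, ρ₀ := ρ₀, hα := hα, hγ := hγ, hγ1 := hγ1, hK := hK, hw₀ := hw₀,
      he₁ := he₁, hC₁ := hC₁, hCa0 := hCa0, hCb0 := hCb0, hε₁ := hε₁0, hc₀ := by positivity,
      hstep := hstep Sh,
      hCa := by rw [hCa]; apply le_of_eq; field_simp
      hCb := by rw [hCb]; apply le_of_eq; field_simp
      hεe := hεe, hεa := by linarith, hεb := by linarith, hD := hD, hL' := hL', hlo := hlo,
      hloσ := hloσ, hτ := hτ, hhi := hhi, hB := hB, hA₀ := hA₀, hA₁ := hA₁, hρ₀ := hρ₀,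
      hρ₀ρ := hρ₀ρ, hρ₀τ := hρ₀τ, hsm0 := hsm0, hsm1 := hsm1, field := hfield, slab := hslab }
  set x : ℝ := h - y.im with hx
  have hx0 : 0 < x := by linarith
  have hxp : 0 < x ^ (1 - 2 * α) := Real.rpow_pos_of_pos hx0 _
  have hστ : 0 < σ + τ := by linarith
  rcases le_or_gt σ x with hσx | hσx
  · refine ⟨hslab.mem y t hσx hy2 hy3 ht2, (hslab.pos y t hσx hy2 hy3 ht2).trans ?_⟩
    rw [mul_comm]
    apply mul_le_mul_of_nonneg_left _ (by positivity)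
    have : 0 ≤ A₁ * (σ + τ) / γ + Cb * B ^ 2 * x ^ (1 - 2 * α) := by positivity
    linarith
  · have hb2 : ∀ t' : ℂ, ‖t'‖ = ‖t‖ → c.b2 t' x
        ≤ ‖t‖ ^ 2 * (A₀ + A₁ * (σ + τ) / γ + Cb * B ^ 2 * x ^ (1 - 2 * α)) := by
      intro t' ht'
      show ‖t'‖ ^ 2 * (A₀ + A₁ * (σ + τ - x) / γ + Cb * B ^ 2 * x ^ (1 - 2 * α)) ≤ _
      rw [ht']
      apply mul_le_mul_of_nonneg_left _ (by positivity)
      have : A₁ * (σ + τ - x) / γ ≤ A₁ * (σ + τ) / γ := by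
        gcongr
        linarith
      linarith
    rcases lt_or_ge 0 t.im with hpos | hneg
    · have hC : c.Cond y t :=
        ⟨hy1, by show h - y.im < σ + τ; linarith, hy3, by rwa [abs_of_pos hpos] at ht1, ht2, ht3, ht4⟩
      obtain ⟨a1, a2⟩ := c.main_up hC
      exact ⟨a1, a2.trans (hb2 t rfl)⟩
    · have hC : c.Cond y (-t) := by
        refine ⟨hy1, by show h - y.im < σ + τ; linarith, hy3, ?_, ?_, ?_, ?_⟩
        · show γ * ‖-t‖ < (-t).im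
          rw [norm_neg, Complex.neg_im]
          rwa [abs_of_nonpos hneg] at ht1
        · show ‖-t‖ < ρ₀
          rwa [norm_neg]
        · show ‖-t‖ < K * (h - y.im)
          rwa [norm_neg]
        · show ‖-t‖ * B * (h - y.im) ^ (-α) < ε₁
          rwa [norm_neg]
      obtain ⟨a1, a2⟩ := c.main_up hC
      have a3 := (Sh.s6e_Rmax_neg y t).1 a1
      rw [Sh.s6e_Smax_neg y t a3] at a2
      exact ⟨a3, a2.trans (hb2 (-t) (norm_neg t))⟩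

end Claimed.Agent.R269
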