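/-
Row 269, P1 Section 6, PACKAGE CONE = Theorem 6.3 assembled from `s6_steep` (S6/Steep.lean), `s6_fill` (S6/Fill.lean) and the slab data.   Blueprint: helper218.
NO PAPER READING NEEDED.  All four statements are GLUE or short; one owner each.

C1 `Shape.s6_slab_data`.  `hX 0 = Hs = H`; `lsc_X` at `0` (and continuity of `conj`): `∃ ρ' ≤ ρ`, `ofReal (Hr - η/2) < hX t` and `< hX (conj t)` for `‖t‖ < ρ'`; so `(y,t) ∈ T` for `|Im y| ≤ Hr - η/2`, `‖t‖ < ρ'`.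
   `ℓ (y,t) = lift (y,t) - y`: `|Im ℓ| < 2 Hr` (`lift_mem`), `ℓ (y,0) = 0` (`lift_zero`), `ℓ (y,-t) = ℓ (y,t)` (`lift_even`).  Fix `y`.  `Complex.borelCaratheodory_zero` (or Schwarz-Pick for the strip) applied to `± i ℓ (y,·)` on `ball 0 ρ'`:
   `‖ℓ (y,t)‖ ≤ C := 8 Hr` for `‖t‖ ≤ ρ'/2`.  `ℓ (y,·)` is even and vanishes at `0`, so `ℓ (y,t) = t² U t` with `U` holomorphic (two `dslope`s, `deriv` of an even function vanishes at `0`); maximum principle: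
   `‖ℓ (y,t)‖ ≤ C (2‖t‖/ρ')²`.  `ρ₁ = ρ'/2`, `A₀ = 4C/ρ'²`.   Step: `lift (y,t) - lift (y-t,t) - t = ℓ (y,t) - ℓ (y-t,t)`; on the segment `[y-t,y]` (`|Im| ≤ Hr - η` by convexity) Cauchy's estimate on the balls of radius `η/2`
   gives `‖∂_y ℓ‖ ≤ A₀‖t‖²/(η/2)`; mean value inequality (`Convex.norm_image_sub_le_of_norm_deriv_le`): `A₁ = 2A₀/η`.
C2 `Shape.s6_cone2` (master form: region exponent `α`, field exponent `α₁ ≥ α`).   `(γ,C₀,D₀,m₁)` from `s6_fill α`;  `L' m₀ = max (2 (max m₀ m₁ + C₀) + 1) (1/γ)`, `Lf m₀ = 2 L' m₀ + 1`.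
   Given `K`: `K' = max 1 (20K)`, `(ε₁,c₀,C_s)` from `s6_steep α₁ γ K'`; `σ = τ = δb/3`, `hi = δb`, `δt = 2δb/3`, `δs = δt/(C₀+D₀+3)` (`≤ δb/3`), `(ρ₁,A₀,A₁)` from C1 with `η = δs`;
   `ρ₀ = min ρ₁ (min (τ/3) (min (c₀/((A₀+A₁(σ+τ)/γ) K' + 1)) (sqrt (c₀/(A₁+1)))))`;  `ε₀ = ε₁/(10·2^(α₁-α))`;  `d₀ ≤ δs` with `10 K d₀^(1-α) δt^α ≤ ρ₀/2`;  `A = A₀ + A₁(σ+τ)/γ`, `C = C_s 2^(2α₁-1)`, `Ψ x = A + C_s B₁² x^(1-2α₁)` (antitone on `Ioi 0`).
   Steep with `lo = d/2`, `B = B₁`, `L' = L' m₀`: strip hypothesis: `Im s ∈ [h-δb, h) ⊆ (-Hr, Hr)`.  `S6Field` is monotone in `lo` (`d/10 ≤ d/4`).  `S6Slab` from C1 (`Smax = lift` on `T`: `s9k_max_spec s9k_tube`); depth `∈ [δb/3, 2δb/3]` gives `0 < Im y ≤ Hr - δb/3`.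
   Hypotheses of `s6_fill` (`m = max m₀ m₁`): for `d/2 < x < δt` and `‖t‖ < 10 r (x/d)^α`:  `‖t‖ < 10 K d^(1-α) δt^α ≤ ρ₀`;  `(x/d)^α ≤ 2x/d` so `‖t‖ < K' x`;  `‖t‖ B₁ x^(-α₁) < 10 r B₁ d^(-α₁) (x/d)^(α-α₁) ≤ 10·2^(α₁-α) ε₀ = ε₁`.
   Starting band `δs ≤ x < δt`: C1 (`‖t‖ < ρ₁`), `A₀ ≤ Ψ`.   Conclusion of `s6_fill`: bound `Ψ (x/2) = A + C B₁² x^(1-2α₁)`.
C3 `Shape.s6_cone` from C2 with `α₁ = α`, `B₁ = (ε/r) d^α`, `δs = 2δb/3`: `r B₁ d^(-α) = ε`; `A ≤ A (2δb/3)^(2α-1) x^(1-2α)`;  `C' = max (A (2δb/3)^(2α-1)) C + 1`, `1 + B₁² ≤ (1+B₁)²`.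
C4 `Shape.s6_cone_s9` = `s9i_cone` of S9/Imports.lean verbatim (`h = Hr`, `R = s9Rmax`, `S = s9Smax`, `s9k_max`).
-/
import Claimed.Agent.R269.S6.Steep
import Claimed.Agent.R269.S6.Fill
import Claimed.Agent.R269.S9.Ctx

set_option autoImplicit false

namespace Claimed.Agent.R269

open Complex Filter Topology Set Metric
open scoped ENNReal Real

/-- an even holomorphic function vanishing at `0` with `Im ≤ Mi` is `O(t²)`, quantitatively. -/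
theorem s6sl_even_quad {F : ℂ → ℂ} {R Mi : ℝ} (hR : 0 < R) (hMi : 0 < Mi)
    (hd : DifferentiableOn ℂ F (ball 0 R)) (h0 : F 0 = 0)
    (hev : ∀ t ∈ ball (0 : ℂ) R, F (-t) = F t) (him : ∀ t ∈ ball (0 : ℂ) R, (F t).im ≤ Mi) :
    ∀ t ∈ closedBall (0 : ℂ) (R / 2), ‖F t‖ ≤ 8 * Mi / R ^ 2 * ‖t‖ ^ 2 := by
  have hb : ∀ t ∈ closedBall (0 : ℂ) (R / 2), ‖F t‖ ≤ 2 * Mi := by
    intro t ht
    have htn : ‖t‖ ≤ R / 2 := by simpa using ht
    have htb : t ∈ ball (0 : ℂ) R := by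
      rw [mem_ball_zero_iff]; linarith
    have h1 := Complex.borelCaratheodory_zero (f := fun z => -I * F z) hMi (hd.const_mul _)
      (fun z hz => by simpa using him z hz) hR htb (by simp [h0])
    rw [norm_mul, norm_neg, norm_I, one_mul] at h1
    refine h1.trans ?_
    rw [div_le_iff₀ (by linarith)]
    nlinarith [norm_nonneg t]
  have hnhds : ball (0 : ℂ) R ∈ 𝓝 (0 : ℂ) := ball_mem_nhds 0 hR
  have hder0 : deriv F 0 = 0 := by
    have h1 : (fun x => F (-x)) =ᶠ[𝓝 (0 : ℂ)] F := by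
      filter_upwards [hnhds] with x hx using hev x hx
    have h2 := h1.deriv_eq
    rw [deriv_comp_neg, neg_zero] at h2
    have h3 : (2 : ℂ) * deriv F 0 = 0 := by linear_combination -h2
    simpa using h3
  have hU1d : DifferentiableOn ℂ (dslope F 0) (ball 0 R) := (Complex.differentiableOn_dslope hnhds).2 hd
  have hU10 : dslope F 0 0 = 0 := by rw [dslope_same, hder0]
  have hU2d : DifferentiableOn ℂ (dslope (dslope F 0) 0) (ball 0 R) :=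
    (Complex.differentiableOn_dslope hnhds).2 hU1d
  have hU2 : ∀ t : ℂ, t ≠ 0 → dslope (dslope F 0) 0 t = F t / t ^ 2 := by
    intro t ht
    rw [dslope_of_ne _ ht, slope_def_module, dslope_of_ne _ ht, slope_def_module, hU10, h0]
    simp only [sub_zero, smul_eq_mul]
    field_simp
  have hR2 : 0 < R / 2 := by positivity
  have hmax : ∀ t ∈ closedBall (0 : ℂ) (R / 2), ‖dslope (dslope F 0) 0 t‖ ≤ 8 * Mi / R ^ 2 := by
    intro t ht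
    have hdc : DiffContOnCl ℂ (dslope (dslope F 0) 0) (ball 0 (R / 2)) := by
      apply DifferentiableOn.diffContOnCl
      rw [closure_ball (0 : ℂ) hR2.ne']
      exact hU2d.mono (closedBall_subset_ball (by linarith))
    apply Complex.norm_le_of_forall_mem_frontier_norm_le isBounded_ball hdc _
      (by rw [closure_ball (0 : ℂ) hR2.ne']; exact ht)
    intro z hz
    rw [frontier_ball (0 : ℂ) hR2.ne', mem_sphere_zero_iff_norm] at hz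
    have hz0 : z ≠ 0 := by
      intro h; rw [h, norm_zero] at hz; linarith
    rw [hU2 z hz0, norm_div, norm_pow, hz]
    have := hb z (by rw [mem_closedBall_zero_iff]; linarith)
    rw [div_le_div_iff₀ (by positivity) (by positivity)]
    nlinarith [sq_nonneg R]
  intro t ht
  by_cases ht0 : t = 0
  · rw [ht0, h0]; simp
  · have h1 := hmax t ht
    rw [hU2 t ht0, norm_div, norm_pow, div_le_iff₀ (by positivity)] at h1
    exact h1

/-- a uniform parameter disc over the compact substrip. -/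
theorem Shape.s6sl_tube (Sh : Shape) (hH : Sh.H ≠ ⊤) (η : ℝ) (hη : 0 < η) :
    ∃ ρ' : ℝ, 0 < ρ' ∧ ρ' ≤ Sh.ρ ∧ ∀ y t : ℂ, |y.im| ≤ Sh.Hr - η → ‖t‖ < ρ' → (y, t) ∈ Sh.T := by
  have hHr := Sh.sb_Hr_pos hH
  have hHs : Sh.G.Hs = ENNReal.ofReal Sh.Hr := (ENNReal.ofReal_toReal hH).symm
  have hlt : ENNReal.ofReal (Sh.Hr - η) < Sh.G.hX 0 := by
    show _ < Sh.G.Hs
    rw [hHs, ENNReal.ofReal_lt_ofReal_iff hHr]
    linarith
  have h0 : (0 : ℂ) ∈ ball (0 : ℂ) Sh.ρ := mem_ball_self Sh.ρ_pos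
  have hev := Sh.lsc_X 0 h0 _ hlt
  rw [isOpen_ball.nhdsWithin_eq h0, Metric.eventually_nhds_iff_ball] at hev
  obtain ⟨ε, hε, hball⟩ := hev
  refine ⟨min ε Sh.ρ, lt_min hε Sh.ρ_pos, min_le_right _ _, ?_⟩
  intro y t hy ht
  have hy' := abs_le.1 hy
  have ht1 : ‖t‖ < ε := lt_of_lt_of_le ht (min_le_left _ _)
  have ht2 : ‖t‖ < Sh.ρ := lt_of_lt_of_le ht (min_le_right _ _)
  refine ⟨by simpa using ht2, ?_, ?_⟩
  · refine lt_of_le_of_lt (ENNReal.ofReal_le_ofReal ?_) (hball t (by simpa using ht1))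
    exact hy'.2
  · refine lt_of_le_of_lt (ENNReal.ofReal_le_ofReal ?_)
      (hball ((starRingEnd ℂ) t) (by simpa using ht1))
    show -y.im ≤ _
    linarith [hy'.1]

/-- LEAF C1: the lift on compact substrips, small parameters. -/
theorem Shape.s6_slab_data (Sh : Shape) (hH : Sh.H ≠ ⊤) (η : ℝ) (hη : 0 < η) :
    ∃ ρ₁ A₀ A₁ : ℝ, 0 < ρ₁ ∧ ρ₁ ≤ Sh.ρ ∧ 0 ≤ A₀ ∧ 0 ≤ A₁ ∧
      ∀ y t : ℂ, |y.im| ≤ Sh.Hr - η → ‖t‖ < ρ₁ →
        (y, t) ∈ Sh.T ∧ ‖Sh.lift (y, t) - y‖ ≤ A₀ * ‖t‖ ^ 2 ∧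
          (|(y - t).im| ≤ Sh.Hr - η → ‖Sh.lift (y, t) - Sh.lift (y - t, t) - t‖ ≤ A₁ * ‖t‖ ^ 3) := by
  have hHr := Sh.sb_Hr_pos hH
  obtain ⟨ρ', hρ', hρ'ρ, hT⟩ := Sh.s6sl_tube hH (η / 2) (by positivity)
  have hlat : ∀ z ∈ Sh.T, DifferentiableAt ℂ Sh.lift z := fun z hz =>
    (Sh.lift_diff z hz).differentiableAt (Sh.s9k_T_open.mem_nhds hz)
  set A₀ : ℝ := 8 * (2 * Sh.Hr) / ρ' ^ 2 with hA₀
  have hA₀0 : 0 ≤ A₀ := by positivity
  -- the quadratic bound on the larger substrip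
  have hquad : ∀ y t : ℂ, |y.im| ≤ Sh.Hr - η / 2 → ‖t‖ ≤ ρ' / 2 →
      ‖Sh.lift (y, t) - y‖ ≤ A₀ * ‖t‖ ^ 2 := by
    intro y t hy ht
    have hyD : y ∈ Sh.D := (Sh.sb_mem_D_iff hH y).2 (by linarith)
    have hmem : ∀ t ∈ ball (0 : ℂ) ρ', (y, t) ∈ Sh.T := fun t ht => hT y t hy (by simpa using ht)
    apply s6sl_even_quad (F := fun t => Sh.lift (y, t) - y) hρ' (by positivity : 0 < 2 * Sh.Hr)
    · intro t ht
      have h1 : DifferentiableAt ℂ (fun t : ℂ => Sh.lift (y, t)) t :=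
        (hlat _ (hmem t ht)).comp t (by fun_prop)
      exact (h1.sub_const y).differentiableWithinAt
    · simp only [Sh.lift_zero y hyD, sub_self]
    · intro t ht
      rw [Sh.lift_even (y, t) (hmem t ht)]
    · intro t ht
      have h1 := (Sh.sb_mem_D_iff hH _).1 (Sh.lift_mem _ (hmem t ht))
      have h2 := abs_lt.1 h1
      have h3 := abs_le.1 hy
      simp only [Complex.sub_im]
      linarith [h2.2, h3.1]
    · rw [mem_closedBall_zero_iff]; exact ht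
  refine ⟨ρ' / 2, A₀, 2 * A₀ / η, by positivity, by linarith, hA₀0, by positivity, ?_⟩
  intro y t hy ht
  refine ⟨hT y t (by linarith) (by linarith), hquad y t (by linarith) ht.le, ?_⟩
  intro hyt
  -- the step
  set L : ℂ → ℂ := fun y' => Sh.lift (y', t) - y' with hL
  have hLat : ∀ y' : ℂ, |y'.im| ≤ Sh.Hr - η / 2 → DifferentiableAt ℂ L y' := by
    intro y' hy'
    have h1 : DifferentiableAt ℂ (fun y' : ℂ => Sh.lift (y', t)) y' :=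
      (hlat _ (hT y' t hy' (by linarith))).comp y' (by fun_prop)
    exact h1.sub differentiableAt_id
  have hconv : Convex ℝ {y' : ℂ | |y'.im| ≤ Sh.Hr - η} := by
    have : {y' : ℂ | |y'.im| ≤ Sh.Hr - η} = Complex.imLm ⁻¹' (Set.Icc (-(Sh.Hr - η)) (Sh.Hr - η)) := by
      ext z; simp [abs_le]
    rw [this]
    exact (convex_Icc _ _).linear_preimage _
  have hder : ∀ y' ∈ {y' : ℂ | |y'.im| ≤ Sh.Hr - η}, ‖deriv L y'‖ ≤ A₀ * ‖t‖ ^ 2 / (η / 2) := by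
    intro y' hy'
    have hy'' : |y'.im| ≤ Sh.Hr - η := hy'
    have hin : ∀ z ∈ closedBall y' (η / 2), |z.im| ≤ Sh.Hr - η / 2 := by
      intro z hz
      rw [mem_closedBall, dist_eq_norm] at hz
      have h1 := (Complex.abs_im_le_norm (z - y')).trans hz
      rw [Complex.sub_im] at h1
      have h2 := abs_le.1 h1
      have h3 := abs_le.1 hy''
      rw [abs_le]
      constructor <;> linarith [h2.1, h2.2, h3.1, h3.2]
    apply Complex.norm_deriv_le_of_forall_mem_sphere_norm_le (by positivity)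
    · apply DifferentiableOn.diffContOnCl
      rw [closure_ball y' (by positivity : η / 2 ≠ 0)]
      exact fun z hz => (hLat z (hin z hz)).differentiableWithinAt
    · intro z hz
      exact hquad z t (hin z (sphere_subset_closedBall hz)) ht.le
  have hmv := hconv.norm_image_sub_le_of_norm_deriv_le (f := L)
    (fun y' hy' => hLat y' (by have : |y'.im| ≤ Sh.Hr - η := hy'; linarith)) hder
    (show y - t ∈ _ from hyt) (show y ∈ _ from hy)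
  have e1 : L y - L (y - t) = Sh.lift (y, t) - Sh.lift (y - t, t) - t := by
    simp only [hL]; ring
  have e2 : y - (y - t) = t := by ring
  rw [e1, e2] at hmv
  refine hmv.trans (le_of_eq ?_)
  field_simp

/-! ### real arithmetic for C2 -/

theorem s6c_rpow_le_two_mul {u α : ℝ} (hu : 1 / 2 < u) (hα0 : 0 ≤ α) (hα1 : α ≤ 1) :
    u ^ α ≤ 2 * u := by
  rcases le_total 1 u with h | h
  · calc u ^ α ≤ u ^ (1 : ℝ) := Real.rpow_le_rpow_of_exponent_le h hα1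
      _ = u := Real.rpow_one u
      _ ≤ 2 * u := by linarith
  · have := Real.rpow_le_one (by linarith : 0 ≤ u) h hα0
    linarith

theorem s6c_rpow_nonpos {u e : ℝ} (hu : 1 / 2 < u) (he : e ≤ 0) : u ^ e ≤ 2 ^ (-e) := by
  have h1 := Real.rpow_le_rpow_of_nonpos (by norm_num : (0 : ℝ) < 1 / 2) hu.le he
  have h2 : (1 / 2 : ℝ) ^ e = 2 ^ (-e) := by
    rw [one_div, Real.inv_rpow (by norm_num), Real.rpow_neg (by norm_num)]
  rwa [h2] at h1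

theorem s6c_field_id {x d α α₁ : ℝ} (hx : 0 < x) (hd : 0 < d) :
    (x / d) ^ α * x ^ (-α₁) = d ^ (-α₁) * (x / d) ^ (α - α₁) := by
  have hxd : 0 < x / d := by positivity
  rw [sub_eq_add_neg, Real.rpow_add hxd, Real.div_rpow hx.le hd.le (-α₁)]
  have : d ^ (-α₁) ≠ 0 := (Real.rpow_pos_of_pos hd _).ne'
  field_simp

theorem s6c_half_rpow {x p : ℝ} (hx : 0 < x) : (x / 2) ^ p = 2 ^ (-p) * x ^ p := by
  rw [Real.div_rpow hx.le (by norm_num), Real.rpow_neg (by norm_num)]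
  field_simp

/-- size of the parameter region. -/
theorem s6c_region {x d r K δt α X : ℝ} (hx : 0 < x) (hxδ : x ≤ δt) (hd : 0 < d)
    (hrK : r ≤ K * d) (hα0 : 0 ≤ α) (hX : d ^ (1 - α) ≤ X) (hK : 0 < K) :
    r * (x / d) ^ α ≤ K * δt ^ α * X := by
  have hδt : 0 < δt := lt_of_lt_of_le hx hxδ
  have h1 : (x / d) ^ α ≤ (δt / d) ^ α :=
    Real.rpow_le_rpow (by positivity) (by gcongr) hα0
  have h2 : (δt / d) ^ α = δt ^ α / d ^ α := Real.div_rpow hδt.le hd.le α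
  have h3 : d ^ (1 - α) = d / d ^ α := by rw [Real.rpow_sub hd, Real.rpow_one]
  have hdα : 0 < d ^ α := Real.rpow_pos_of_pos hd _
  have hδα : 0 < δt ^ α := Real.rpow_pos_of_pos hδt _
  calc r * (x / d) ^ α ≤ (K * d) * (δt ^ α / d ^ α) := by
        rw [← h2]; gcongr
    _ = K * δt ^ α * d ^ (1 - α) := by rw [h3]; ring
    _ ≤ K * δt ^ α * X := by gcongr


/-- LEAF C2 (GLUE): **master form of the cone passage**: region exponent `α`, field exponent `α₁ ≥ α`, explicit field constant `B₁`. -/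
theorem Shape.s6_cone2 (Sh : Shape) (hH : Sh.H ≠ ⊤) (α α₁ δb : ℝ) (hα : 1 / 2 < α) (hα' : α < 1)
    (hα₁ : α ≤ α₁) (hδb : 0 < δb) (hδb' : δb < Sh.Hr / 2) :
    ∃ Lf : ℝ → ℝ, (∀ m₀, 0 < Lf m₀) ∧ ∀ K : ℝ, 0 < K → ∃ ε₀ d₀ A C : ℝ, 0 < ε₀ ∧ 0 < d₀ ∧ 0 ≤ A ∧ 0 < C ∧
      ∀ m₀ B₁ d r x₀ h : ℝ, 0 < m₀ → 0 < B₁ → 0 < d → d ≤ d₀ → 0 < r → r ≤ K * d →
        Sh.Hr - δb / 4 ≤ h → h ≤ Sh.Hr → r * B₁ * d ^ (-α₁) ≤ ε₀ →
        Sh.S6Field h x₀ (Lf m₀) (d / 10) δb B₁ α₁ →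
        ∀ y t : ℂ, d < h - y.im → h - y.im < 2 * δb / 3 → |y.re - x₀| < m₀ * (h - y.im) →
          ‖t‖ < r * ((h - y.im) / d) ^ α →
          (y, t) ∈ Sh.s9Rmax ∧
            ‖Sh.s9Smax (y, t) - y‖ ≤ ‖t‖ ^ 2 * (A + C * B₁ ^ 2 * (h - y.im) ^ (1 - 2 * α₁)) := by
  have hα0 : 0 < α := by linarith
  obtain ⟨γ, C₀, D₀, m₁, hγ, hγ1, hC₀, hD₀, hm₁, hfill⟩ := s6_fill α hα0 hα'.le
  have hL'pos : ∀ m₀ : ℝ, 0 < max (2 * (max m₀ m₁ + C₀) + 1) (1 / γ) :=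
    fun m₀ => lt_of_lt_of_le (by positivity) (le_max_right _ _)
  refine ⟨fun m₀ => 2 * max (2 * (max m₀ m₁ + C₀) + 1) (1 / γ) + 1,
    fun m₀ => by have := hL'pos m₀; positivity, ?_⟩
  intro K hK
  obtain ⟨ε₁, c₀, Cs, hε₁, hc₀, hCs, hsteep⟩ :=
    s6_steep α₁ γ (max 1 (20 * K)) (by linarith) hγ hγ1 (le_max_left _ _)
  set K' : ℝ := max 1 (20 * K) with hK'
  have hK'1 : 1 ≤ K' := le_max_left _ _
  have hK'K : 20 * K ≤ K' := le_max_right _ _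
  set δt : ℝ := 2 * δb / 3 with hδt
  have hδt0 : 0 < δt := by positivity
  set δs : ℝ := δt / (C₀ + D₀ + 3) with hδs
  have hCD : 0 < C₀ + D₀ + 3 := by linarith
  have hδs0 : 0 < δs := by positivity
  have hδsmul : (C₀ + D₀ + 3) * δs = δt := by rw [hδs]; field_simp
  have hδs3 : δs ≤ δb / 3 := by
    have : 2 * δs ≤ (C₀ + D₀ + 3) * δs := by
      apply mul_le_mul_of_nonneg_right _ hδs0.le
      linarith
    rw [hδsmul, hδt] at this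
    linarith
  obtain ⟨ρ₁, A₀, A₁, hρ₁, hρ₁ρ, hA₀, hA₁, hslab⟩ := Sh.s6_slab_data hH δs hδs0
  set A : ℝ := A₀ + A₁ * (δb / 3 + δb / 3) / γ with hA
  have hAA₀ : A₀ ≤ A := by
    have : 0 ≤ A₁ * (δb / 3 + δb / 3) / γ := by positivity
    linarith
  have hA0 : 0 ≤ A := hA₀.trans hAA₀
  set ρ₀ : ℝ := min ρ₁ (min (δb / 9) (min (c₀ / (A * K' + 1)) (Real.sqrt (c₀ / (A₁ + 1)))))
    with hρ₀
  have hAK : 0 < A * K' + 1 := by positivity
  have hρ₀pos : 0 < ρ₀ := by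
    refine lt_min hρ₁ (lt_min (by positivity) (lt_min (by positivity) ?_))
    exact Real.sqrt_pos.2 (by positivity)
  have hρ₀1 : ρ₀ ≤ ρ₁ := min_le_left _ _
  have hρ₀2 : ρ₀ ≤ δb / 9 := (min_le_right _ _).trans (min_le_left _ _)
  have hρ₀3 : ρ₀ ≤ c₀ / (A * K' + 1) :=
    (min_le_right _ _).trans ((min_le_right _ _).trans (min_le_left _ _))
  have hρ₀4 : ρ₀ ≤ Real.sqrt (c₀ / (A₁ + 1)) :=
    (min_le_right _ _).trans ((min_le_right _ _).trans (min_le_right _ _))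
  have hsm0 : A * ρ₀ * K' ≤ c₀ := by
    rw [le_div_iff₀ hAK] at hρ₀3
    nlinarith
  have hsm1 : A₁ * ρ₀ ^ 2 ≤ c₀ := by
    have h1 : ρ₀ ^ 2 ≤ c₀ / (A₁ + 1) := by
      have := Real.sq_sqrt (by positivity : 0 ≤ c₀ / (A₁ + 1))
      rw [← this]
      exact pow_le_pow_left₀ hρ₀pos.le hρ₀4 2
    rw [le_div_iff₀ (by positivity)] at h1
    nlinarith [sq_nonneg ρ₀]
  -- the depth `d₀`
  have hδtα : 0 < δt ^ α := Real.rpow_pos_of_pos hδt0 _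
  set X : ℝ := ρ₀ / (20 * K * δt ^ α) with hX
  have hX0 : 0 < X := by positivity
  have hXeq : K * δt ^ α * X = ρ₀ / 20 := by rw [hX]; field_simp
  have h1α : 0 < 1 - α := by linarith
  set d₀ : ℝ := min δs (X ^ (1 / (1 - α))) with hd₀
  have hd₀pos : 0 < d₀ := lt_min hδs0 (Real.rpow_pos_of_pos hX0 _)
  have hdX : ∀ d : ℝ, 0 < d → d ≤ d₀ → d ^ (1 - α) ≤ X := by
    intro d hd hdd
    have h1 : d ≤ X ^ (1 / (1 - α)) := hdd.trans (min_le_right _ _)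
    have h2 := Real.rpow_le_rpow hd.le h1 h1α.le
    rwa [← Real.rpow_mul hX0.le, one_div_mul_cancel h1α.ne', Real.rpow_one] at h2
  have h2pos : (0 : ℝ) < 2 ^ (α₁ - α) := Real.rpow_pos_of_pos (by norm_num) _
  refine ⟨ε₁ / (10 * 2 ^ (α₁ - α)), d₀, A, Cs * 2 ^ (2 * α₁ - 1), by positivity, hd₀pos, hA0,
    mul_pos hCs (Real.rpow_pos_of_pos (by norm_num) _), ?_⟩
  intro m₀ B₁ d r x₀ h hm₀ hB₁ hd hdd₀ hr hrK hh1 hh2 hε hfield y t hy1 hy2 hy3 hy4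
  have hHr : 0 < Sh.Hr := by linarith
  have hdδs : d ≤ δs := hdd₀.trans (min_le_left _ _)
  -- the lift on the tube is the maximal passage
  have hT : ∀ y t : ℂ, |y.im| ≤ Sh.Hr - δs → ‖t‖ < ρ₁ →
      (y, t) ∈ Sh.s9Rmax ∧ ‖Sh.s9Smax (y, t) - y‖ ≤ A₀ * ‖t‖ ^ 2 ∧
        (|(y - t).im| ≤ Sh.Hr - δs →
          ‖Sh.s9Smax (y, t) - Sh.s9Smax (y - t, t) - t‖ ≤ A₁ * ‖t‖ ^ 3) := by
    intro y t hy ht
    obtain ⟨a1, a2, a3⟩ := hslab y t hy ht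
    have e1 := (Sh.s9k_max_spec Sh.s9k_tube).2 a1
    refine ⟨(Sh.s9k_max_spec Sh.s9k_tube).1 a1, by rw [← e1]; exact a2, fun hy' => ?_⟩
    have e2 := (Sh.s9k_max_spec Sh.s9k_tube).2 (hslab (y - t) t hy' ht).1
    rw [← e1, ← e2]
    exact a3 hy'
  have him : ∀ y : ℂ, δs ≤ h - y.im → h - y.im ≤ δt → |y.im| ≤ Sh.Hr - δs := by
    intro y h1 h2
    rw [hδt] at h2
    rw [abs_le]
    constructor <;> linarith
  -- size of the parameters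
  have hreg : ∀ x : ℝ, 0 < x → x ≤ δt → r * (x / d) ^ α ≤ ρ₀ / 20 := by
    intro x hx hxδ
    rw [← hXeq]
    exact s6c_region hx hxδ hd hrK hα0.le (hdX d hd hdd₀) hK
  set m : ℝ := max m₀ m₁ with hm
  set L' : ℝ := max (2 * (m + C₀) + 1) (1 / γ) with hL'
  set Ψ : ℝ → ℝ := fun x => A + Cs * B₁ ^ 2 * x ^ (1 - 2 * α₁) with hΨ
  have hΨanti : AntitoneOn Ψ (Ioi 0) := by
    intro a ha b _ hab
    have := Real.rpow_le_rpow_of_nonpos ha hab (by linarith : 1 - 2 * α₁ ≤ 0)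
    simp only [hΨ]
    gcongr
  have hΨA : ∀ x : ℝ, 0 < x → A₀ ≤ Ψ x := by
    intro x hx
    have : 0 ≤ Cs * B₁ ^ 2 * x ^ (1 - 2 * α₁) := by
      have := Real.rpow_pos_of_pos hx (1 - 2 * α₁)
      positivity
    simp only [hΨ]
    linarith
  -- the steep sectors
  have hst := hsteep Sh h x₀ L' (d / 2) (δb / 3) (δb / 3) δb B₁ A₀ A₁ ρ₀
    (by
      intro s h1 h2
      have h3 : |s.im| < Sh.Hr := by
        rw [abs_lt]
        constructor <;> linarith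
      exact (ENNReal.ofReal_lt_iff_lt_toReal (abs_nonneg _) hH).2 h3)
    (le_max_right _ _) (by positivity) (by linarith) (by positivity) (by linarith) hB₁ hA₀ hA₁
    hρ₀pos (hρ₀1.trans hρ₁ρ) (by linarith) hsm0 hsm1
    (fun s h1 h2 h3 => hfield s (by linarith) h2 h3)
    { mem := fun y t h1 h2 _ h4 =>
        (hT y t (him y (hδs3.trans h1) (by rw [hδt]; linarith)) (h4.trans_le hρ₀1)).1
      pos := fun y t h1 h2 _ h4 =>
        (hT y t (him y (hδs3.trans h1) (by rw [hδt]; linarith)) (h4.trans_le hρ₀1)).2.1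
      step := fun y t h1 h2 _ h4 h5 _ h7 =>
        (hT y t (him y (hδs3.trans h1) (by rw [hδt]; linarith)) (h7.trans_le hρ₀1)).2.2
          (him (y - t) (hδs3.trans h4) (by rw [hδt]; linarith)) }
  have hmain := hfill Sh hH m h x₀ r d δs δt Ψ (le_max_right _ _) hΨanti hr hd hdδs hδsmul.le
    (by
      have := hreg δt hδt0 le_rfl
      have h2 := hρ₀1.trans hρ₁ρ
      linarith)
    (by
      intro y t h1 h2 h3 h4 h5
      set x := h - y.im with hx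
      have hx0 : 0 < x := by linarith
      have hxd : 1 / 2 < x / d := by rw [lt_div_iff₀ hd]; linarith
      have hr1 := hreg x hx0 h2.le
      have hxα : 0 < x ^ (-α₁) := Real.rpow_pos_of_pos hx0 _
      refine hst y t h1 (by rw [← hx]; rw [hδt] at h2; linarith) ?_ h4 (by linarith) ?_ ?_
      · refine lt_of_lt_of_le h3 ?_
        exact mul_le_mul_of_nonneg_right (le_max_left _ _) hx0.le
      · have a1 := s6c_rpow_le_two_mul hxd hα0.le hα'.le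
        have a2 : 10 * r * (x / d) ^ α ≤ 10 * (K * d) * (2 * (x / d)) := by gcongr
        have a3 : 10 * (K * d) * (2 * (x / d)) = 20 * K * x := by field_simp; ring
        have a4 : 20 * K * x ≤ K' * x := mul_le_mul_of_nonneg_right hK'K hx0.le
        linarith
      · have a1 : ‖t‖ * B₁ * x ^ (-α₁) < 10 * r * (x / d) ^ α * B₁ * x ^ (-α₁) := by
          gcongr
        have a2 : 10 * r * (x / d) ^ α * B₁ * x ^ (-α₁)
            = 10 * (r * B₁ * d ^ (-α₁)) * (x / d) ^ (α - α₁) := by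
          have := s6c_field_id (α := α) (α₁ := α₁) hx0 hd
          calc 10 * r * (x / d) ^ α * B₁ * x ^ (-α₁)
              = 10 * r * B₁ * ((x / d) ^ α * x ^ (-α₁)) := by ring
            _ = _ := by rw [this]; ring
        have a3 := s6c_rpow_nonpos hxd (by linarith : α - α₁ ≤ 0)
        rw [neg_sub] at a3
        have a4 : 10 * (r * B₁ * d ^ (-α₁)) * (x / d) ^ (α - α₁)
            ≤ 10 * (ε₁ / (10 * 2 ^ (α₁ - α))) * 2 ^ (α₁ - α) := by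
          have : 0 ≤ r * B₁ * d ^ (-α₁) := by
            have := Real.rpow_pos_of_pos hd (-α₁)
            positivity
          gcongr
        have a5 : 10 * (ε₁ / (10 * 2 ^ (α₁ - α))) * 2 ^ (α₁ - α) = ε₁ := by field_simp
        linarith)
    (by
      intro y t h1 h2 _ h4
      have hx0 : 0 < h - y.im := by linarith
      have hr1 := hreg _ hx0 h2.le
      obtain ⟨a1, a2, -⟩ := hT y t (him y h1 h2.le) (by linarith)
      refine ⟨a1, a2.trans ?_⟩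
      rw [mul_comm]
      exact mul_le_mul_of_nonneg_left (hΨA _ (by positivity)) (by positivity))
    y t hy1 hy2
    (lt_of_lt_of_le hy3 (mul_le_mul_of_nonneg_right (le_max_left _ _) (by linarith))) hy4
  refine ⟨hmain.1, hmain.2.trans (le_of_eq ?_)⟩
  simp only [hΨ]
  rw [s6c_half_rpow (by linarith : 0 < h - y.im)]
  have : -(1 - 2 * α₁) = 2 * α₁ - 1 := by ring
  rw [this]
  ring

/-- **P1 Theorem 6.3 (cone passage)**, `H < ∞`, with a reference height (Remark 6.4) and the aperture assertions. -/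
theorem Shape.s6_cone (Sh : Shape) (hH : Sh.H ≠ ⊤) (α δb : ℝ) (hα : 1 / 2 < α) (hα' : α < 1)
    (hδb : 0 < δb) (hδb' : δb < Sh.Hr / 2) :
    ∃ Lf : ℝ → ℝ, (∀ m₀, 0 < Lf m₀) ∧ ∀ K : ℝ, 0 < K → ∃ ε₀ d₀ δs C : ℝ, 0 < ε₀ ∧ 0 < d₀ ∧ 0 < δs ∧ 0 < C ∧
      ∀ m₀ ε d r x₀ h : ℝ, 0 < m₀ → 0 < ε → ε ≤ ε₀ → 0 < d → d ≤ d₀ → 0 < r → r ≤ K * d →
        Sh.Hr - δb / 4 ≤ h → h ≤ Sh.Hr →
        (∀ s : ℂ, d / 10 ≤ h - s.im → h - s.im ≤ δb → |s.re - x₀| ≤ Lf m₀ * (h - s.im) →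
          r * Sh.M s ≤ ε * (d / (h - s.im)) ^ α) →
        ∀ y t : ℂ, d < h - y.im → h - y.im < δs → |y.re - x₀| < m₀ * (h - y.im) →
          ‖t‖ < r * ((h - y.im) / d) ^ α →
          (y, t) ∈ Sh.s9Rmax ∧
            ‖Sh.s9Smax (y, t) - y‖ ≤
              C * (1 + ε / r * d ^ α) ^ 2 * ‖t‖ ^ 2 * (h - y.im) ^ (1 - 2 * α) := by
  obtain ⟨Lf, hLf, hK⟩ := Sh.s6_cone2 hH α α δb hα hα' le_rfl hδb hδb'
  refine ⟨Lf, hLf, fun K hK0 => ?_⟩
  obtain ⟨ε₀, d₀, A, C, hε₀, hd₀, hA, hC, hmain⟩ := hK K hK0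
  have hδs : (0 : ℝ) < 2 * δb / 3 := by positivity
  have hδp : 0 < (2 * δb / 3) ^ (2 * α - 1) := Real.rpow_pos_of_pos hδs _
  refine ⟨ε₀, d₀, 2 * δb / 3, max (A * (2 * δb / 3) ^ (2 * α - 1)) C + 1, hε₀, hd₀, hδs,
    by have := le_max_right (A * (2 * δb / 3) ^ (2 * α - 1)) C; linarith, ?_⟩
  intro m₀ ε d r x₀ h hm₀ hε hεε₀ hd hdd₀ hr hrK hh1 hh2 hfield y t hy1 hy2 hy3 hy4
  have hdα : 0 < d ^ α := Real.rpow_pos_of_pos hd _
  set B₁ : ℝ := ε / r * d ^ α with hB₁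
  have hB₁0 : 0 < B₁ := by positivity
  have hrB : r * B₁ * d ^ (-α) = ε := by
    rw [hB₁, Real.rpow_neg hd.le]; field_simp
  have hF : Sh.S6Field h x₀ (Lf m₀) (d / 10) δb B₁ α := by
    intro s h1 h2 h3
    have hx : 0 < h - s.im := by linarith
    have h4 := hfield s h1 h2 h3
    rw [Real.div_rpow hd.le hx.le] at h4
    have hxα : 0 < (h - s.im) ^ α := Real.rpow_pos_of_pos hx _
    rw [hB₁, Real.rpow_neg hx.le]
    have e : ε / r * d ^ α * ((h - s.im) ^ α)⁻¹ = ε * (d ^ α / (h - s.im) ^ α) / r := by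
      field_simp
    rw [e, le_div_iff₀ hr]
    linarith
  obtain ⟨a1, a2⟩ := hmain m₀ B₁ d r x₀ h hm₀ hB₁0 hd hdd₀ hr hrK hh1 hh2 (hrB.le.trans hεε₀) hF
    y t hy1 hy2 hy3 hy4
  refine ⟨a1, a2.trans ?_⟩
  set x := h - y.im with hx
  have hx0 : 0 < x := by linarith
  have hxp : 0 < x ^ (1 - 2 * α) := Real.rpow_pos_of_pos hx0 _
  set C' := max (A * (2 * δb / 3) ^ (2 * α - 1)) C + 1 with hC'
  have c1 : A * (2 * δb / 3) ^ (2 * α - 1) ≤ C' := by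
    have := le_max_left (A * (2 * δb / 3) ^ (2 * α - 1)) C; linarith
  have c2 : C ≤ C' := by
    have := le_max_right (A * (2 * δb / 3) ^ (2 * α - 1)) C; linarith
  have c3 : A ≤ A * (2 * δb / 3) ^ (2 * α - 1) * x ^ (1 - 2 * α) := by
    have h1 := Real.rpow_le_rpow_of_nonpos hx0 hy2.le (by linarith : 1 - 2 * α ≤ 0)
    have h2 : (2 * δb / 3) ^ (2 * α - 1) * (2 * δb / 3) ^ (1 - 2 * α) = 1 := by
      rw [← Real.rpow_add hδs]
      have : 2 * α - 1 + (1 - 2 * α) = 0 := by ring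
      rw [this, Real.rpow_zero]
    calc A = A * ((2 * δb / 3) ^ (2 * α - 1) * (2 * δb / 3) ^ (1 - 2 * α)) := by rw [h2, mul_one]
      _ ≤ A * ((2 * δb / 3) ^ (2 * α - 1) * x ^ (1 - 2 * α)) := by gcongr
      _ = _ := by ring
  have c4 : A + C * B₁ ^ 2 * x ^ (1 - 2 * α) ≤ C' * (1 + B₁) ^ 2 * x ^ (1 - 2 * α) := by
    have h1 : A * (2 * δb / 3) ^ (2 * α - 1) * x ^ (1 - 2 * α) ≤ C' * x ^ (1 - 2 * α) := by gcongr
    have h2 : C * B₁ ^ 2 * x ^ (1 - 2 * α) ≤ C' * B₁ ^ 2 * x ^ (1 - 2 * α) := by gcongr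
    have hC'0 : 0 < C' := by linarith
    have h3 : C' * x ^ (1 - 2 * α) + C' * B₁ ^ 2 * x ^ (1 - 2 * α)
        ≤ C' * (1 + B₁) ^ 2 * x ^ (1 - 2 * α) := by
      have : 0 ≤ C' * x ^ (1 - 2 * α) * (2 * B₁) := by positivity
      nlinarith
    linarith
  calc ‖t‖ ^ 2 * (A + C * B₁ ^ 2 * x ^ (1 - 2 * α))
      ≤ ‖t‖ ^ 2 * (C' * (1 + B₁) ^ 2 * x ^ (1 - 2 * α)) := by gcongr
    _ = C' * (1 + B₁) ^ 2 * ‖t‖ ^ 2 * x ^ (1 - 2 * α) := by ring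

/-- LEAF C4 (GLUE): the form of Theorem 6.3 imported by Section 9 (`Shape.s9i_cone`, verbatim). -/
theorem Shape.s6_cone_s9 (Sh : Shape) (hH : Sh.H ≠ ⊤) (α m₀ δb : ℝ) (hα : 1 / 2 < α) (hα' : α < 1) (hm₀ : 0 < m₀)
    (hδb : 0 < δb) (hδb' : δb < Sh.Hr / 2) :
    ∃ L : ℝ, 0 < L ∧ ∀ K : ℝ, 0 < K → ∃ ε₀ d₀ δs C : ℝ, 0 < ε₀ ∧ 0 < d₀ ∧ 0 < δs ∧ 0 < C ∧
      ∀ ε d r x₀ : ℝ, 0 < ε → ε ≤ ε₀ → 0 < d → d ≤ d₀ → 0 < r → r ≤ K * d →
        (∀ s ∈ Sh.s9cone L x₀ (d / 10) δb, r * Sh.M s ≤ ε * (d / Sh.s9dep s) ^ α) →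
        ∃ (R : Set (ℂ × ℂ)) (S : ℂ × ℂ → ℂ), Sh.IsPassage R S ∧
          ∀ (y t : ℂ), d < Sh.s9dep y → Sh.s9dep y < δs → |y.re - x₀| < m₀ * Sh.s9dep y →
            ‖t‖ < r * (Sh.s9dep y / d) ^ α →
            (y, t) ∈ R ∧
              ‖S (y, t) - y‖ ≤ C * (1 + ε / r * d ^ α) ^ 2 * ‖t‖ ^ 2 * Sh.s9dep y ^ (1 - 2 * α) := by
  obtain ⟨Lf, hLf, hK⟩ := Sh.s6_cone hH α δb hα hα' hδb hδb'
  refine ⟨Lf m₀, hLf m₀, fun K hK0 => ?_⟩
  obtain ⟨ε₀, d₀, δs, C, h1, h2, h3, h4, hmain⟩ := hK K hK0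
  refine ⟨ε₀, d₀, δs, C, h1, h2, h3, h4, fun ε d r x₀ hε hε' hd hd' hr hr' hfield => ?_⟩
  refine ⟨Sh.s9Rmax, Sh.s9Smax, Sh.s9k_max, fun y t a1 a2 a3 a4 => ?_⟩
  exact hmain m₀ ε d r x₀ Sh.Hr hm₀ hε hε' hd hd' hr hr' (by linarith) le_rfl
    (fun s b1 b2 b3 => hfield s ⟨b1, b2, b3⟩) y t a1 a2 a3 a4

end Claimed.Agent.R269
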