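/-
Row 269, P1 Section 6.4: THE FUNCTIONS `K±`.   Blueprint: helper218.   NO PAPER READING NEEDED.   Route: header of S6/QuietDefs.lean.

K1 `s6q_anti`.  `f 0 ≠ 0` (`G.φ'_pos 0`; `φ = Θ(·,0)` near `0` by `φ_base`, so `f 0 = deriv (fun y => G.Θ y 0) 0`).   By `ca_ode_linear` (Lib/CAOde.lean; first order system as in `ca_ode2_hasDeriv`) there are `ζ, ζ'` on `D` with
     `ζ' = deriv ζ`, `deriv ζ' = q ζ + i e^{iφ}`, `ζ 0 = 0`, `ζ' 0 = e^{iφ 0}/f 0`.   `W = f ζ' - f' ζ` has `W' = f (qζ + i e^{iφ}) - (q f) ζ = i f e^{iφ} = (e^{iφ})'` (`q_eq`: `f'' = q f`), `W 0 = e^{iφ 0}`; `D` convex: `W = e^{iφ}`.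
     Fix `s ∈ D`.  `A v = e^{iφ s} K₊(s,v)` and `R v = f s ζ v - f v ζ s` both solve `u'' = q u + i f(s) e^{iφ v}` (for `A`: `ch_isChord.c'_deriv`, `d'_deriv`, `- sin Δ + i cos Δ = i e^{iΔ}`, `Δ = φ v - φ s`), with `u s = 0`, `u' s = e^{iφ s}`
     (`A`: `c_diag, c'_diag, d_diag, d'_diag`; `R`: `W s`).   `ca_ode_linear_unique`: `A = R` on `D`.   `R` is antisymmetric in `(s,v)`.      `K₋`: the same with `-i`, `e^{-iφ}`.
K2 `s6q_refl`: `K₊K₊' - K₋K₋' = 2 i f(s) chREC` (ring).  PROVED.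
K3 `s6q_K_bound`.  `v = s`: both sides `0` (`c_diag`, `d_diag`).   `t = v - s ≠ 0`: `ch_isFast hs ht` restricted to `V = {(r:ℂ) | r ∈ [0,1]}` (`s + t r ∈ D` by convexity); the zero fields have the fast functions `θ = 0, C = u²/2, C' = u, Dd = u, Dd' = 1`.
     `isFast_stab 2 1` with `η = a` (`‖F‖ = ‖t‖‖f‖ ≤ a`, `‖Q‖ = (‖t‖ sqrt‖q‖)² ≤ a² ≤ a`; `0 ≤ a`): `‖Dd 1 - 1‖ ≤ K a`, `‖C 1‖ ≤ K`.   `K±(s,v) = t (Dd 1 ± i F(0) C 1)`.   `K₀ = 2K`.
-/
import Claimed.Agent.R269.S6.QuietDefs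

set_option autoImplicit false

namespace Claimed.Agent.R269

open Complex Filter Topology Set Metric
open scoped ENNReal Real

namespace Shape

variable (Sh : Shape)

/-- antisymmetry for both signs `ι = ± i`. -/
theorem s6qk_anti (ι : ℂ) (hι : ι * ι = -1)
    (hexp : ∀ x : ℂ, Complex.exp (ι * x) = Complex.cos x + ι * Complex.sin x)
    (s v : ℂ) (hs : s ∈ Sh.D) (hv : v ∈ Sh.D) :
    Complex.exp (ι * Sh.φ s) * (Sh.chD s v + ι * Sh.f s * Sh.chC s v)
      = -(Complex.exp (ι * Sh.φ v) * (Sh.chD v s + ι * Sh.f v * Sh.chC v s)) := by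
  have hDo := Sh.ch_isOpen_D
  have hDc := Sh.ch_convex_D
  have h0D := Sh.ch_zero_mem_D
  have hI := Sh.ch_isChord
  have hf0 : Sh.f 0 ≠ 0 := by simpa using Sh.chh_f_real_ne 0
  have hE : ∀ w ∈ Sh.D, HasDerivAt (fun w => Complex.exp (ι * Sh.φ w))
      (ι * Sh.f w * Complex.exp (ι * Sh.φ w)) w := fun w hw => by
    refine (((Sh.ch_φ_deriv w hw).const_mul ι).cexp).congr_deriv ?_
    ring
  have hg : DifferentiableOn ℂ (fun w => ι * Complex.exp (ι * Sh.φ w)) Sh.D := fun w hw =>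
    ((hE w hw).const_mul ι).differentiableAt.differentiableWithinAt
  obtain ⟨ζ, ζ', hζ0, hζ'0, hζ, hζ'⟩ := ch_ode2_exists hDo hDc Sh.q_diff hg h0D 0
    (Complex.exp (ι * Sh.φ 0) / Sh.f 0)
  -- the Wronskian of `f` and `ζ`
  have hW : ∀ w ∈ Sh.D, Sh.f w * ζ' w - deriv Sh.f w * ζ w = Complex.exp (ι * Sh.φ w) := by
    intro w hw
    have key := chh_const hDo hDc
      (g := fun w => Sh.f w * ζ' w - deriv Sh.f w * ζ w - Complex.exp (ι * Sh.φ w))
      (fun w hw => by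
        refine ((((Sh.chh_f_deriv w hw).mul (hζ' w hw)).sub
          ((Sh.chh_f'_deriv w hw).mul (hζ w hw))).sub (hE w hw)).congr_deriv ?_
        ring) hw h0D
    simp only [hζ0, hζ'0] at key
    have e : Sh.f 0 * (Complex.exp (ι * Sh.φ 0) / Sh.f 0) = Complex.exp (ι * Sh.φ 0) := by
      field_simp
    rw [e] at key
    linear_combination key
  -- the representation
  have hrep : ∀ s ∈ Sh.D, ∀ v ∈ Sh.D,
      Complex.exp (ι * Sh.φ s) * (Sh.chD s v + ι * Sh.f s * Sh.chC s v)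
        = Sh.f s * ζ v - Sh.f v * ζ s := by
    intro s hs v hv
    refine (ch_ode2_unique hDo hDc (g := fun w => ι * Sh.f s * Complex.exp (ι * Sh.φ w)) Sh.q_diff hs
      (y := fun w => Complex.exp (ι * Sh.φ s) * (Sh.chD s w + ι * Sh.f s * Sh.chC s w))
      (y' := fun w => Complex.exp (ι * Sh.φ s) * (Sh.chD' s w + ι * Sh.f s * Sh.chC' s w))
      (w := fun w => Sh.f s * ζ w - Sh.f w * ζ s)
      (w' := fun w => Sh.f s * ζ' w - deriv Sh.f w * ζ s)
      (fun w hw => ((hI.d_deriv s hs w hw).add ((hI.c_deriv s hs w hw).const_mul _)).const_mul _)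
      (fun w hw => by
        refine (((hI.d'_deriv s hs w hw).add
          ((hI.c'_deriv s hs w hw).const_mul (ι * Sh.f s))).const_mul _).congr_deriv ?_
        have e : Complex.exp (ι * Sh.φ w)
            = Complex.exp (ι * Sh.φ s) * Complex.exp (ι * (Sh.φ w - Sh.φ s)) := by
          rw [← Complex.exp_add]; congr 1; ring
        rw [e, hexp (Sh.φ w - Sh.φ s)]
        linear_combination (-(Complex.exp (ι * Sh.φ s) * Sh.f s
          * Complex.sin (Sh.φ w - Sh.φ s))) * hι)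
      (fun w hw => ((hζ w hw).const_mul _).sub ((Sh.chh_f_deriv w hw).mul_const _))
      (fun w hw => by
        refine (((hζ' w hw).const_mul (Sh.f s)).sub
          ((Sh.chh_f'_deriv w hw).mul_const (ζ s))).congr_deriv ?_
        ring)
      (by simp only [hI.d_diag s hs, hI.c_diag s hs]; ring)
      (by simp only [hI.d'_diag s hs, hI.c'_diag s hs]; rw [hW s hs]; ring) v hv).1
  rw [hrep s hs v hv, hrep v hv s hs]
  ring

/-- LEAF K1: antisymmetry of the isotropic chord coordinates. -/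
theorem s6q_anti (s v : ℂ) (hs : s ∈ Sh.D) (hv : v ∈ Sh.D) :
    Complex.exp (I * Sh.φ s) * Sh.s6Kp s v = -(Complex.exp (I * Sh.φ v) * Sh.s6Kp v s) ∧
    Complex.exp (-(I * Sh.φ s)) * Sh.s6Km s v = -(Complex.exp (-(I * Sh.φ v)) * Sh.s6Km v s) := by
  constructor
  · exact Sh.s6qk_anti I Complex.I_mul_I
      (fun x => by rw [mul_comm, Complex.exp_mul_I]; ring) s v hs hv
  · have := Sh.s6qk_anti (-I) (by rw [neg_mul_neg, Complex.I_mul_I])
      (fun x => by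
        have : -I * x = (-x) * I := by ring
        rw [this, Complex.exp_mul_I, Complex.cos_neg, Complex.sin_neg]; ring) s v hs hv
    simp only [s6Km]
    simp only [neg_mul] at this
    simpa only [sub_eq_add_neg] using this

/-- K2: the reflection law in terms of `K±`. -/
theorem s6q_refl (sm s sp : ℂ) (h : Sh.chREC sm s sp = 0) :
    Sh.s6Kp s sp * Sh.s6Kp s sm = Sh.s6Km s sp * Sh.s6Km s sm := by
  have : Sh.s6Kp s sp * Sh.s6Kp s sm - Sh.s6Km s sp * Sh.s6Km s sm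
      = 2 * I * Sh.f s * Sh.chREC sm s sp := by
    simp only [s6Kp, s6Km, chREC]; ring
  rw [h, mul_zero] at this
  exact sub_eq_zero.1 this

end Shape

theorem s6qk_zero_fast (V : Set ℂ) : IsFast V (fun _ => 0) (fun _ => 0) (fun _ => 0)
    (fun u => u ^ 2 / 2) (fun u => u) (fun u => u) (fun _ => 1) :=
  ⟨rfl, by simp, rfl, rfl, rfl, fun u _ => hasDerivAt_const u 0,
    fun u _ => by
      refine (((hasDerivAt_id u).pow 2).div_const 2).congr_deriv ?_
      simp,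
    fun u _ => (hasDerivAt_id' u).congr_deriv (by simp), fun u _ => hasDerivAt_id' u,
    fun u _ => (hasDerivAt_const u (1 : ℂ)).congr_deriv (by simp)⟩

/-- LEAF K3: the small-field bound, uniformly in the shape. -/
theorem s6q_K_bound : ∃ K₀ : ℝ, 0 < K₀ ∧ ∀ Sh : Shape, Sh.S6KB K₀ := by
  obtain ⟨K, hK, hstab⟩ := isFast_stab 2 1 (by norm_num) (by norm_num)
  refine ⟨2 * K, by positivity, ?_⟩
  intro Sh s v a hs hv ha1 hfield
  have hI := Sh.ch_isChord
  have hM0 : ∀ z, 0 ≤ Sh.M z := fun z => le_max_of_le_left (norm_nonneg _)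
  have ha0 : 0 ≤ a :=
    (mul_nonneg (norm_nonneg _) (hM0 _)).trans (hfield 0 ⟨le_rfl, zero_le_one⟩)
  by_cases hvs : v = s
  · subst hvs
    simp [Shape.s6Kp, Shape.s6Km, hI.d_diag v hs, hI.c_diag v hs]
  set t : ℂ := v - s with ht
  have ht0 : t ≠ 0 := sub_ne_zero.2 hvs
  set V : Set ℂ := (fun r : ℝ => (r : ℂ)) '' Icc (0 : ℝ) 1 with hV
  have hVD : V ⊆ {u | s + t * u ∈ Sh.D} := by
    rintro _ ⟨r, hr, rfl⟩
    have := Sh.ch_convex_D hs hv (a := 1 - r) (b := r) (by linarith [hr.2]) hr.1 (by ring)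
    have e : (1 - r) • s + r • v = s + t * (r : ℂ) := by
      simp only [Complex.real_smul, ht]; push_cast; ring
    rwa [e] at this
  have hfast : IsFast V _ _ _ _ _ _ _ :=
    ⟨(Sh.ch_isFast hs ht0).θ_zero, (Sh.ch_isFast hs ht0).C_zero, (Sh.ch_isFast hs ht0).C'_zero,
      (Sh.ch_isFast hs ht0).Dd_zero, (Sh.ch_isFast hs ht0).Dd'_zero,
      fun u hu => (Sh.ch_isFast hs ht0).θ_deriv u (hVD hu),
      fun u hu => (Sh.ch_isFast hs ht0).C_deriv u (hVD hu),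
      fun u hu => (Sh.ch_isFast hs ht0).C'_deriv u (hVD hu),
      fun u hu => (Sh.ch_isFast hs ht0).Dd_deriv u (hVD hu),
      fun u hu => (Sh.ch_isFast hs ht0).Dd'_deriv u (hVD hu)⟩
  have hbd : ∀ u ∈ V, ‖t * Sh.f (s + t * u)‖ ≤ a ∧ ‖t ^ 2 * Sh.q (s + t * u)‖ ≤ a ^ 2 := by
    rintro _ ⟨r, hr, rfl⟩
    have h1 := hfield r hr
    rw [mul_comm (r : ℂ)] at h1
    constructor
    · rw [norm_mul]
      exact (mul_le_mul_of_nonneg_left (le_max_left _ _) (norm_nonneg t)).trans h1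
    · rw [norm_mul, norm_pow]
      have h2 : ‖t‖ * Real.sqrt ‖Sh.q (s + t * r)‖ ≤ a :=
        (mul_le_mul_of_nonneg_left (le_max_right _ _) (norm_nonneg t)).trans h1
      have h3 : ‖t‖ ^ 2 * ‖Sh.q (s + t * r)‖ = (‖t‖ * Real.sqrt ‖Sh.q (s + t * r)‖) ^ 2 := by
        rw [mul_pow, Real.sq_sqrt (norm_nonneg _)]
      rw [h3]
      exact pow_le_pow_left₀ (by positivity) h2 2
  have haa : a ^ 2 ≤ a := by nlinarith
  have h1V : (1 : ℂ) ∈ V := ⟨1, ⟨zero_le_one, le_rfl⟩, by simp⟩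
  have h0V : (0 : ℂ) ∈ V := ⟨0, ⟨le_rfl, zero_le_one⟩, by simp⟩
  have key := hstab V
    (by
      rintro _ ⟨r, hr, rfl⟩
      rw [mem_ball_zero_iff, Complex.norm_real, Real.norm_eq_abs, abs_of_nonneg hr.1]
      linarith [hr.2])
    (by
      rintro _ ⟨r, hr, rfl⟩ r' hr'
      exact ⟨r' * r, ⟨mul_nonneg hr'.1 hr.1, mul_le_one₀ hr'.2 hr.1 hr.2⟩, by push_cast; ring⟩)
    _ _ _ _ _ _ _ _ _ _ _ _ _ _ a hfast (s6qk_zero_fast V)
    (fun u hu => ⟨(hbd u hu).1.trans ha1, ((hbd u hu).2.trans haa).trans ha1, by simp, by simp⟩)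
    (fun u hu => ⟨by simpa using (hbd u hu).1, by simpa using (hbd u hu).2.trans haa⟩) 1 h1V
  obtain ⟨⟨-, kC, -, -, -⟩, -, -, -, kD, -⟩ := key
  simp only [mul_one] at kC kD
  have e1 : s + t = v := by rw [ht]; ring
  rw [e1] at kC kD
  have hF0 : ‖t * Sh.f s‖ ≤ a := by simpa using (hbd 0 h0V).1
  have htn : 0 < ‖t‖ := norm_pos_iff.2 ht0
  have hA : ‖t * (Sh.chD s v / t - 1)‖ ≤ ‖t‖ * (K * a) := by
    rw [norm_mul]; gcongr
  have hB : ‖I * t * (t * Sh.f s) * (Sh.chC s v / t ^ 2)‖ ≤ ‖t‖ * a * K := by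
    rw [norm_mul, norm_mul, norm_mul I, Complex.norm_I, one_mul]
    gcongr
  constructor
  · have e : Sh.s6Kp s v - t = t * (Sh.chD s v / t - 1)
        + I * t * (t * Sh.f s) * (Sh.chC s v / t ^ 2) := by
      simp only [Shape.s6Kp]; field_simp; ring
    rw [e]
    refine (norm_add_le _ _).trans ?_
    nlinarith
  · have e : Sh.s6Km s v - t = t * (Sh.chD s v / t - 1)
        - I * t * (t * Sh.f s) * (Sh.chC s v / t ^ 2) := by
      simp only [Shape.s6Km]; field_simp; ring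
    rw [e]
    refine (norm_sub_le _ _).trans ?_
    nlinarith

end Claimed.Agent.R269
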