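/-
Row 269, P1 Section 6.4: QUIET DATA ARE CONTRADICTORY.   Blueprint: helper218.   NO PAPER READING NEEDED.   Route: header of S6/QuietDefs.lean.
Everything is deduced from `hq : Sh.S6Q x₀ d a₀ K₀`.   `S = s9Smax`, `A = s6A x₀ d` (open), depth `= Hr - Im`.

P1 `chord`.  `s = S(u,t)`, `v = S(u',t)` lie within `‖t‖/100 < 0.015 d` of `u, u'` (`near`), hence in the CONVEX set `F = {d/20 ≤ depth ≤ 8d, |Re - x₀| ≤ 5d}`, which is contained in `D` (`d_small`; or `s9k_max.mem`); the segment `[s,v] ⊆ F`, there `M ≤ a₀/d` (`field`);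
    `‖v - s‖ ≤ ‖t‖ (1 + 1/50)`;  `kb` with `a = 2 a₀ ‖t‖/d ≤ 3 a₀ ≤ 1`.
P2 `K_ne`.  `‖v - s‖ ≥ (49/50)‖t‖ > 0`, `‖K± - (v-s)‖ ≤ 3 K₀ a₀ ‖v-s‖ ≤ (3/4)‖v-s‖`.
P3 `Ec_eq_Eb`.  `ch_rec (y - t/2) t` (`y - t/2 - t = y - 3t/2`, `y - t/2 + t = y + t/2`), `s6q_refl`, P2 (`div_eq_div_iff`).
P4 `Ec_even`.  `S(y + t/2,-t) = S(y + t/2,t)` etc. (`s6e_Smax_neg`; `y - (-t)/2 = y + t/2`).   With `a = S(y-t/2,t)`, `c = S(y+t/2,t)`: `Ec y (-t) = e^{2iφ c} K₊(c,a)/K₋(c,a) = (e^{iφ c}K₊(c,a))/(e^{-iφ c}K₋(c,a)) = (e^{iφ a}K₊(a,c))/(e^{-iφ a}K₋(a,c)) = Ec y t` (`s6q_anti`).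
P5 `Eb_diff`, `Ec_diff`.  `S` is differentiable on the open set `Rmax ⊇ A`, with values in `D`; `φ`, `f` differentiable on `D`; `chC`, `chD` jointly differentiable on `D ×ˢ D`; denominators `≠ 0` by P2.
P6 `Ec_lim`.  `S(y_c,0) = y_c` (`near` with `t = 0`).   `|K₊/K₋ - 1| ≤ 2κ/(1-κ)`, `κ = 2 K₀ a₀ ‖t‖/d → 0` (P1).   `e^{2iφ(S(y - t/2,t))} → e^{2iφ(y_c)}` by continuity.
P7 geometry: `mem_arc`: `σ = sin θ ∈ [0,1]`, depth of `y - k t/2` is `Hr - Im y_c + (d/4)(1 + 2kσ - 2σ²) ∈ (d/8, 4d + 5d/4)`; horizontal shift `≤ d/4 + 3d/2`.   `mem_disc`: all shifts `≤ (1.96/4 + 2.1) d = 2.59 d`.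
P8 `P_diff`.  The integrand `g(y_c,θ)` is continuous on `Rect × [0,π]` and holomorphic in `y_c` (P5, P7).   Bound: `|K₋/K₊| ≤ 7`, `e^{2iφ}` is bounded on the compact set `F ⊆ D`.
    Holomorphy of parameter integrals: `mgs_differentiableOn_integral` (Claimed/Agent/R302/MG/Vitali.lean, proved, may be imported) or `hasDerivAt_integral_of_dominated_loc_of_deriv_le`.
P9 `P_low`.  `k ζ = Ec (y_c - (i d/4)ζ²) (dζ)` for `ζ ≠ 0`, `k 0 = e^{2iφ y_c}`: continuous on `closedBall 0 1` (P5, P6), differentiable on `ball 0 1 \ {0}`.   `Complex.circleIntegral_sub_inv_smul_of_differentiable_on_off_countable`: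
    `∮ ζ⁻¹ k = 2πi k(0)`, i.e. `∫_0^{2π} k(e^{iθ}) dθ = 2π k(0)`.   `k(-ζ) = k(ζ)` (P4): `∫_π^{2π} = ∫_0^π`.   On the upper arc `k = Eb` (P3).
P10 `false`.  `Rect ∩ D = {|Re - x₀| < d, Hr - 4d < Im < Hr}` is convex and open; `P` and `e^{2iφ}` are holomorphic on it and equal on the open nonempty part `Im < Hr - 3d`: identity theorem.   `ball (x₀ + i Hr) (d/8) ⊆ Rect`.   `s6_nat_phi`.
-/
import Claimed.Agent.R269.S6.QuietK
import Claimed.Agent.R269.S6.NatPhi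
import Claimed.Agent.R269.S6.Even
import Claimed.Agent.R269.S2.PH

set_option autoImplicit false

namespace Claimed.Agent.R269

open Complex Filter Topology Set Metric
open scoped ENNReal Real

namespace Shape.S6Q

variable {Sh : Shape} {x₀ d a₀ K₀ : ℝ}

/-- an impact lies in the field region. -/
theorem impact (hq : Sh.S6Q x₀ d a₀ K₀) {u t : ℂ} (hu : (u, t) ∈ Sh.s6A x₀ d) :
    d / 20 ≤ Sh.Hr - (Sh.s9Smax (u, t)).im ∧ Sh.Hr - (Sh.s9Smax (u, t)).im ≤ 8 * d ∧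
      |(Sh.s9Smax (u, t)).re - x₀| ≤ 5 * d := by
  have hd := hq.d_pos
  have hn := hq.near _ hu
  obtain ⟨h1, h2, h3, h4⟩ := hu
  simp only at hn h1 h2 h3 h4
  have him := (Complex.abs_im_le_norm _).trans hn
  have hre := (Complex.abs_re_le_norm _).trans hn
  rw [abs_le] at him hre
  simp only [Complex.sub_im, Complex.sub_re] at him hre
  rw [abs_lt] at h4
  refine ⟨by linarith, by linarith, ?_⟩
  rw [abs_le]
  constructor <;> linarith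

/-- LEAF P1: two impacts one step apart. -/
theorem chord (hq : Sh.S6Q x₀ d a₀ K₀) {u u' t : ℂ} (hu : (u, t) ∈ Sh.s6A x₀ d)
    (hu' : (u', t) ∈ Sh.s6A x₀ d) (hstep : ‖u' - u‖ = ‖t‖) :
    Sh.s9Smax (u, t) ∈ Sh.D ∧ Sh.s9Smax (u', t) ∈ Sh.D ∧
    ‖(Sh.s9Smax (u', t) - Sh.s9Smax (u, t)) - (u' - u)‖ ≤ ‖t‖ / 50 ∧
    ‖Sh.s6Kp (Sh.s9Smax (u, t)) (Sh.s9Smax (u', t)) - (Sh.s9Smax (u', t) - Sh.s9Smax (u, t))‖ ≤
      2 * K₀ * a₀ * (‖t‖ / d) * ‖Sh.s9Smax (u', t) - Sh.s9Smax (u, t)‖ ∧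
    ‖Sh.s6Km (Sh.s9Smax (u, t)) (Sh.s9Smax (u', t)) - (Sh.s9Smax (u', t) - Sh.s9Smax (u, t))‖ ≤
      2 * K₀ * a₀ * (‖t‖ / d) * ‖Sh.s9Smax (u', t) - Sh.s9Smax (u, t)‖ := by
  have hd := hq.d_pos
  have ha₀ := hq.a₀_pos
  set s := Sh.s9Smax (u, t) with hs
  set v := Sh.s9Smax (u', t) with hv
  have hsD : s ∈ Sh.D := Sh.s9k_max.mem _ (hq.mem hu)
  have hvD : v ∈ Sh.D := Sh.s9k_max.mem _ (hq.mem hu')
  have hns : ‖s - u‖ ≤ ‖t‖ / 100 := hq.near _ hu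
  have hnv : ‖v - u'‖ ≤ ‖t‖ / 100 := hq.near _ hu'
  have hdiff : ‖(v - s) - (u' - u)‖ ≤ ‖t‖ / 50 := by
    have : (v - s) - (u' - u) = (v - u') - (s - u) := by ring
    rw [this]
    exact (norm_sub_le _ _).trans (by linarith)
  have hvs : ‖v - s‖ ≤ 2 * ‖t‖ := by
    have : v - s = ((v - s) - (u' - u)) + (u' - u) := by ring
    rw [this]
    refine (norm_add_le _ _).trans ?_
    rw [hstep]
    have := norm_nonneg t
    linarith
  have ht : ‖t‖ < 3 / 2 * d := hu.1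
  have ha1 : 2 * a₀ * (‖t‖ / d) ≤ 1 := by
    have h1 : ‖t‖ / d ≤ 3 / 2 := by
      rw [div_le_iff₀ hd]; exact ht.le
    have := hq.small'
    nlinarith
  obtain ⟨p1, p2, p3⟩ := hq.impact hu
  obtain ⟨q1, q2, q3⟩ := hq.impact hu'
  rw [← hs] at p1 p2 p3
  rw [← hv] at q1 q2 q3
  have hseg : ∀ r ∈ Icc (0 : ℝ) 1, ‖v - s‖ * Sh.M (s + (r : ℂ) * (v - s)) ≤ 2 * a₀ * (‖t‖ / d) := by
    intro r hr
    have hr0 := hr.1
    have hr1 : 0 ≤ 1 - r := by linarith [hr.2]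
    have him : (s + (r : ℂ) * (v - s)).im = (1 - r) * s.im + r * v.im := by
      simp; ring
    have hre : (s + (r : ℂ) * (v - s)).re = (1 - r) * s.re + r * v.re := by
      simp; ring
    have hM : d * Sh.M (s + (r : ℂ) * (v - s)) ≤ a₀ := by
      apply hq.field
      · rw [him]
        nlinarith [mul_nonneg hr1 (sub_nonneg.2 p1), mul_nonneg hr0 (sub_nonneg.2 q1)]
      · rw [him]
        nlinarith [mul_nonneg hr1 (sub_nonneg.2 p2), mul_nonneg hr0 (sub_nonneg.2 q2)]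
      · rw [hre]
        rw [abs_le] at p3 q3 ⊢
        constructor
        · nlinarith [mul_nonneg hr1 (sub_nonneg.2 p3.1), mul_nonneg hr0 (sub_nonneg.2 q3.1)]
        · nlinarith [mul_nonneg hr1 (sub_nonneg.2 p3.2), mul_nonneg hr0 (sub_nonneg.2 q3.2)]
    have hM0 : 0 ≤ Sh.M (s + (r : ℂ) * (v - s)) := le_max_of_le_left (norm_nonneg _)
    have hM' : Sh.M (s + (r : ℂ) * (v - s)) ≤ a₀ / d := by
      rw [le_div_iff₀ hd]; linarith
    calc ‖v - s‖ * Sh.M (s + (r : ℂ) * (v - s)) ≤ (2 * ‖t‖) * (a₀ / d) :=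
          mul_le_mul hvs hM' hM0 (by positivity)
      _ = 2 * a₀ * (‖t‖ / d) := by ring
  obtain ⟨k1, k2⟩ := hq.kb s v _ hsD hvD ha1 hseg
  refine ⟨hsD, hvD, hdiff, ?_, ?_⟩
  · calc _ ≤ _ := k1
      _ = _ := by ring
  · calc _ ≤ _ := k2
      _ = _ := by ring

theorem step_pos (hq : Sh.S6Q x₀ d a₀ K₀) {u u' t : ℂ} (hu : (u, t) ∈ Sh.s6A x₀ d)
    (hu' : (u', t) ∈ Sh.s6A x₀ d) (hstep : ‖u' - u‖ = ‖t‖) :
    49 / 50 * ‖t‖ ≤ ‖Sh.s9Smax (u', t) - Sh.s9Smax (u, t)‖ := by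
  obtain ⟨-, -, h3, -, -⟩ := hq.chord hu hu' hstep
  have := norm_sub_norm_le (u' - u) ((u' - u) - (Sh.s9Smax (u', t) - Sh.s9Smax (u, t)))
  rw [sub_sub_cancel, hstep, norm_sub_rev] at this
  linarith

/-- LEAF P2. -/
theorem K_ne (hq : Sh.S6Q x₀ d a₀ K₀) {u u' t : ℂ} (hu : (u, t) ∈ Sh.s6A x₀ d)
    (hu' : (u', t) ∈ Sh.s6A x₀ d) (hstep : ‖u' - u‖ = ‖t‖) (ht : t ≠ 0) :
    Sh.s6Kp (Sh.s9Smax (u, t)) (Sh.s9Smax (u', t)) ≠ 0 ∧
      Sh.s6Km (Sh.s9Smax (u, t)) (Sh.s9Smax (u', t)) ≠ 0 := by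
  have hd := hq.d_pos
  obtain ⟨-, -, -, h4, h5⟩ := hq.chord hu hu' hstep
  have hpos := hq.step_pos hu hu' hstep
  have ht0 : 0 < ‖t‖ := norm_pos_iff.2 ht
  have hvs : 0 < ‖Sh.s9Smax (u', t) - Sh.s9Smax (u, t)‖ := by linarith
  have hk : 2 * K₀ * a₀ * (‖t‖ / d) ≤ 3 / 4 := by
    have h1 : ‖t‖ / d ≤ 3 / 2 := by
      rw [div_le_iff₀ hd]; exact (hu.1).le
    have := hq.small
    have h2 : 0 ≤ K₀ * a₀ := (mul_pos hq.K₀_pos hq.a₀_pos).le
    nlinarith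
  constructor
  · intro h0
    rw [h0, zero_sub, norm_neg] at h4
    nlinarith
  · intro h0
    rw [h0, zero_sub, norm_neg] at h5
    nlinarith

/-- LEAF P3. -/
theorem Ec_eq_Eb (hq : Sh.S6Q x₀ d a₀ K₀) {y t : ℂ} (h1 : (y - t / 2, t) ∈ Sh.s6A x₀ d)
    (h2 : (y + t / 2, t) ∈ Sh.s6A x₀ d) (h3 : (y - 3 * t / 2, t) ∈ Sh.s6A x₀ d) (ht : t ≠ 0) :
    Sh.s6Ec y t = Sh.s6Eb y t := by
  have e1 : y - t / 2 - t = y - 3 * t / 2 := by ring
  have e2 : y - t / 2 + t = y + t / 2 := by ring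
  have hrec := Sh.ch_rec (y - t / 2) t (by rw [e1]; exact hq.mem h3) (hq.mem h1)
    (by rw [e2]; exact hq.mem h2)
  rw [e1, e2] at hrec
  have hrefl := Sh.s6q_refl _ _ _ hrec
  have n1 := (hq.K_ne h1 h2 (by rw [show y + t / 2 - (y - t / 2) = t by ring]) ht).2
  have n2 := (hq.K_ne h1 h3 (by rw [show y - 3 * t / 2 - (y - t / 2) = -t by ring, norm_neg]) ht).1
  unfold Shape.s6Ec Shape.s6Eb
  rw [mul_div_assoc, mul_div_assoc, (div_eq_div_iff n1 n2).2 (hrefl.trans (mul_comm _ _))]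

theorem exp_two_aux (p A B : ℂ) :
    Complex.exp (2 * I * p) * A / B = (Complex.exp (I * p) * A) / (Complex.exp (-(I * p)) * B) := by
  rw [mul_div_mul_comm, mul_div_assoc]
  congr 1
  rw [Complex.exp_neg, div_inv_eq_mul, ← Complex.exp_add]
  congr 1
  ring

/-- LEAF P4. -/
theorem Ec_even (hq : Sh.S6Q x₀ d a₀ K₀) {y t : ℂ} (h1 : (y - t / 2, t) ∈ Sh.s6A x₀ d)
    (h2 : (y + t / 2, t) ∈ Sh.s6A x₀ d) : Sh.s6Ec y (-t) = Sh.s6Ec y t := by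
  have e1 : y - -t / 2 = y + t / 2 := by ring
  have e2 : y + -t / 2 = y - t / 2 := by ring
  unfold Shape.s6Ec
  rw [e1, e2, Sh.s6e_Smax_neg _ _ (hq.mem h1), Sh.s6e_Smax_neg _ _ (hq.mem h2)]
  have hD1 := Sh.s9k_max.mem _ (hq.mem h1)
  have hD2 := Sh.s9k_max.mem _ (hq.mem h2)
  obtain ⟨a1, a2⟩ := Sh.s6q_anti _ _ hD1 hD2
  rw [exp_two_aux, exp_two_aux, a1, a2, neg_div_neg_eq]

theorem _root_.Claimed.Agent.R269.Shape.s6q_K_diffAt (Sh : Shape) {s v : ℂ} (hs : s ∈ Sh.D) (hv : v ∈ Sh.D) :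
    DifferentiableAt ℂ (fun z : ℂ × ℂ => Sh.s6Kp z.1 z.2) (s, v) ∧
      DifferentiableAt ℂ (fun z : ℂ × ℂ => Sh.s6Km z.1 z.2) (s, v) := by
  have hn : Sh.D ×ˢ Sh.D ∈ 𝓝 (s, v) := (Sh.sb_isOpen_D.prod Sh.sb_isOpen_D).mem_nhds ⟨hs, hv⟩
  have hc : DifferentiableAt ℂ (fun z : ℂ × ℂ => Sh.chC z.1 z.2) (s, v) :=
    (Sh.ch_isChord.c_joint _ ⟨hs, hv⟩).differentiableAt hn
  have hd : DifferentiableAt ℂ (fun z : ℂ × ℂ => Sh.chD z.1 z.2) (s, v) :=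
    (Sh.ch_isChord.d_joint _ ⟨hs, hv⟩).differentiableAt hn
  have hf : DifferentiableAt ℂ (fun z : ℂ × ℂ => Sh.f z.1) (s, v) :=
    DifferentiableAt.comp (f := fun z : ℂ × ℂ => z.1) (s, v) (Sh.sb_f_at hs) differentiableAt_fst
  constructor
  · exact hd.add (((differentiableAt_const I).mul hf).mul hc)
  · exact hd.sub (((differentiableAt_const I).mul hf).mul hc)

/-- differentiability of the angle coordinates along differentiable impacts. -/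
theorem _root_.Claimed.Agent.R269.Shape.s6q_E_diffAt (Sh : Shape) {α β : ℂ × ℂ → ℂ} {z : ℂ × ℂ}
    (hα : DifferentiableAt ℂ α z) (hβ : DifferentiableAt ℂ β z) (hαD : α z ∈ Sh.D) (hβD : β z ∈ Sh.D) :
    (Sh.s6Km (α z) (β z) ≠ 0 → DifferentiableAt ℂ (fun w => Complex.exp (2 * I * Sh.φ (α w)) *
      Sh.s6Kp (α w) (β w) / Sh.s6Km (α w) (β w)) z) ∧
    (Sh.s6Kp (α z) (β z) ≠ 0 → DifferentiableAt ℂ (fun w => Complex.exp (2 * I * Sh.φ (α w)) *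
      Sh.s6Km (α w) (β w) / Sh.s6Kp (α w) (β w)) z) := by
  have hpair : DifferentiableAt ℂ (fun w => (α w, β w)) z := hα.prodMk hβ
  obtain ⟨k1, k2⟩ := Sh.s6q_K_diffAt hαD hβD
  have hp : DifferentiableAt ℂ (fun w => Sh.s6Kp (α w) (β w)) z :=
    DifferentiableAt.comp (f := fun w => (α w, β w)) z k1 hpair
  have hm : DifferentiableAt ℂ (fun w => Sh.s6Km (α w) (β w)) z :=
    DifferentiableAt.comp (f := fun w => (α w, β w)) z k2 hpair
  have hφ : DifferentiableAt ℂ (fun w => Sh.φ (α w)) z :=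
    DifferentiableAt.comp (f := α) z (Sh.sb_φ_at hαD) hα
  have he : DifferentiableAt ℂ (fun w => Complex.exp (2 * I * Sh.φ (α w))) z :=
    ((differentiableAt_const (2 * I)).mul hφ).cexp
  have n1 : DifferentiableAt ℂ (fun w => Complex.exp (2 * I * Sh.φ (α w)) * Sh.s6Kp (α w) (β w)) z :=
    he.mul hp
  have n2 : DifferentiableAt ℂ (fun w => Complex.exp (2 * I * Sh.φ (α w)) * Sh.s6Km (α w) (β w)) z :=
    he.mul hm
  constructor
  · intro h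
    simp only [div_eq_mul_inv]
    exact n1.mul (DifferentiableAt.fun_inv hm h)
  · intro h
    simp only [div_eq_mul_inv]
    exact n2.mul (DifferentiableAt.fun_inv hp h)

theorem _root_.Claimed.Agent.R269.Shape.s6q_S_diffAt (Sh : Shape) (k : ℂ) {z : ℂ × ℂ}
    (h : (z.1 + k * z.2, z.2) ∈ Sh.s9Rmax) :
    DifferentiableAt ℂ (fun w : ℂ × ℂ => Sh.s9Smax (w.1 + k * w.2, w.2)) z := by
  have h1 : DifferentiableAt ℂ Sh.s9Smax (z.1 + k * z.2, z.2) :=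
    (Sh.s9k_max.diff _ h).differentiableAt (Sh.s9k_max.isOpen.mem_nhds h)
  have h2 : DifferentiableAt ℂ (fun w : ℂ × ℂ => (w.1 + k * w.2, w.2)) z := by fun_prop
  exact DifferentiableAt.comp (f := fun w : ℂ × ℂ => (w.1 + k * w.2, w.2)) z h1 h2

/-- LEAF P5a. -/
theorem Eb_diff (hq : Sh.S6Q x₀ d a₀ K₀) :
    DifferentiableOn ℂ (fun z : ℂ × ℂ => Sh.s6Eb z.1 z.2)
      {z | (z.1 - z.2 / 2, z.2) ∈ Sh.s6A x₀ d ∧ (z.1 - 3 * z.2 / 2, z.2) ∈ Sh.s6A x₀ d ∧ z.2 ≠ 0} := by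
  rintro ⟨y, t⟩ ⟨h1, h2, h3⟩
  simp only at h1 h2 h3
  have e1 : ∀ w : ℂ × ℂ, w.1 + (-(1 / 2) : ℂ) * w.2 = w.1 - w.2 / 2 := fun w => by ring
  have e2 : ∀ w : ℂ × ℂ, w.1 + (-(3 / 2) : ℂ) * w.2 = w.1 - 3 * w.2 / 2 := fun w => by ring
  have d1 := Sh.s6q_S_diffAt (-(1 / 2)) (z := (y, t)) (by rw [e1]; exact hq.mem h1)
  have d2 := Sh.s6q_S_diffAt (-(3 / 2)) (z := (y, t)) (by rw [e2]; exact hq.mem h2)
  simp only [e1, e2] at d1 d2
  have n := (hq.K_ne h1 h2 (by rw [show y - 3 * t / 2 - (y - t / 2) = -t by ring, norm_neg]) h3).1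
  exact ((Sh.s6q_E_diffAt d1 d2 (Sh.s9k_max.mem _ (hq.mem h1)) (Sh.s9k_max.mem _ (hq.mem h2))).2
    n).differentiableWithinAt

/-- LEAF P5b. -/
theorem Ec_diff (hq : Sh.S6Q x₀ d a₀ K₀) :
    DifferentiableOn ℂ (fun z : ℂ × ℂ => Sh.s6Ec z.1 z.2)
      {z | (z.1 - z.2 / 2, z.2) ∈ Sh.s6A x₀ d ∧ (z.1 + z.2 / 2, z.2) ∈ Sh.s6A x₀ d ∧ z.2 ≠ 0} := by
  rintro ⟨y, t⟩ ⟨h1, h2, h3⟩
  simp only at h1 h2 h3
  have e1 : ∀ w : ℂ × ℂ, w.1 + (-(1 / 2) : ℂ) * w.2 = w.1 - w.2 / 2 := fun w => by ring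
  have e2 : ∀ w : ℂ × ℂ, w.1 + ((1 / 2) : ℂ) * w.2 = w.1 + w.2 / 2 := fun w => by ring
  have d1 := Sh.s6q_S_diffAt (-(1 / 2)) (z := (y, t)) (by rw [e1]; exact hq.mem h1)
  have d2 := Sh.s6q_S_diffAt (1 / 2) (z := (y, t)) (by rw [e2]; exact hq.mem h2)
  simp only [e1, e2] at d1 d2
  have n := (hq.K_ne h1 h2 (by rw [show y + t / 2 - (y - t / 2) = t by ring]) h3).2
  exact ((Sh.s6q_E_diffAt d1 d2 (Sh.s9k_max.mem _ (hq.mem h1)) (Sh.s9k_max.mem _ (hq.mem h2))).1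
    n).differentiableWithinAt

theorem _root_.Claimed.Agent.R269.Shape.s6A_isOpen (Sh : Shape) (x₀ d : ℝ) : IsOpen (Sh.s6A x₀ d) := by
  have c1 : Continuous fun z : ℂ × ℂ => ‖z.2‖ := by fun_prop
  have c2 : Continuous fun z : ℂ × ℂ => Sh.Hr - z.1.im :=
    continuous_const.sub (Complex.continuous_im.comp continuous_fst)
  have c3 : Continuous fun z : ℂ × ℂ => |z.1.re - x₀| :=
    ((Complex.continuous_re.comp continuous_fst).sub continuous_const).abs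
  exact (isOpen_lt c1 continuous_const).inter ((isOpen_lt continuous_const c2).inter
    ((isOpen_lt c2 continuous_const).inter (isOpen_lt c3 continuous_const)))

/-- the two isotropic chord coordinates are comparable. -/
theorem ratio (hq : Sh.S6Q x₀ d a₀ K₀) {u u' t : ℂ} (hu : (u, t) ∈ Sh.s6A x₀ d)
    (hu' : (u', t) ∈ Sh.s6A x₀ d) (hstep : ‖u' - u‖ = ‖t‖) (ht : t ≠ 0) :
    ‖Sh.s6Kp (Sh.s9Smax (u, t)) (Sh.s9Smax (u', t)) / Sh.s6Km (Sh.s9Smax (u, t)) (Sh.s9Smax (u', t)) - 1‖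
      ≤ 16 * K₀ * a₀ * (‖t‖ / d) ∧
    ‖Sh.s6Km (Sh.s9Smax (u, t)) (Sh.s9Smax (u', t)) / Sh.s6Kp (Sh.s9Smax (u, t)) (Sh.s9Smax (u', t))‖ ≤ 7 := by
  have hd := hq.d_pos
  obtain ⟨-, -, -, h4, h5⟩ := hq.chord hu hu' hstep
  obtain ⟨n1, n2⟩ := hq.K_ne hu hu' hstep ht
  have hpos := hq.step_pos hu hu' hstep
  have ht0 : 0 < ‖t‖ := norm_pos_iff.2 ht
  set w := Sh.s9Smax (u', t) - Sh.s9Smax (u, t) with hw
  set Kp := Sh.s6Kp (Sh.s9Smax (u, t)) (Sh.s9Smax (u', t)) with hKp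
  set Km := Sh.s6Km (Sh.s9Smax (u, t)) (Sh.s9Smax (u', t)) with hKm
  set κ := 2 * K₀ * a₀ * (‖t‖ / d) with hκ
  have hw0 : 0 < ‖w‖ := by linarith
  have hκ0 : 0 ≤ κ := by
    have := hq.K₀_pos; have := hq.a₀_pos
    positivity
  have hk : κ ≤ 3 / 4 := by
    have h1 : ‖t‖ / d ≤ 3 / 2 := by
      rw [div_le_iff₀ hd]; exact (hu.1).le
    have := hq.small
    have h2 : 0 ≤ K₀ * a₀ := (mul_pos hq.K₀_pos hq.a₀_pos).le
    rw [hκ]
    nlinarith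
  have lowm : ‖w‖ / 4 ≤ ‖Km‖ := by
    have := norm_sub_norm_le w (w - Km)
    rw [sub_sub_cancel, norm_sub_rev w Km] at this
    nlinarith
  have lowp : ‖w‖ / 4 ≤ ‖Kp‖ := by
    have := norm_sub_norm_le w (w - Kp)
    rw [sub_sub_cancel, norm_sub_rev w Kp] at this
    nlinarith
  have upm : ‖Km‖ ≤ 7 / 4 * ‖w‖ := by
    have : Km = (Km - w) + w := by ring
    rw [this]
    refine (norm_add_le _ _).trans ?_
    nlinarith
  have hdiff : ‖Kp - Km‖ ≤ 2 * κ * ‖w‖ := by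
    have : Kp - Km = (Kp - w) - (Km - w) := by ring
    rw [this]
    refine (norm_sub_le _ _).trans ?_
    linarith
  constructor
  · have : Kp / Km - 1 = (Kp - Km) / Km := by field_simp
    rw [this, norm_div, div_le_iff₀ (norm_pos_iff.2 n2)]
    have h8 : 16 * K₀ * a₀ * (‖t‖ / d) = 8 * κ := by rw [hκ]; ring
    rw [h8]
    nlinarith
  · rw [norm_div, div_le_iff₀ (norm_pos_iff.2 n1)]
    linarith

/-- LEAF P6. -/
theorem Ec_lim (hq : Sh.S6Q x₀ d a₀ K₀) {yc : ℂ} (h : (yc, (0 : ℂ)) ∈ Sh.s6A x₀ d) :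
    Tendsto (fun z : ℂ × ℂ => Sh.s6Ec z.1 z.2) (𝓝[{z : ℂ × ℂ | z.2 ≠ 0}] (yc, 0))
      (𝓝 (Complex.exp (2 * I * Sh.φ yc))) := by
  have hd := hq.d_pos
  have hS0 : Sh.s9Smax (yc, 0) = yc := by
    have := hq.near _ h
    simp only [norm_zero, zero_div] at this
    exact sub_eq_zero.1 (norm_le_zero_iff.1 this)
  have hycD : yc ∈ Sh.D := by
    have := Sh.s9k_max.mem _ (hq.mem h)
    rwa [hS0] at this
  -- the exponential factor
  have c1 : Continuous fun z : ℂ × ℂ => (z.1 - z.2 / 2, z.2) := by fun_prop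
  have c2 : Continuous fun z : ℂ × ℂ => (z.1 + z.2 / 2, z.2) := by fun_prop
  have T1 : Tendsto (fun z : ℂ × ℂ => (z.1 - z.2 / 2, z.2)) (𝓝 (yc, 0)) (𝓝 (yc, 0)) := by
    have := c1.tendsto (yc, 0)
    simpa using this
  have T2 : Tendsto (fun z : ℂ × ℂ => (z.1 + z.2 / 2, z.2)) (𝓝 (yc, 0)) (𝓝 (yc, 0)) := by
    have := c2.tendsto (yc, 0)
    simpa using this
  have hSc : ContinuousAt Sh.s9Smax (yc, 0) :=
    ((Sh.s9k_max.diff _ (hq.mem h)).differentiableAt (Sh.s9k_max.isOpen.mem_nhds (hq.mem h))).continuousAt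
  have t1 : Tendsto (fun z : ℂ × ℂ => Sh.s9Smax (z.1 - z.2 / 2, z.2)) (𝓝 (yc, 0)) (𝓝 yc) := by
    have h2 : Tendsto Sh.s9Smax (𝓝 (yc, 0)) (𝓝 yc) := by
      have := hSc.tendsto
      rwa [hS0] at this
    exact h2.comp T1
  have t2 : Tendsto (fun z : ℂ × ℂ => Complex.exp (2 * I * Sh.φ (Sh.s9Smax (z.1 - z.2 / 2, z.2))))
      (𝓝 (yc, 0)) (𝓝 (Complex.exp (2 * I * Sh.φ yc))) := by
    have hφ : Tendsto Sh.φ (𝓝 yc) (𝓝 (Sh.φ yc)) := (Sh.sb_φ_at hycD).continuousAt.tendsto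
    exact (Complex.continuous_exp.tendsto _).comp ((hφ.comp t1).const_mul (2 * I))
  -- the ratio
  have hA : Sh.s6A x₀ d ∈ 𝓝 (yc, (0 : ℂ)) := (Sh.s6A_isOpen x₀ d).mem_nhds h
  have m1 : ∀ᶠ z : ℂ × ℂ in 𝓝 (yc, 0), (z.1 - z.2 / 2, z.2) ∈ Sh.s6A x₀ d :=
    T1.eventually hA
  have m2 : ∀ᶠ z : ℂ × ℂ in 𝓝 (yc, 0), (z.1 + z.2 / 2, z.2) ∈ Sh.s6A x₀ d :=
    T2.eventually hA
  have t3 : Tendsto (fun z : ℂ × ℂ => Sh.s6Kp (Sh.s9Smax (z.1 - z.2 / 2, z.2)) (Sh.s9Smax (z.1 + z.2 / 2, z.2)) /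
      Sh.s6Km (Sh.s9Smax (z.1 - z.2 / 2, z.2)) (Sh.s9Smax (z.1 + z.2 / 2, z.2)))
      (𝓝[{z : ℂ × ℂ | z.2 ≠ 0}] (yc, 0)) (𝓝 1) := by
    rw [tendsto_iff_norm_sub_tendsto_zero]
    have hb : Tendsto (fun z : ℂ × ℂ => 16 * K₀ * a₀ * (‖z.2‖ / d)) (𝓝[{z : ℂ × ℂ | z.2 ≠ 0}] (yc, 0)) (𝓝 0) := by
      have hc : Continuous fun z : ℂ × ℂ => 16 * K₀ * a₀ * (‖z.2‖ / d) := by fun_prop
      have := hc.tendsto (yc, 0)
      simp only [norm_zero, zero_div, mul_zero] at this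
      exact this.mono_left nhdsWithin_le_nhds
    refine squeeze_zero' (Eventually.of_forall fun _ => norm_nonneg _) ?_ hb
    filter_upwards [m1.filter_mono nhdsWithin_le_nhds, m2.filter_mono nhdsWithin_le_nhds,
      self_mem_nhdsWithin] with z z1 z2 z3
    exact (hq.ratio z1 z2 (by rw [show z.1 + z.2 / 2 - (z.1 - z.2 / 2) = z.2 by ring]) z3).1
  have := (t2.mono_left nhdsWithin_le_nhds).mul t3
  rw [mul_one] at this
  refine this.congr fun z => ?_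
  unfold Shape.s6Ec
  rw [mul_div_assoc]

theorem mem_arc_aux (hq : Sh.S6Q x₀ d a₀ K₀) {yc : ℂ} (hyc : yc ∈ Sh.s6Rect x₀ d) {θ : ℝ}
    (hθ : θ ∈ Icc (0 : ℝ) π) (k : ℝ) (hk1 : 1 ≤ k) (hk3 : k ≤ 3) :
    (yc - I * d / 4 * Complex.exp (2 * θ * I) - k * (d * Complex.exp (θ * I)) / 2, d * Complex.exp (θ * I))
        ∈ Sh.s6A x₀ d := by
  have hd := hq.d_pos
  obtain ⟨h1, h2, h3⟩ := hyc
  have hs0 : 0 ≤ Real.sin θ := Real.sin_nonneg_of_nonneg_of_le_pi hθ.1 hθ.2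
  have hs1 : Real.sin θ ≤ 1 := Real.sin_le_one θ
  have hc1 : |Real.cos θ| ≤ 1 := Real.abs_cos_le_one θ
  have hs2 : |Real.sin (2 * θ)| ≤ 1 := Real.abs_sin_le_one _
  have e1 : Complex.exp (θ * I) = ⟨Real.cos θ, Real.sin θ⟩ := by
    rw [Complex.exp_mul_I]
    apply Complex.ext <;> simp [← Complex.ofReal_cos, ← Complex.ofReal_sin]
  have e2 : Complex.exp (2 * θ * I) = ⟨Real.cos (2 * θ), Real.sin (2 * θ)⟩ := by
    have : (2 * θ * I : ℂ) = ((2 * θ : ℝ) : ℂ) * I := by push_cast; ring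
    rw [this, Complex.exp_mul_I]
    apply Complex.ext <;> simp [← Complex.ofReal_cos, ← Complex.ofReal_sin, -Complex.ofReal_mul]
  have him : (yc - I * d / 4 * Complex.exp (2 * θ * I) - k * (d * Complex.exp (θ * I)) / 2).im
      = yc.im - d / 4 * Real.cos (2 * θ) - k * d / 2 * Real.sin θ := by
    rw [e1, e2]
    simp
    ring
  have hre : (yc - I * d / 4 * Complex.exp (2 * θ * I) - k * (d * Complex.exp (θ * I)) / 2).re
      = yc.re + d / 4 * Real.sin (2 * θ) - k * d / 2 * Real.cos θ := by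
    rw [e1, e2]
    simp
    ring
  have hcos : Real.cos (2 * θ) = 1 - 2 * Real.sin θ ^ 2 := by
    rw [Real.cos_two_mul, Real.cos_sq']; ring
  refine ⟨?_, ?_, ?_, ?_⟩
  · simp only [norm_mul, Complex.norm_real, Real.norm_eq_abs, abs_of_pos hd, Complex.norm_exp_ofReal_mul_I]
    linarith
  · simp only [him, hcos]
    have : 0 ≤ d * Real.sin θ * (k - Real.sin θ) := by
      apply mul_nonneg (mul_nonneg hd.le hs0); linarith
    nlinarith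
  · simp only [him, hcos]
    have h4 : d * Real.sin θ * k ≤ d * 1 * 3 := by
      apply mul_le_mul (mul_le_mul_of_nonneg_left hs1 hd.le) hk3 (by linarith) (by linarith)
    have h5 : 0 ≤ d * Real.sin θ ^ 2 := by positivity
    nlinarith
  · simp only [hre]
    rw [abs_lt] at h1 ⊢
    rw [abs_le] at hc1 hs2
    have h6 : |k * d / 2 * Real.cos θ| ≤ 3 * d / 2 := by
      rw [abs_mul, abs_of_nonneg (by positivity : 0 ≤ k * d / 2)]
      calc k * d / 2 * |Real.cos θ| ≤ k * d / 2 * 1 := by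
            apply mul_le_mul_of_nonneg_left (abs_le.2 hc1) (by positivity)
        _ ≤ 3 * d / 2 := by nlinarith
    rw [abs_le] at h6
    constructor <;> nlinarith

/-- LEAF P7a. -/
theorem mem_arc (hq : Sh.S6Q x₀ d a₀ K₀) {yc : ℂ} (hyc : yc ∈ Sh.s6Rect x₀ d) {θ : ℝ}
    (hθ : θ ∈ Icc (0 : ℝ) π) :
    (yc - I * d / 4 * Complex.exp (2 * θ * I) - (d * Complex.exp (θ * I)) / 2, d * Complex.exp (θ * I))
        ∈ Sh.s6A x₀ d ∧
    (yc - I * d / 4 * Complex.exp (2 * θ * I) - 3 * (d * Complex.exp (θ * I)) / 2,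
      d * Complex.exp (θ * I)) ∈ Sh.s6A x₀ d := by
  constructor
  · have := hq.mem_arc_aux hyc hθ 1 le_rfl (by norm_num)
    simpa using this
  · have := hq.mem_arc_aux hyc hθ 3 (by norm_num) le_rfl
    simpa using this

/-- LEAF P7b. -/
theorem mem_disc (hq : Sh.S6Q x₀ d a₀ K₀) {yc : ℂ} (hyc : yc ∈ Sh.s6Rect x₀ d)
    (hlow : yc.im < Sh.Hr - 3 * d) {ζ : ℂ} (hζ : ‖ζ‖ < 7 / 5) {l : ℝ} (hl : |l| ≤ 3 / 2) :
    (yc - I * d / 4 * ζ ^ 2 + l * (d * ζ), d * ζ) ∈ Sh.s6A x₀ d := by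
  have hd := hq.d_pos
  obtain ⟨h1, h2, h3⟩ := hyc
  set sh : ℂ := - (I * d / 4 * ζ ^ 2) + l * (d * ζ) with hsh
  have hnorm : ‖sh‖ ≤ 259 / 100 * d := by
    have a1 : ‖I * d / 4 * ζ ^ 2‖ ≤ d / 4 * (7 / 5) ^ 2 := by
      rw [norm_mul, norm_div, norm_mul, Complex.norm_I, Complex.norm_real, Real.norm_eq_abs, abs_of_pos hd,
        norm_pow]
      have : ‖ζ‖ ^ 2 ≤ (7 / 5) ^ 2 := pow_le_pow_left₀ (norm_nonneg _) hζ.le 2
      have h4 : ‖(4 : ℂ)‖ = 4 := by simp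
      rw [h4, one_mul]
      exact mul_le_mul_of_nonneg_left this (by positivity)
    have a2 : ‖(l : ℂ) * (d * ζ)‖ ≤ 3 / 2 * (d * (7 / 5)) := by
      rw [norm_mul, norm_mul, Complex.norm_real, Complex.norm_real, Real.norm_eq_abs, Real.norm_eq_abs,
        abs_of_pos hd]
      exact mul_le_mul hl (mul_le_mul_of_nonneg_left hζ.le hd.le) (by positivity) (by norm_num)
    calc ‖sh‖ ≤ ‖I * d / 4 * ζ ^ 2‖ + ‖(l : ℂ) * (d * ζ)‖ := by
          rw [hsh]; exact (norm_add_le _ _).trans (by rw [norm_neg])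
      _ ≤ 259 / 100 * d := by nlinarith
  have hu : yc - I * d / 4 * ζ ^ 2 + l * (d * ζ) = yc + sh := by rw [hsh]; ring
  have him := (Complex.abs_im_le_norm sh).trans hnorm
  have hre := (Complex.abs_re_le_norm sh).trans hnorm
  rw [abs_le] at him hre
  rw [hu]
  refine ⟨?_, ?_, ?_, ?_⟩
  · simp only [norm_mul, Complex.norm_real, Real.norm_eq_abs, abs_of_pos hd]
    nlinarith
  · simp only [Complex.add_im]; linarith
  · simp only [Complex.add_im]; linarith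
  · simp only [Complex.add_re]
    rw [abs_lt] at h1 ⊢
    constructor <;> linarith

theorem s6qp_isOpen_Rect (Sh : Shape) (x₀ d : ℝ) : IsOpen (Sh.s6Rect x₀ d) := by
  have h1 : IsOpen {y : ℂ | |y.re - x₀| < d} :=
    isOpen_lt ((Complex.continuous_re.sub continuous_const).abs) continuous_const
  have h2 : IsOpen {y : ℂ | Sh.Hr - 4 * d < y.im} := isOpen_lt continuous_const Complex.continuous_im
  have h3 : IsOpen {y : ℂ | y.im < Sh.Hr + d / 8} := isOpen_lt Complex.continuous_im continuous_const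
  exact h1.inter (h2.inter h3)

/-- LEAF P8. -/
theorem P_diff (hq : Sh.S6Q x₀ d a₀ K₀) : DifferentiableOn ℂ (Sh.s6P d) (Sh.s6Rect x₀ d) := by
  have hRo := s6qp_isOpen_Rect Sh x₀ d
  have hd0 : (d : ℂ) ≠ 0 := by exact_mod_cast hq.d_pos.ne'
  have hmem : ∀ yc ∈ Sh.s6Rect x₀ d, ∀ u ∈ Icc (0 : ℝ) 1,
      (yc - I * d / 4 * Complex.exp (2 * ((π * u : ℝ) : ℂ) * I),
        (d : ℂ) * Complex.exp (((π * u : ℝ) : ℂ) * I)) ∈
      {z : ℂ × ℂ | (z.1 - z.2 / 2, z.2) ∈ Sh.s6A x₀ d ∧ (z.1 - 3 * z.2 / 2, z.2) ∈ Sh.s6A x₀ d ∧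
        z.2 ≠ 0} := by
    intro yc hyc u hu
    have hθ : π * u ∈ Icc (0 : ℝ) π :=
      ⟨mul_nonneg Real.pi_pos.le hu.1, by nlinarith [Real.pi_pos, hu.2]⟩
    obtain ⟨h1, h2⟩ := hq.mem_arc hyc hθ
    exact ⟨h1, h2, mul_ne_zero hd0 (Complex.exp_ne_zero _)⟩
  have key : DifferentiableOn ℂ (fun z => ∫ u in (0 : ℝ)..1,
      Sh.s6Eb (z - I * d / 4 * Complex.exp (2 * ((π * u : ℝ) : ℂ) * I))
        ((d : ℂ) * Complex.exp (((π * u : ℝ) : ℂ) * I))) (Sh.s6Rect x₀ d) := by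
    refine s2P_param (G := fun z u => Sh.s6Eb (z - I * d / 4 * Complex.exp (2 * ((π * u : ℝ) : ℂ) * I))
        ((d : ℂ) * Complex.exp (((π * u : ℝ) : ℂ) * I))) hRo ?_ ?_
    · intro u hu
      exact hq.Eb_diff.comp (f := fun z : ℂ => (z - I * d / 4 * Complex.exp (2 * ((π * u : ℝ) : ℂ) * I),
        (d : ℂ) * Complex.exp (((π * u : ℝ) : ℂ) * I))) (by fun_prop) (fun z hz => hmem z hz u hu)
    · exact hq.Eb_diff.continuousOn.comp
        (f := fun p : ℂ × ℝ => (p.1 - I * d / 4 * Complex.exp (2 * ((π * p.2 : ℝ) : ℂ) * I),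
        (d : ℂ) * Complex.exp (((π * p.2 : ℝ) : ℂ) * I))) (by fun_prop)
        (fun p hp => hmem p.1 hp.1 p.2 hp.2)
  refine key.congr ?_
  intro z _
  have := intervalIntegral.integral_comp_mul_left (a := 0) (b := 1) (c := π)
    (fun θ : ℝ => Sh.s6Eb (z - I * d / 4 * Complex.exp (2 * (θ : ℂ) * I))
        ((d : ℂ) * Complex.exp ((θ : ℂ) * I))) Real.pi_ne_zero
  rw [this, mul_zero, mul_one, Complex.real_smul, Complex.ofReal_inv]
  rfl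

/-- LEAF P9. -/
theorem P_low (hq : Sh.S6Q x₀ d a₀ K₀) {yc : ℂ} (hyc : yc ∈ Sh.s6Rect x₀ d)
    (hlow : yc.im < Sh.Hr - 3 * d) : Sh.s6P d yc = Complex.exp (2 * I * Sh.φ yc) := by
  have hd0 : (d : ℂ) ≠ 0 := by exact_mod_cast hq.d_pos.ne'
  set g : ℂ → ℂ := fun ζ => Sh.s6Ec (yc - I * d / 4 * ζ ^ 2) (d * ζ) with hg
  set E : ℂ := Complex.exp (2 * I * Sh.φ yc) with hE
  set O : Set ℂ := ball (0 : ℂ) (7 / 5) \ {0} with hO
  have hOo : IsOpen O := isOpen_ball.sdiff isClosed_singleton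
  -- membership
  have hm1 : ∀ ζ : ℂ, ‖ζ‖ < 7 / 5 →
      (yc - I * d / 4 * ζ ^ 2 - (d * ζ) / 2, (d : ℂ) * ζ) ∈ Sh.s6A x₀ d := by
    intro ζ hζ
    have := hq.mem_disc hyc hlow hζ (l := -(1 / 2)) (by rw [abs_neg, abs_of_pos] <;> norm_num)
    have e : yc - I * d / 4 * ζ ^ 2 + ((-(1 / 2) : ℝ) : ℂ) * (d * ζ)
        = yc - I * d / 4 * ζ ^ 2 - (d * ζ) / 2 := by push_cast; ring
    rwa [e] at this
  have hm2 : ∀ ζ : ℂ, ‖ζ‖ < 7 / 5 →
      (yc - I * d / 4 * ζ ^ 2 + (d * ζ) / 2, (d : ℂ) * ζ) ∈ Sh.s6A x₀ d := by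
    intro ζ hζ
    have := hq.mem_disc hyc hlow hζ (l := 1 / 2) (by rw [abs_of_pos] <;> norm_num)
    have e : yc - I * d / 4 * ζ ^ 2 + ((1 / 2 : ℝ) : ℂ) * (d * ζ)
        = yc - I * d / 4 * ζ ^ 2 + (d * ζ) / 2 := by push_cast; ring
    rwa [e] at this
  have hm3 : ∀ ζ : ℂ, ‖ζ‖ < 7 / 5 →
      (yc - I * d / 4 * ζ ^ 2 - 3 * (d * ζ) / 2, (d : ℂ) * ζ) ∈ Sh.s6A x₀ d := by
    intro ζ hζ
    have := hq.mem_disc hyc hlow hζ (l := -(3 / 2)) (by rw [abs_neg, abs_of_pos] <;> norm_num)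
    have e : yc - I * d / 4 * ζ ^ 2 + ((-(3 / 2) : ℝ) : ℂ) * (d * ζ)
        = yc - I * d / 4 * ζ ^ 2 - 3 * (d * ζ) / 2 := by push_cast; ring
    rwa [e] at this
  have hm0 : (yc, (0 : ℂ)) ∈ Sh.s6A x₀ d := by
    have := hm1 0 (by norm_num)
    simpa using this
  -- regularity of `g`
  have hgO : DifferentiableOn ℂ g O := by
    refine hq.Ec_diff.comp (f := fun ζ : ℂ => (yc - I * d / 4 * ζ ^ 2, (d : ℂ) * ζ)) (by fun_prop) ?_
    rintro ζ ⟨hζ, hζ0⟩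
    rw [mem_ball_zero_iff] at hζ
    exact ⟨hm1 ζ hζ, hm2 ζ hζ, mul_ne_zero hd0 hζ0⟩
  have hlim : Tendsto g (𝓝[≠] 0) (𝓝 E) := by
    refine (hq.Ec_lim hm0).comp (f := fun ζ : ℂ => (yc - I * d / 4 * ζ ^ 2, (d : ℂ) * ζ)) ?_
    refine tendsto_nhdsWithin_iff.2 ⟨?_, ?_⟩
    · have hc : Continuous fun ζ : ℂ => (yc - I * d / 4 * ζ ^ 2, (d : ℂ) * ζ) := by fun_prop
      have := hc.tendsto 0
      simp only [ne_eq, OfNat.ofNat_ne_zero, not_false_eq_true, zero_pow, mul_zero, sub_zero] at this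
      exact this.mono_left nhdsWithin_le_nhds
    · filter_upwards [self_mem_nhdsWithin] with ζ hζ
      exact mul_ne_zero hd0 hζ
  set k : ℂ → ℂ := Function.update g 0 E with hk
  have hk0 : k 0 = E := Function.update_self _ _ _
  have hkne : ∀ ζ : ℂ, ζ ≠ 0 → k ζ = g ζ := fun ζ hζ => Function.update_of_ne hζ _ _
  have hkO : ∀ ζ ∈ O, DifferentiableAt ℂ k ζ := by
    intro ζ hζ
    refine (hgO.differentiableAt (hOo.mem_nhds hζ)).congr_of_eventuallyEq ?_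
    filter_upwards [hOo.mem_nhds hζ] with w hw using hkne w hw.2
  have hkc : ContinuousOn k (closedBall 0 1) := by
    intro ζ hζ
    by_cases h0 : ζ = 0
    · subst h0
      exact (continuousAt_update_same.2 hlim).continuousWithinAt
    · refine (hkO ζ ⟨?_, h0⟩).continuousAt.continuousWithinAt
      rw [mem_closedBall_zero_iff] at hζ
      rw [mem_ball_zero_iff]; linarith
  have hcirc := Complex.circleIntegral_sub_inv_smul_of_differentiable_on_off_countable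
    (R := 1) (c := 0) (w := 0) (f := k) (s := {0}) (countable_singleton 0)
    (mem_ball_self one_pos) hkc
    (fun ζ hζ => hkO ζ ⟨ball_subset_ball (by norm_num) hζ.1, hζ.2⟩)
  -- the function on the circle
  set h : ℝ → ℂ := fun θ => g (Complex.exp (θ * I)) with hh
  have hnorm : ∀ θ : ℝ, ‖Complex.exp (θ * I)‖ = 1 := fun θ => Complex.norm_exp_ofReal_mul_I θ
  have hhc : Continuous h := by
    refine continuousOn_univ.1 (hgO.continuousOn.comp (f := fun θ : ℝ => Complex.exp (θ * I))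
      (by fun_prop) ?_)
    intro θ _
    exact ⟨by rw [mem_ball_zero_iff, hnorm]; norm_num, Complex.exp_ne_zero _⟩
  have h1 : (∮ z in C(0, 1), (z - 0)⁻¹ • k z) = ∫ θ in (0 : ℝ)..(2 * π), I * h θ := by
    rw [circleIntegral]
    refine intervalIntegral.integral_congr ?_
    intro θ _
    have e : circleMap 0 1 θ = Complex.exp (θ * I) := by simp [circleMap]
    simp only [deriv_circleMap, e, sub_zero, smul_eq_mul]
    rw [hkne _ (Complex.exp_ne_zero _)]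
    have := Complex.exp_ne_zero (θ * I)
    simp only [hh]
    field_simp
  rw [h1, hk0, intervalIntegral.integral_const_mul, smul_eq_mul] at hcirc
  have h2 : ∫ θ in (0 : ℝ)..(2 * π), h θ = 2 * π * E := by
    have hI := Complex.I_ne_zero
    apply mul_left_cancel₀ hI
    rw [hcirc]; ring
  have hper : ∀ θ : ℝ, h (θ + π) = h θ := by
    intro θ
    have e : Complex.exp (((θ + π : ℝ) : ℂ) * I) = -Complex.exp (θ * I) := by
      push_cast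
      rw [add_mul, Complex.exp_add, Complex.exp_pi_mul_I]; ring
    simp only [hh, hg, e]
    have e2 : (d : ℂ) * -Complex.exp (θ * I) = -(d * Complex.exp (θ * I)) := by ring
    rw [neg_sq, e2]
    exact hq.Ec_even (hm1 _ (by rw [hnorm]; norm_num)) (hm2 _ (by rw [hnorm]; norm_num))
  have h3 : ∫ θ in π..(2 * π), h θ = ∫ θ in (0 : ℝ)..π, h θ := by
    have := intervalIntegral.integral_comp_add_right (a := 0) (b := π) h π
    rw [zero_add, ← two_mul] at this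
    rw [← this]
    exact intervalIntegral.integral_congr (fun θ _ => hper θ)
  have h4 : (∫ θ in (0 : ℝ)..π, h θ) + ∫ θ in π..(2 * π), h θ = ∫ θ in (0 : ℝ)..(2 * π), h θ :=
    intervalIntegral.integral_add_adjacent_intervals (hhc.intervalIntegrable _ _)
      (hhc.intervalIntegrable _ _)
  rw [h3, h2] at h4
  have h5 : ∫ θ in (0 : ℝ)..π,
      Sh.s6Eb (yc - I * d / 4 * Complex.exp (2 * θ * I)) (d * Complex.exp (θ * I))
      = ∫ θ in (0 : ℝ)..π, h θ := by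
    refine intervalIntegral.integral_congr ?_
    intro θ _
    have e : Complex.exp (2 * θ * I) = Complex.exp (θ * I) ^ 2 := by
      rw [← Complex.exp_nat_mul]; congr 1; push_cast; ring
    simp only [hh, hg, e]
    have hn : ‖Complex.exp (θ * I)‖ < 7 / 5 := by rw [hnorm]; norm_num
    exact (hq.Ec_eq_Eb (hm1 _ hn) (hm2 _ hn) (hm3 _ hn)
      (mul_ne_zero hd0 (Complex.exp_ne_zero _))).symm
  have hπ : (π : ℂ) ≠ 0 := by exact_mod_cast Real.pi_ne_zero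
  simp only [Shape.s6P]
  rw [h5]
  have h6 : ∫ θ in (0 : ℝ)..π, h θ = π * E := by linear_combination h4 / 2
  rw [h6]
  field_simp

/-- LEAF P10: quiet data do not exist. -/
theorem false (hq : Sh.S6Q x₀ d a₀ K₀) : False := by
  have hd := hq.d_pos
  have hH := hq.fin
  have hsm := hq.d_small
  have hHr : 0 < Sh.Hr := by linarith
  set U : Set ℂ := Ioo (x₀ - d) (x₀ + d) ×ℂ Ioo (Sh.Hr - 4 * d) Sh.Hr with hU
  have hUo : IsOpen U := isOpen_Ioo.reProdIm isOpen_Ioo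
  have hUc : Convex ℝ U :=
    ((convex_Ioo _ _).linear_preimage Complex.reLm).inter
      ((convex_Ioo _ _).linear_preimage Complex.imLm)
  have hUR : U ⊆ Sh.s6Rect x₀ d := by
    rintro z ⟨⟨h1, h2⟩, h3, h4⟩
    exact ⟨abs_lt.2 ⟨by linarith, by linarith⟩, h3, by linarith⟩
  have hUD : U ⊆ Sh.D := by
    rintro z ⟨-, h3, h4⟩
    rw [Sh.sb_mem_D_iff hH, abs_lt]
    constructor <;> linarith
  have hA1 : AnalyticOnNhd ℂ (Sh.s6P d) U := (hq.P_diff.mono hUR).analyticOnNhd hUo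
  have hA2 : AnalyticOnNhd ℂ (fun s => Complex.exp (2 * I * Sh.φ s)) U := by
    refine DifferentiableOn.analyticOnNhd ?_ hUo
    exact (((Sh.φ_diff.mono hUD).const_mul (2 * I))).cexp
  set z₀ : ℂ := ⟨x₀, Sh.Hr - 7 / 2 * d⟩ with hz₀
  have hz₀U : z₀ ∈ U := ⟨⟨by simp [hz₀, hd], by simp [hz₀, hd]⟩,
    by simp only [hz₀]; linarith, by simp only [hz₀]; linarith⟩
  have hev : Sh.s6P d =ᶠ[𝓝 z₀] fun s => Complex.exp (2 * I * Sh.φ s) := by
    have h1 : ∀ᶠ z : ℂ in 𝓝 z₀, z.im < Sh.Hr - 3 * d :=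
      (isOpen_lt Complex.continuous_im continuous_const).mem_nhds
        (by show z₀.im < Sh.Hr - 3 * d; simp only [hz₀]; linarith)
    filter_upwards [h1, hUo.mem_nhds hz₀U] with z hz hzU
    exact hq.P_low (hUR hzU) hz
  have heq := hA1.eqOn_of_preconnected_of_eventuallyEq hA2 hUc.isPreconnected hz₀U hev
  set s₀ : ℂ := ⟨x₀, Sh.Hr⟩ with hs₀
  have hs₀' : ENNReal.ofReal |s₀.im| = Sh.G.Hs := by
    simp only [hs₀, abs_of_pos hHr]
    exact ENNReal.ofReal_toReal hH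
  have hball : ∀ z ∈ ball s₀ (d / 8), |z.re - x₀| < d / 8 ∧ |z.im - Sh.Hr| < d / 8 := by
    intro z hz
    rw [mem_ball, dist_eq_norm] at hz
    exact ⟨(Complex.abs_re_le_norm (z - s₀)).trans_lt hz, (Complex.abs_im_le_norm (z - s₀)).trans_lt hz⟩
  refine Sh.s6_nat_phi s₀ hs₀' ⟨d / 8, Sh.s6P d, by positivity, hq.P_diff.mono ?_, ?_⟩
  · intro z hz
    obtain ⟨h1, h2⟩ := hball z hz
    rw [abs_lt] at h2
    exact ⟨by linarith, by linarith, by linarith⟩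
  · rintro z ⟨hz, hzD⟩
    obtain ⟨h1, h2⟩ := hball z hz
    rw [abs_lt] at h1 h2
    rw [Sh.sb_mem_D_iff hH, abs_lt] at hzD
    exact heq ⟨⟨by linarith, by linarith⟩, by linarith, hzD.2⟩

end Shape.S6Q

end Claimed.Agent.R269
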