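/-
Row 269, P1 Section 6.4, Corollary 6.5 (ii), (iii) in QUANTITATIVE form (no sequences).   Blueprint: helper218.   NO PAPER READING NEEDED.
depth `δ_s = Hr - Im s`.

QD `Shape.s6q_data`.  `(Lf, ...)` from `Sh.s6_cone hH α δb`; `K = 40`: `(ε₀,d₀,δs,C)`.   `L = max (Lf 50) 100`, `c = 1/200`,  `η = min (ε₀/(2·20^α)) (min (a₀/20) (1/(100 sqrt (C+1))))`,
    `d₁ = min (20 d₀) (min (δs/7) (min (Hr/8) (min (δb/8) d₂)))` with `3 C 10^(2α-1) d₂^(2-2α) ≤ 1/200`.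
    Apply `s6_cone` with `m₀ = 50`, `ε = 2·20^α η`, scale `d' = d/20`, `r = 2d` (`r ≤ 40 d'`), `h = Hr`:  for `δ_s ≥ d'/10 = c d`:  `r M = 2 d M ≤ 2η (d/δ_s)^α = ε (d'/δ_s)^α`.
    For `(u,t) ∈ s6A x₀ d`: `d' < d/10 < depth < 7d < δs`, `|Re u - x₀| < 4d < 50 depth`, `‖t‖ < 3d/2 < 2d ≤ r (depth/d')^α`.   So `mem`.
    `near`: `‖S - u‖ ≤ C (1+B₁)² ‖t‖² depth^(1-2α)`, `B₁ = (ε/r) d'^α = η d^(α-1)`... (`(ε/(2d)) (d/20)^α = η d^(α-1)`), `(1+B₁)² ≤ 2 + 2B₁²`, `‖t‖ ≤ 3d/2`, `depth^(1-2α) ≤ (d/10)^(1-2α)`: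
       `‖S - u‖ ≤ ‖t‖ · [3 C 10^(2α-1) d^(2-2α) + 3 C 10^(2α-1) η²] ≤ ‖t‖ (1/200 + 1/200)`   (`10^(2α-1) ≤ 10`, `30 C η² ≤ 30 C/(10^4 (C+1)) ≤ 1/200`).
    `field`: `d/20 ≤ δ_s ≤ 8d ≤ δb`, `|Re s - x₀| ≤ 5d ≤ 100 δ_s`: `d M ≤ η (d/δ_s)^α ≤ 20 η ≤ a₀`.
NQ `Shape.s6_no_quiet`.  `K₀` from `s6q_K_bound`, `a₀ = min (1/3) (1/(4K₀))`, QD, `S6Q.false`; contraposition.  PROVED.
QW `Shape.s6_quiet_width`.  `s6_cone` with `K = 4T₁/c₁`, `m₀ = 1`, scale `d' = c₁ d/2`, `r = 2T₁ d/b ≤ K d'` (`b ≥ 1`), `ε = 2T₁ η (2/c₁)^α`; `L = Lf 1`, `c = c₁/20`, `η = ε₀/(2T₁(2/c₁)^α)`, `d₁ = min (2d₀/c₁) (δs/c₁)`.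
    `y = ⟨x₀, Hr - 3c₁d/4⟩`: `d' < depth < δs`, `‖t‖ ≤ T₁ d/b < r ≤ r (depth/d')^α`.   `(y,t) ∈ Rmax`; `s6_passage_width s9k_max`: `ofReal (Hr - 3c₁d/4) < hX t`; `hX t ≤ Hs < ⊤` (`hX_le`; `|t| < ρ` by `s9k_max.param`).   So `Δ t < c₁ d`.
-/
import Claimed.Agent.R269.S6.QuietP
import Claimed.Agent.R269.S6.Cone
import Claimed.Agent.R269.S6.Width

set_option autoImplicit false

namespace Claimed.Agent.R269

open Complex Filter Topology Set Metric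
open scoped ENNReal Real

namespace Shape

variable (Sh : Shape)

/-- real estimate used in `s6q_data`. -/
theorem s6qd_est (C η d P T Dp : ℝ) (hC : 0 < C) (hη0 : 0 < η) (hd : 0 < d) (hP0 : 0 < P)
    (hT0 : 0 ≤ T) (z1 : T < 3 / 2 * d) (hDp0 : 0 < Dp) (hDp : Dp ≤ 10 * (d / P ^ 2))
    (hQ : d ^ 2 / P ^ 2 ≤ 1 / (6000 * C)) (hη3 : 30 * C * η ^ 2 ≤ 1 / 200) :
    C * (1 + η * P / d) ^ 2 * T ^ 2 * Dp ≤ T / 100 := by
  have hsq2 : (1 + η * P / d) ^ 2 ≤ 2 + 2 * (η * P / d) ^ 2 := by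
    nlinarith [sq_nonneg (1 - η * P / d)]
  have hT2 : T ^ 2 ≤ T * (3 / 2 * d) := by nlinarith
  calc C * (1 + η * P / d) ^ 2 * T ^ 2 * Dp
      ≤ C * (2 + 2 * (η * P / d) ^ 2) * (T * (3 / 2 * d)) * (10 * (d / P ^ 2)) := by gcongr
    _ = T * (30 * C * (d ^ 2 / P ^ 2) + 30 * C * η ^ 2) := by field_simp; ring
    _ ≤ T * (30 * C * (1 / (6000 * C)) + 1 / 200) := by gcongr
    _ = T / 100 := by field_simp; ring

/-- the power bound used in `s6q_data`. -/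
theorem s6qd_pow (α d D : ℝ) (hα : 1 / 2 < α) (hα' : α < 1) (hd : 0 < d) (z2 : d / 10 < D) :
    D ^ (1 - 2 * α) ≤ 10 * (d / (d ^ α) ^ 2) := by
  have hd2α : d ^ (2 * α) = (d ^ α) ^ 2 := by
    rw [mul_comm, Real.rpow_mul hd.le, Real.rpow_two]
  have r1 : d ^ (1 - 2 * α) = d / (d ^ α) ^ 2 := by rw [Real.rpow_sub hd, Real.rpow_one, hd2α]
  have hP0 : 0 < d ^ α := Real.rpow_pos_of_pos hd _
  have h2 : D ^ (1 - 2 * α) ≤ (d / 10) ^ (1 - 2 * α) :=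
    Real.rpow_le_rpow_of_nonpos (by positivity) z2.le (by linarith)
  have h3 : (d / 10) ^ (1 - 2 * α) = 10 ^ (2 * α - 1) * d ^ (1 - 2 * α) := by
    rw [Real.div_rpow hd.le (by norm_num)]
    have : (10 : ℝ) ^ (2 * α - 1) = (10 ^ (1 - 2 * α))⁻¹ := by
      rw [← Real.rpow_neg (by norm_num)]; congr 1; ring
    rw [this]; field_simp
  have h5 : (10 : ℝ) ^ (2 * α - 1) ≤ 10 := by
    calc (10 : ℝ) ^ (2 * α - 1) ≤ 10 ^ (1 : ℝ) :=
          Real.rpow_le_rpow_of_exponent_le (by norm_num) (by linarith)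
      _ = 10 := Real.rpow_one _
  rw [h3, r1] at h2
  refine h2.trans ?_
  gcongr

/-- the choice of `η` in `s6q_data`. -/
theorem s6qd_eta (α ε₀ a₀ C : ℝ) (hε₀ : 0 < ε₀) (ha₀ : 0 < a₀) (hC : 0 < C) :
    ∃ η : ℝ, 0 < η ∧ 2 * 20 ^ α * η ≤ ε₀ ∧ 20 * η ≤ a₀ ∧ 30 * C * η ^ 2 ≤ 1 / 200 := by
  have h20 : (0 : ℝ) < 20 ^ α := Real.rpow_pos_of_pos (by norm_num) _
  have hsq : 0 < Real.sqrt (C + 1) := Real.sqrt_pos.2 (by linarith)
  set η : ℝ := min (ε₀ / (2 * 20 ^ α)) (min (a₀ / 20) (1 / (100 * Real.sqrt (C + 1)))) with hη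
  have hη0 : 0 < η := lt_min (by positivity) (lt_min (by positivity) (by positivity))
  refine ⟨η, hη0, ?_, ?_, ?_⟩
  · have : η ≤ ε₀ / (2 * 20 ^ α) := min_le_left _ _
    rw [le_div_iff₀ (by positivity)] at this
    linarith
  · have : η ≤ a₀ / 20 := (min_le_right _ _).trans (min_le_left _ _)
    linarith
  · have h1 : η ≤ 1 / (100 * Real.sqrt (C + 1)) := (min_le_right _ _).trans (min_le_right _ _)
    have h2 : η ^ 2 ≤ (1 / (100 * Real.sqrt (C + 1))) ^ 2 := pow_le_pow_left₀ hη0.le h1 2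
    have h3 : (1 / (100 * Real.sqrt (C + 1))) ^ 2 = 1 / (10000 * (C + 1)) := by
      rw [div_pow, mul_pow, Real.sq_sqrt (by linarith)]; norm_num
    rw [h3] at h2
    have h5 : 30 * C * η ^ 2 ≤ 30 * C * (1 / (10000 * (C + 1))) := by gcongr
    have h6 : 30 * C * (1 / (10000 * (C + 1))) ≤ 1 / 200 := by
      rw [mul_one_div, div_le_div_iff₀ (by positivity) (by norm_num)]
      nlinarith
    linarith

/-- the choice of `d₁` in `s6q_data`. -/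
theorem s6qd_d (α d₀ δs Hr δb C : ℝ) (hα' : α < 1) (hd₀ : 0 < d₀) (hδs : 0 < δs) (hHr : 0 < Hr)
    (hδb : 0 < δb) (hC : 0 < C) :
    ∃ d₁ : ℝ, 0 < d₁ ∧ ∀ d : ℝ, 0 < d → d < d₁ → d < 20 * d₀ ∧ d < δs / 7 ∧ d < Hr / 8 ∧
      d < δb / 8 ∧ d ^ 2 / (d ^ α) ^ 2 ≤ 1 / (6000 * C) := by
  have h22 : 0 < 2 - 2 * α := by linarith
  set X : ℝ := 1 / (6000 * C) with hX
  have hX0 : 0 < X := by positivity
  set d₂ : ℝ := X ^ (1 / (2 - 2 * α)) with hd₂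
  have hd₂0 : 0 < d₂ := Real.rpow_pos_of_pos hX0 _
  have hdX : ∀ d : ℝ, 0 < d → d ≤ d₂ → d ^ (2 - 2 * α) ≤ X := by
    intro d hd hdd
    have h2 := Real.rpow_le_rpow hd.le hdd h22.le
    rwa [hd₂, ← Real.rpow_mul hX0.le, one_div_mul_cancel h22.ne', Real.rpow_one] at h2
  refine ⟨min (20 * d₀) (min (δs / 7) (min (Hr / 8) (min (δb / 8) d₂))),
    lt_min (by positivity) (lt_min (by positivity) (lt_min (by positivity)
      (lt_min (by positivity) hd₂0))), ?_⟩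
  intro d hd hdd₁
  have e1 : d < 20 * d₀ := lt_of_lt_of_le hdd₁ (min_le_left _ _)
  have e2 : d < δs / 7 := lt_of_lt_of_le hdd₁ ((min_le_right _ _).trans (min_le_left _ _))
  have e3 : d < Hr / 8 :=
    lt_of_lt_of_le hdd₁ ((min_le_right _ _).trans ((min_le_right _ _).trans (min_le_left _ _)))
  have e4 : d < δb / 8 :=
    lt_of_lt_of_le hdd₁ ((min_le_right _ _).trans ((min_le_right _ _).trans
      ((min_le_right _ _).trans (min_le_left _ _))))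
  have e5 : d < d₂ :=
    lt_of_lt_of_le hdd₁ ((min_le_right _ _).trans ((min_le_right _ _).trans
      ((min_le_right _ _).trans (min_le_right _ _))))
  refine ⟨e1, e2, e3, e4, ?_⟩
  have hd2α : d ^ (2 * α) = (d ^ α) ^ 2 := by
    rw [mul_comm, Real.rpow_mul hd.le, Real.rpow_two]
  have r2 : d ^ (2 - 2 * α) = d ^ 2 / (d ^ α) ^ 2 := by
    rw [Real.rpow_sub hd, Real.rpow_two, hd2α]
  rw [← r2]
  exact hdX d hd e5.le

/-- LEAF QD (GLUE): a quiet cone gives quiet data. -/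
theorem s6q_data (hH : Sh.H ≠ ⊤) (α δb : ℝ) (hα : 1 / 2 < α) (hα' : α < 1) (hδb : 0 < δb)
    (hδb' : δb < Sh.Hr / 2) (a₀ K₀ : ℝ) (hK₀ : 0 < K₀) (ha₀ : 0 < a₀) (h4 : 4 * K₀ * a₀ ≤ 1)
    (h3 : 3 * a₀ ≤ 1) (kb : Sh.S6KB K₀) :
    ∃ L η c d₁ : ℝ, 0 < L ∧ 0 < η ∧ 0 < c ∧ 0 < d₁ ∧ ∀ d x₀ : ℝ, 0 < d → d < d₁ →
      (∀ s : ℂ, c * d ≤ Sh.Hr - s.im → Sh.Hr - s.im ≤ δb → |s.re - x₀| ≤ L * (Sh.Hr - s.im) →
        d * Sh.M s ≤ η * (d / (Sh.Hr - s.im)) ^ α) →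
      Sh.S6Q x₀ d a₀ K₀ := by
  have hα0 : 0 < α := by linarith
  have hHr : 0 < Sh.Hr := by linarith
  obtain ⟨Lf, hLf, hK⟩ := Sh.s6_cone hH α δb hα hα' hδb hδb'
  obtain ⟨ε₀, d₀, δs, C, hε₀, hd₀, hδs, hC, hcone⟩ := hK 40 (by norm_num)
  have h20 : (0 : ℝ) < 20 ^ α := Real.rpow_pos_of_pos (by norm_num) _
  have h20le : (20 : ℝ) ^ α ≤ 20 := by
    calc (20 : ℝ) ^ α ≤ 20 ^ (1 : ℝ) := Real.rpow_le_rpow_of_exponent_le (by norm_num) hα'.le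
      _ = 20 := Real.rpow_one _
  obtain ⟨η, hη0, hη1, hη2, hη3⟩ := s6qd_eta α ε₀ a₀ C hε₀ ha₀ hC
  obtain ⟨d₁, hd₁0, hd₁⟩ := s6qd_d α d₀ δs Sh.Hr δb C hα' hd₀ hδs hHr hδb hC
  refine ⟨max (Lf 50) 100, η, 1 / 200, d₁, lt_of_lt_of_le (by norm_num) (le_max_right _ _), hη0,
    by norm_num, hd₁0, ?_⟩
  intro d x₀ hd hdd₁ hq
  obtain ⟨e1, e2, e3, e4, hQ⟩ := hd₁ d hd hdd₁
  have hP0 : 0 < d ^ α := Real.rpow_pos_of_pos hd _
  have r3 : (d / 20) ^ α = d ^ α / 20 ^ α := Real.div_rpow hd.le (by norm_num) α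
  -- the cone passage at the scale `d/20`
  have hpass := hcone 50 (2 * 20 ^ α * η) (d / 20) (2 * d) x₀ Sh.Hr (by norm_num) (by positivity) hη1
    (by positivity) (by linarith) (by positivity) (by linarith) (by linarith) le_rfl
    (by
      intro s s1 s2 s3
      have hx : 0 < Sh.Hr - s.im := by
        have : 0 < d / 20 / 10 := by positivity
        linarith
      have h1 := hq s (by linarith) s2
        (s3.trans (mul_le_mul_of_nonneg_right (le_max_left _ _) hx.le))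
      have h2 : (d / (Sh.Hr - s.im)) ^ α = 20 ^ α * (d / 20 / (Sh.Hr - s.im)) ^ α := by
        rw [← Real.mul_rpow (by norm_num) (by positivity)]
        congr 1
        field_simp
      rw [h2] at h1
      calc 2 * d * Sh.M s = 2 * (d * Sh.M s) := by ring
        _ ≤ 2 * (η * (20 ^ α * (d / 20 / (Sh.Hr - s.im)) ^ α)) := by linarith
        _ = 2 * 20 ^ α * η * (d / 20 / (Sh.Hr - s.im)) ^ α := by ring)
  have hA : ∀ z ∈ Sh.s6A x₀ d, z ∈ Sh.s9Rmax ∧ ‖Sh.s9Smax z - z.1‖ ≤ ‖z.2‖ / 100 := by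
    rintro ⟨u, t⟩ ⟨z1, z2, z3, z4⟩
    change ‖t‖ < 3 / 2 * d at z1
    change d / 10 < Sh.Hr - u.im at z2
    change Sh.Hr - u.im < 7 * d at z3
    change |u.re - x₀| < 4 * d at z4
    have hD0 : 0 < Sh.Hr - u.im := by
      have : 0 < d / 10 := by positivity
      linarith
    have h1 : 1 ≤ ((Sh.Hr - u.im) / (d / 20)) ^ α := by
      apply Real.one_le_rpow _ hα0.le
      rw [le_div_iff₀ (by positivity)]
      linarith
    have hlt : ‖t‖ < 2 * d * ((Sh.Hr - u.im) / (d / 20)) ^ α := by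
      calc ‖t‖ < 3 / 2 * d := z1
        _ ≤ 2 * d * 1 := by linarith
        _ ≤ 2 * d * ((Sh.Hr - u.im) / (d / 20)) ^ α :=
          mul_le_mul_of_nonneg_left h1 (by positivity)
    obtain ⟨a1, a2⟩ := hpass u t (by linarith) (by linarith) (by linarith) hlt
    refine ⟨a1, a2.trans ?_⟩
    show _ ≤ ‖t‖ / 100
    have hB : 2 * 20 ^ α * η / (2 * d) * (d / 20) ^ α = η * d ^ α / d := by
      rw [r3]; field_simp
    rw [hB]
    exact s6qd_est C η d (d ^ α) ‖t‖ _ hC hη0 hd hP0 (norm_nonneg t) z1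
      (Real.rpow_pos_of_pos hD0 _) (s6qd_pow α d _ hα hα' hd z2) hQ hη3
  exact
    { fin := hH, d_pos := hd, d_small := by linarith, K₀_pos := hK₀, a₀_pos := ha₀, small := h4,
      small' := h3, kb := kb, mem := fun z hz => (hA z hz).1, near := fun z hz => (hA z hz).2
      field := by
        intro s s1 s2 s3
        have hx : 0 < Sh.Hr - s.im := by
          have : 0 < d / 20 := by positivity
          linarith
        have h1 := hq s (by linarith) (by linarith)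
          (by
            have : 100 * (Sh.Hr - s.im) ≤ max (Lf 50) 100 * (Sh.Hr - s.im) :=
              mul_le_mul_of_nonneg_right (le_max_right _ _) hx.le
            linarith)
        have h2 : (d / (Sh.Hr - s.im)) ^ α ≤ 20 ^ α := by
          apply Real.rpow_le_rpow (by positivity) _ hα0.le
          rw [div_le_iff₀ hx]; linarith
        have h5 : η * (d / (Sh.Hr - s.im)) ^ α ≤ η * 20 :=
          mul_le_mul_of_nonneg_left (h2.trans h20le) hη0.le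
        linarith }

/-- **P1 Corollary 6.5 (iii)**, quantitative: in every cone there is a point where the weighted field is not small. -/
theorem s6_no_quiet (hH : Sh.H ≠ ⊤) (α δb : ℝ) (hα : 1 / 2 < α) (hα' : α < 1) (hδb : 0 < δb)
    (hδb' : δb < Sh.Hr / 2) :
    ∃ L η c d₁ : ℝ, 0 < L ∧ 0 < η ∧ 0 < c ∧ 0 < d₁ ∧ ∀ d x₀ : ℝ, 0 < d → d < d₁ →
      ∃ s : ℂ, c * d ≤ Sh.Hr - s.im ∧ Sh.Hr - s.im ≤ δb ∧ |s.re - x₀| ≤ L * (Sh.Hr - s.im) ∧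
        η * (d / (Sh.Hr - s.im)) ^ α < d * Sh.M s := by
  obtain ⟨K₀, hK₀, hkb⟩ := s6q_K_bound
  have ha₀ : 0 < min (1 / 3 : ℝ) (1 / (4 * K₀)) := lt_min (by norm_num) (by positivity)
  have h4 : 4 * K₀ * min (1 / 3 : ℝ) (1 / (4 * K₀)) ≤ 1 := by
    calc 4 * K₀ * min (1 / 3 : ℝ) (1 / (4 * K₀)) ≤ 4 * K₀ * (1 / (4 * K₀)) :=
          mul_le_mul_of_nonneg_left (min_le_right _ _) (by positivity)
      _ = 1 := by field_simp
  have h3 : 3 * min (1 / 3 : ℝ) (1 / (4 * K₀)) ≤ 1 := by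
    have := min_le_left (1 / 3 : ℝ) (1 / (4 * K₀)); linarith
  obtain ⟨L, η, c, d₁, hL, hη, hc, hd₁, hmain⟩ :=
    Sh.s6q_data hH α δb hα hα' hδb hδb' _ K₀ hK₀ ha₀ h4 h3 (hkb Sh)
  refine ⟨L, η, c, d₁, hL, hη, hc, hd₁, fun d x₀ hd hd' => ?_⟩
  by_contra hcon
  push Not at hcon
  exact (hmain d x₀ hd hd' hcon).false

/-- LEAF QW: **P1 Corollary 6.5 (ii)**, quantitative: a quiet cone at the field scale `b/d` gives the width `Δ(t) ≤ c₁ d` for real `|t| ≤ T₁ d/b`. -/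
theorem s6_quiet_width (hH : Sh.H ≠ ⊤) (α δb : ℝ) (hα : 1 / 2 < α) (hα' : α < 1) (hδb : 0 < δb)
    (hδb' : δb < Sh.Hr / 2) (c₁ T₁ : ℝ) (hc₁ : 0 < c₁) (hT₁ : 0 < T₁) :
    ∃ L η c d₁ : ℝ, 0 < L ∧ 0 < η ∧ 0 < c ∧ 0 < d₁ ∧ ∀ d b x₀ : ℝ, 0 < d → d < d₁ → 1 ≤ b →
      (∀ s : ℂ, c * d ≤ Sh.Hr - s.im → Sh.Hr - s.im ≤ δb → |s.re - x₀| ≤ L * (Sh.Hr - s.im) →
        d / b * Sh.M s ≤ η * (d / (Sh.Hr - s.im)) ^ α) →
      ∀ t : ℝ, |t| ≤ T₁ * d / b → Sh.Δ (t : ℂ) ≤ c₁ * d := by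
  have hα0 : 0 < α := by linarith
  obtain ⟨Lf, hLf, hK⟩ := Sh.s6_cone hH α δb hα hα' hδb hδb'
  obtain ⟨ε₀, d₀, δs, C, hε₀, hd₀, hδs, hC, hcone⟩ := hK (4 * T₁ / c₁) (by positivity)
  have hp : (0 : ℝ) < (2 / c₁) ^ α := Real.rpow_pos_of_pos (by positivity) _
  refine ⟨Lf 1, ε₀ / (2 * T₁ * (2 / c₁) ^ α), c₁ / 20, min (2 * d₀ / c₁) (δs / c₁), hLf 1,
    by positivity, by positivity, lt_min (by positivity) (by positivity), ?_⟩
  intro d b x₀ hd hdd₁ hb hq t ht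
  have hb0 : 0 < b := by linarith
  have e1 : d < 2 * d₀ / c₁ := lt_of_lt_of_le hdd₁ (min_le_left _ _)
  have e2 : d < δs / c₁ := lt_of_lt_of_le hdd₁ (min_le_right _ _)
  rw [lt_div_iff₀ hc₁] at e1 e2
  have hr : 2 * T₁ * d / b ≤ 4 * T₁ / c₁ * (c₁ * d / 2) := by
    have h1 : 4 * T₁ / c₁ * (c₁ * d / 2) = 2 * T₁ * d := by field_simp; ring
    rw [h1]
    exact div_le_self (by positivity) hb
  have hpass := hcone 1 ε₀ (c₁ * d / 2) (2 * T₁ * d / b) x₀ Sh.Hr one_pos hε₀ le_rfl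
    (by positivity) (by linarith) (by positivity) hr (by linarith) le_rfl
    (by
      intro s s1 s2 s3
      have hx : 0 < Sh.Hr - s.im := by
        have : 0 < c₁ * d / 2 / 10 := by positivity
        linarith
      have h1 := hq s (by linarith) s2 s3
      have h2 : (d / (Sh.Hr - s.im)) ^ α = (2 / c₁) ^ α * (c₁ * d / 2 / (Sh.Hr - s.im)) ^ α := by
        rw [← Real.mul_rpow (by positivity) (by positivity)]
        congr 1
        field_simp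
      rw [h2] at h1
      calc 2 * T₁ * d / b * Sh.M s = 2 * T₁ * (d / b * Sh.M s) := by ring
        _ ≤ 2 * T₁ * (ε₀ / (2 * T₁ * (2 / c₁) ^ α) *
              ((2 / c₁) ^ α * (c₁ * d / 2 / (Sh.Hr - s.im)) ^ α)) :=
            mul_le_mul_of_nonneg_left h1 (by positivity)
        _ = ε₀ * (c₁ * d / 2 / (Sh.Hr - s.im)) ^ α := by field_simp)
  have hcd : 0 < c₁ * d := by positivity
  have him : Sh.Hr - (⟨x₀, Sh.Hr - 3 * c₁ * d / 4⟩ : ℂ).im = 3 * c₁ * d / 4 := by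
    show Sh.Hr - (Sh.Hr - 3 * c₁ * d / 4) = _
    ring
  have h1 : 1 ≤ ((Sh.Hr - (⟨x₀, Sh.Hr - 3 * c₁ * d / 4⟩ : ℂ).im) / (c₁ * d / 2)) ^ α := by
    apply Real.one_le_rpow _ hα0.le
    rw [him, le_div_iff₀ (by positivity)]
    linarith
  have hlt : ‖(t : ℂ)‖ < 2 * T₁ * d / b *
      ((Sh.Hr - (⟨x₀, Sh.Hr - 3 * c₁ * d / 4⟩ : ℂ).im) / (c₁ * d / 2)) ^ α := by
    have h0 : 0 < T₁ * d / b := by positivity
    calc ‖(t : ℂ)‖ = |t| := by simp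
      _ ≤ T₁ * d / b := ht
      _ < 2 * T₁ * d / b * 1 := by
        have : 2 * T₁ * d / b * 1 = 2 * (T₁ * d / b) := by ring
        rw [this]; linarith
      _ ≤ _ := mul_le_mul_of_nonneg_left h1 (by positivity)
  obtain ⟨a1, -⟩ := hpass (⟨x₀, Sh.Hr - 3 * c₁ * d / 4⟩ : ℂ) (t : ℂ) (by rw [him]; linarith)
    (by rw [him]; linarith)
    (by
      rw [him]
      show |x₀ - x₀| < _
      rw [sub_self, abs_zero]
      linarith) hlt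
  have hw := Sh.s6_passage_width Sh.s9k_max t _ a1
  have hle : Sh.G.hX (t : ℂ) ≤ Sh.G.Hs := Sh.hX_le _ (Sh.s9k_max.param _ a1)
  have hne : Sh.G.hX (t : ℂ) ≠ ⊤ := ne_top_of_le_ne_top hH hle
  have hlt2 : Sh.Hr - 3 * c₁ * d / 4 < (Sh.G.hX (t : ℂ)).toReal := by
    rcases lt_or_ge (Sh.Hr - 3 * c₁ * d / 4) 0 with h | h
    · exact lt_of_lt_of_le h ENNReal.toReal_nonneg
    · exact (ENNReal.ofReal_lt_iff_lt_toReal h hne).1 hw
  show Sh.Hr - (Sh.G.hX (t : ℂ)).toReal ≤ c₁ * d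
  linarith

end Shape

end Claimed.Agent.R269
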