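/-
Row 269, P1 Propositions 6.6 (subcritical growth is impossible) and 6.7 (a witness near every centre).   Blueprint: helper218.   NO PAPER READING NEEDED.
Exports: `Shape.s6_one_le_order` = `Shape.one_le_order` (Stage3.lean) verbatim;  `Shape.s6_witness` = `Shape.witness` (S11/Inputs.lean) with the hypotheses unbundled (S11 wires it with `h.fin`, `h.poly`).
Only input: `Shape.s6_no_quiet` (S6/Quiet.lean).

R0 `s6_M_le_rowMax` = `sb_M_le_rowMax`.   USE THE API `ShapeBasic.lean` (sorry-free, prefix `sb_`: `sb_mem_D_iff`, `sb_Hr_pos`, `sb_M_le_rowMax`, ...).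
R1 `s6_one_le_order`.  By contradiction `order < 1`.  Pick a real `p₀ < 1` with `order < p₀` (`EReal.lt_iff_exists_real_btwn`); `Filter.eventually_lt_of_limsup_lt`: `∃ k₁ ≥ 1, ∀ k ≥ k₁, growth k / k < p₀`, so `log (rowMax (Hr - e^{-k})) ≤ p₀ k`,
    so `rowMax (Hr - e^{-k}) ≤ e^{p₀ k}` (if `rowMax ≤ 0` trivially; `Real.log_le_iff_le_exp`).   With `δ = e^{-k}`:  `M s ≤ δ_s^(-p₀)` for `0 < δ_s ≤ e^{-k₁}` (R0; `|Im s| < Hr`).
    `α = max ((1+p₀)/2) (3/4) ∈ (max p₀ (1/2), 1)`, `δb = min (e^{-k₁}) (Hr/4)` (`≤ 1`).   `(L,η,c,d₁)` from `s6_no_quiet`.   Take `d < d₁` with `d^(1-α) ≤ η`; the point `s`: `η (d/δ_s)^α < d M s ≤ d δ_s^(-p₀)`, i.e.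
    `η < d^(1-α) δ_s^(α-p₀) ≤ d^(1-α) ≤ η` (`δ_s ≤ δb ≤ 1`, `α - p₀ > 0`).   Contradiction.      (`0 < Hr`: `Glance.s6w_basic` / `ch_zero_mem_D`.)
R2 `s6_witness`.  `α = 3/4`, `δb = min (e^{-k₀}) (Hr/4)`, `(L,η,c,d₁)` from `s6_no_quiet` (w.l.o.g. `c ≤ 1`: the statement for `c` implies... NO: just use `C₂ = max 1 (-log c)`, `cs = η (min c 1)^(1/4)`).   `L₀ = L`.
    Given `k`, `d = e^{-k} < d₁` (`k₁ > -log d₁`), the point `s` satisfies, with `δ = δ_s ∈ [c d, δb]`:  `Im s ≥ Hr - δb > 0`, `dep s = δ`,   `δ M s > η (δ/d)^(1/4) ≥ η c^(1/4)`;   `-log δ ≤ k - log c`.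
    Polynomial bound (replace `C` by `max C 1`) at the level `l = -log δ ≥ k₀`:  `δ M s ≤ δ rowMax (Hr - δ) ≤ C (1+l)² ≤ C (1 + k + C₂)²`.   So `(δ/d)^(1/4) < C (1+k+C₂)²/η`,  `log (δ/d) < 4 log (C/η) + 8 log (1+k+C₂) ≤ C₁ log k` for `k ≥ k₁`, `C₁ = 9`
    (`k₁` large: `4 log (C/η) + 8 log (1 + k + C₂) ≤ 9 log k` eventually: `Real.isLittleO_log_id_atTop`-free: `1+k+C₂ ≤ 2k`, and `log k ≥ 4 log(C/η) + 8 log 2`).   `-log δ = k - log (δ/d) ≥ k - C₁ log k`.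
-/
import Claimed.Agent.R269.S6.Quiet
import Claimed.Agent.R269.ShapeBasic

set_option autoImplicit false

namespace Claimed.Agent.R269

open Complex Filter Topology Set Metric
open scoped ENNReal Real

namespace Shape

variable (Sh : Shape)

/-- R0: the row maximum dominates the field on the row (= `sb_M_le_rowMax`, ShapeBasic.lean). -/
theorem s6_M_le_rowMax (hH : Sh.H ≠ ⊤) (s : ℂ) (hs : s ∈ Sh.D) : Sh.M s ≤ Sh.rowMax s.im :=
  Sh.sb_M_le_rowMax hH hs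

/-- auxiliary: a point at depth `δ = Hr - Im s ∈ (0, Hr/2)` lies in the strip, and `Im s = Hr - e^{-k}`, `k = -log δ`. -/
theorem s6r_point (hH : Sh.H ≠ ⊤) {s : ℂ} {δb : ℝ} (h0 : 0 < Sh.Hr - s.im) (h1 : Sh.Hr - s.im ≤ δb)
    (h2 : δb < Sh.Hr / 2) :
    s ∈ Sh.D ∧ 0 < s.im ∧ |s.im| = s.im ∧
      Sh.M s ≤ Sh.rowMax (Sh.Hr - Real.exp (-(-Real.log (Sh.Hr - s.im)))) := by
  have hpos : 0 < s.im := by linarith
  have habs : |s.im| = s.im := abs_of_pos hpos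
  have hD : s ∈ Sh.D := by
    rw [Sh.sb_mem_D_iff hH, habs]; linarith
  refine ⟨hD, hpos, habs, ?_⟩
  rw [neg_neg, Real.exp_log h0]
  have := Sh.sb_M_le_rowMax hH hD
  simpa using this

/-- LEAF R1: **P1 Proposition 6.6**: subcritical growth is impossible. -/
theorem s6_one_le_order (hH : Sh.H ≠ ⊤) : 1 ≤ Sh.order := by
  by_contra hcon
  rw [not_le] at hcon
  obtain ⟨p₀, hp1, hp2⟩ := EReal.lt_iff_exists_real_btwn.1 hcon
  have hp₀ : p₀ < 1 := by exact_mod_cast hp2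
  have hev : ∀ᶠ k : ℝ in atTop, ((Sh.growth k / k : ℝ) : EReal) < (p₀ : EReal) :=
    Filter.eventually_lt_of_limsup_lt hp1
  obtain ⟨k₁', hk₁'⟩ := eventually_atTop.1 hev
  obtain ⟨k₁, hk₁def⟩ : ∃ k₁ : ℝ, k₁ = max k₁' 1 := ⟨_, rfl⟩
  have hk₁1 : 1 ≤ k₁ := by rw [hk₁def]; exact le_max_right _ _
  have hrow : ∀ k : ℝ, k₁ ≤ k → Sh.rowMax (Sh.Hr - Real.exp (-k)) ≤ Real.exp (p₀ * k) := by
    intro k hk
    have h1 : Sh.growth k / k < p₀ := by
      have := hk₁' k (le_trans (by rw [hk₁def]; exact le_max_left _ _) hk)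
      exact_mod_cast this
    have hkpos : 0 < k := by linarith
    rw [div_lt_iff₀ hkpos] at h1
    rcases le_or_gt (Sh.rowMax (Sh.Hr - Real.exp (-k))) 0 with h0 | h0
    · exact h0.trans (Real.exp_pos _).le
    · exact ((Real.log_lt_iff_lt_exp h0).1 h1).le
  have hHr := Sh.sb_Hr_pos hH
  obtain ⟨α, hαdef⟩ : ∃ α : ℝ, α = max ((1 + p₀) / 2) (3 / 4) := ⟨_, rfl⟩
  have hα1 : 1 / 2 < α := by
    rw [hαdef]; exact lt_of_lt_of_le (by norm_num) (le_max_right _ _)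
  have hα2 : α < 1 := by
    rw [hαdef]; exact max_lt (by linarith) (by norm_num)
  have hα3 : p₀ < α := by
    rw [hαdef]; exact lt_of_lt_of_le (by linarith) (le_max_left _ _)
  obtain ⟨δb, hδbdef⟩ : ∃ δb : ℝ, δb = min (Real.exp (-k₁)) (Sh.Hr / 4) := ⟨_, rfl⟩
  have hδb0 : 0 < δb := by rw [hδbdef]; exact lt_min (Real.exp_pos _) (by positivity)
  have hδb1 : δb < Sh.Hr / 2 := by
    rw [hδbdef]; exact lt_of_le_of_lt (min_le_right _ _) (by linarith)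
  have hδb2 : δb ≤ Real.exp (-k₁) := by rw [hδbdef]; exact min_le_left _ _
  obtain ⟨L, η, c, d₁, hL, hη, hc, hd₁, hmain⟩ := Sh.s6_no_quiet hH α δb hα1 hα2 hδb0 hδb1
  obtain ⟨a, hadef⟩ : ∃ a : ℝ, a = max (-Real.log (d₁ / 2)) (-Real.log η / (1 - α)) := ⟨_, rfl⟩
  have ha1 : Real.exp (-a) < d₁ := by
    have h1 : -a ≤ Real.log (d₁ / 2) := by
      have : -Real.log (d₁ / 2) ≤ a := by rw [hadef]; exact le_max_left _ _
      linarith
    have h2 : Real.exp (-a) ≤ d₁ / 2 := by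
      rw [← Real.exp_log (by positivity : 0 < d₁ / 2)]; exact Real.exp_le_exp.2 h1
    linarith
  have ha2 : Real.exp (-((1 - α) * a)) ≤ η := by
    have h1 : -Real.log η / (1 - α) ≤ a := by rw [hadef]; exact le_max_right _ _
    rw [div_le_iff₀ (by linarith)] at h1
    rw [← Real.exp_log hη]
    exact Real.exp_le_exp.2 (by linarith)
  obtain ⟨s, hs1, hs2, -, hs4⟩ := hmain (Real.exp (-a)) 0 (Real.exp_pos _) ha1
  have hδ0 : 0 < Sh.Hr - s.im := lt_of_lt_of_le (mul_pos hc (Real.exp_pos _)) hs1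
  obtain ⟨-, -, -, hM⟩ := Sh.s6r_point hH hδ0 hs2 hδb1
  obtain ⟨k, hkdef⟩ : ∃ k : ℝ, k = -Real.log (Sh.Hr - s.im) := ⟨_, rfl⟩
  have hδk : Sh.Hr - s.im = Real.exp (-k) := by rw [hkdef, neg_neg, Real.exp_log hδ0]
  have hk : k₁ ≤ k := by
    have h1 : Real.exp (-k) ≤ Real.exp (-k₁) := by rw [← hδk]; exact hs2.trans hδb2
    have := Real.exp_le_exp.1 h1
    linarith
  rw [← hkdef] at hM
  have hM2 := hM.trans (hrow k hk)
  rw [hδk, ← Real.exp_sub, ← Real.exp_mul] at hs4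
  have h5 : Real.exp (-a) * Sh.M s ≤ Real.exp (-a) * Real.exp (p₀ * k) :=
    mul_le_mul_of_nonneg_left hM2 (Real.exp_pos _).le
  rw [← Real.exp_add] at h5
  have h6 : η * Real.exp ((-a - -k) * α) < Real.exp (-a + p₀ * k) := lt_of_lt_of_le hs4 h5
  have h7 : η < Real.exp (-a + p₀ * k - (-a - -k) * α) := by
    rw [Real.exp_sub, lt_div_iff₀ (Real.exp_pos _)]; exact h6
  have h8 : Real.exp (-a + p₀ * k - (-a - -k) * α) ≤ Real.exp (-((1 - α) * a)) := by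
    apply Real.exp_le_exp.2
    have : 0 ≤ (α - p₀) * k := mul_nonneg (by linarith) (by linarith)
    nlinarith
  linarith

/-- LEAF R2: **P1 Proposition 6.7**: a witness near every centre, under polynomial bounds. -/
theorem s6_witness (hH : Sh.H ≠ ⊤)
    (hpoly : ∃ (C k₀ : ℝ), 1 ≤ k₀ ∧ ∀ k, k₀ ≤ k →
      Real.exp (-k) * Sh.rowMax (Sh.Hr - Real.exp (-k)) ≤ C * (1 + k) ^ 2) :
    ∃ L₀ C₁ C₂ cs k₁ : ℝ, 0 < L₀ ∧ 0 < C₁ ∧ 0 < C₂ ∧ 0 < cs ∧ 1 ≤ k₁ ∧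
      ∀ k : ℝ, k₁ ≤ k → ∀ x₀ : ℝ, ∃ s : ℂ, 0 < s.im ∧ 0 < Sh.Hr - |s.im| ∧
        |s.re - x₀| ≤ L₀ * (Sh.Hr - |s.im|) ∧
        k - C₁ * Real.log k ≤ -Real.log (Sh.Hr - |s.im|) ∧ -Real.log (Sh.Hr - |s.im|) ≤ k + C₂ ∧
        cs ≤ (Sh.Hr - |s.im|) * Sh.M s := by
  obtain ⟨C, k₀, hk₀, hpol⟩ := hpoly
  have hHr := Sh.sb_Hr_pos hH
  obtain ⟨δb, hδbdef⟩ : ∃ δb : ℝ, δb = min (Real.exp (-k₀)) (Sh.Hr / 4) := ⟨_, rfl⟩
  have hδb0 : 0 < δb := by rw [hδbdef]; exact lt_min (Real.exp_pos _) (by positivity)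
  have hδb1 : δb < Sh.Hr / 2 := by
    rw [hδbdef]; exact lt_of_le_of_lt (min_le_right _ _) (by linarith)
  have hδb2 : δb ≤ Real.exp (-k₀) := by rw [hδbdef]; exact min_le_left _ _
  obtain ⟨L, η, c, d₁, hL, hη, hc, hd₁, hmain⟩ :=
    Sh.s6_no_quiet hH (3 / 4) δb (by norm_num) (by norm_num) hδb0 hδb1
  obtain ⟨C₂, hC₂def⟩ : ∃ C₂ : ℝ, C₂ = max 1 (-Real.log c) := ⟨_, rfl⟩
  have hC₂1 : 1 ≤ C₂ := by rw [hC₂def]; exact le_max_left _ _
  have hC₂c : -Real.log c ≤ C₂ := by rw [hC₂def]; exact le_max_right _ _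
  obtain ⟨C', hC'def⟩ : ∃ C' : ℝ, C' = max C 1 := ⟨_, rfl⟩
  have hC'1 : 1 ≤ C' := by rw [hC'def]; exact le_max_right _ _
  have hC'C : C ≤ C' := by rw [hC'def]; exact le_max_left _ _
  obtain ⟨E, hEdef⟩ : ∃ E : ℝ, E = 4 * Real.log (C' / η) + 8 * Real.log 2 := ⟨_, rfl⟩
  obtain ⟨k₁, hk₁def⟩ : ∃ k₁ : ℝ, k₁ = max (max 1 (1 + C₂)) (max (Real.exp E) (-Real.log d₁ + 1)) :=
    ⟨_, rfl⟩
  have hk₁a : 1 ≤ k₁ := by rw [hk₁def]; exact (le_max_left _ _).trans (le_max_left _ _)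
  have hk₁b : 1 + C₂ ≤ k₁ := by rw [hk₁def]; exact (le_max_right _ _).trans (le_max_left _ _)
  have hk₁c : Real.exp E ≤ k₁ := by rw [hk₁def]; exact (le_max_left _ _).trans (le_max_right _ _)
  have hk₁d : -Real.log d₁ + 1 ≤ k₁ := by rw [hk₁def]; exact (le_max_right _ _).trans (le_max_right _ _)
  refine ⟨L, 9, C₂, η * Real.exp (Real.log c / 4), k₁, hL, by norm_num, by linarith,
    mul_pos hη (Real.exp_pos _), hk₁a, fun k hk x₀ => ?_⟩
  have hkpos : 0 < k := by linarith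
  have hd : Real.exp (-k) < d₁ := by
    rw [← Real.exp_log hd₁]
    exact Real.exp_lt_exp.2 (by linarith)
  obtain ⟨s, hs1, hs2, hs3, hs4⟩ := hmain (Real.exp (-k)) x₀ (Real.exp_pos _) hd
  have hδ0 : 0 < Sh.Hr - s.im := lt_of_lt_of_le (mul_pos hc (Real.exp_pos _)) hs1
  obtain ⟨-, hpos, habs, hM⟩ := Sh.s6r_point hH hδ0 hs2 hδb1
  obtain ⟨l, hldef⟩ : ∃ l : ℝ, l = -Real.log (Sh.Hr - s.im) := ⟨_, rfl⟩
  have hδl : Sh.Hr - s.im = Real.exp (-l) := by rw [hldef, neg_neg, Real.exp_log hδ0]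
  have hl0 : k₀ ≤ l := by
    have h1 : Real.exp (-l) ≤ Real.exp (-k₀) := by rw [← hδl]; exact hs2.trans hδb2
    have := Real.exp_le_exp.1 h1
    linarith
  -- `l ≤ k - log c`
  have hl1 : l ≤ k - Real.log c := by
    have h1 : Real.exp (Real.log c + -k) ≤ Real.exp (-l) := by
      rw [Real.exp_add, Real.exp_log hc, ← hδl]; exact hs1
    have := Real.exp_le_exp.1 h1
    linarith
  rw [← hldef] at hM
  -- lower bound
  rw [hδl, ← Real.exp_sub, ← Real.exp_mul] at hs4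
  have hlow : η * Real.exp ((k - l) / 4) < Real.exp (-l) * Sh.M s := by
    have h1 : Real.exp (k - l) * (η * Real.exp ((-k - -l) * (3 / 4)))
        < Real.exp (k - l) * (Real.exp (-k) * Sh.M s) := mul_lt_mul_of_pos_left hs4 (Real.exp_pos _)
    have e1 : Real.exp (k - l) * (η * Real.exp ((-k - -l) * (3 / 4))) = η * Real.exp ((k - l) / 4) := by
      rw [mul_left_comm, ← Real.exp_add]; congr 2; ring
    have e2 : Real.exp (k - l) * (Real.exp (-k) * Sh.M s) = Real.exp (-l) * Sh.M s := by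
      rw [← mul_assoc, ← Real.exp_add]; congr 2; ring
    rwa [e1, e2] at h1
  -- upper bound
  have hup : Real.exp (-l) * Sh.M s ≤ C' * (2 * k) ^ 2 := by
    have h1 : Real.exp (-l) * Sh.M s ≤ Real.exp (-l) * Sh.rowMax (Sh.Hr - Real.exp (-l)) :=
      mul_le_mul_of_nonneg_left hM (Real.exp_pos _).le
    have h2 := hpol l hl0
    have h3 : C * (1 + l) ^ 2 ≤ C' * (1 + l) ^ 2 := mul_le_mul_of_nonneg_right hC'C (by positivity)
    have h4 : (1 + l) ^ 2 ≤ (2 * k) ^ 2 := by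
      apply pow_le_pow_left₀ (by linarith)
      linarith
    have h5 : C' * (1 + l) ^ 2 ≤ C' * (2 * k) ^ 2 := mul_le_mul_of_nonneg_left h4 (by linarith)
    linarith
  have hkl : k - l < 9 * Real.log k := by
    have h1 : η * Real.exp ((k - l) / 4) < C' * (2 * k) ^ 2 := lt_of_lt_of_le hlow hup
    have h2 : Real.exp ((k - l) / 4) < C' / η * (2 * k) ^ 2 := by
      rw [div_mul_eq_mul_div, lt_div_iff₀ hη]; linarith
    have hpos2 : 0 < C' / η * (2 * k) ^ 2 := by positivity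
    have h3 : (k - l) / 4 < Real.log (C' / η * (2 * k) ^ 2) := (Real.lt_log_iff_exp_lt hpos2).2 h2
    rw [Real.log_mul (by positivity) (by positivity), Real.log_pow,
      Real.log_mul (by norm_num) hkpos.ne'] at h3
    have h4 : E ≤ Real.log k := (Real.le_log_iff_exp_le hkpos).2 (hk₁c.trans hk)
    push_cast at h3
    rw [hEdef] at h4
    linarith
  refine ⟨s, ?_⟩
  rw [habs, hδl, Real.log_exp, neg_neg]
  refine ⟨hpos, Real.exp_pos _, ?_, by linarith, by linarith, ?_⟩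
  · rw [← hδl]; exact hs3
  · refine le_trans ?_ hlow.le
    apply mul_le_mul_of_nonneg_left _ hη.le
    apply Real.exp_le_exp.2
    linarith

end Shape

end Claimed.Agent.R269
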