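/-
Row 269, P1 Section 6: `e^{2iφ}` HAS NO HOLOMORPHIC EXTENSION ACROSS THE EDGE OF THE SHAPE STRIP.   Blueprint: helper218.   NO PAPER READING NEEDED.   Uses only `Shape.lean` (+ Lib/CA1Prim.lean: `ca_exists_primitive`, `ca_exists_log`).

PROOF.  Let `P` be holomorphic on `B = ball s₀ ε`, `P = e^{2iφ}` on `B ∩ D`; say `Im s₀ = Hr` (the case `Im s₀ = -Hr` is identical; or use `φ_conj`).   `B ∩ D ≠ ∅`, so `P ≢ 0`.
 1. The zeros of `P` in `B` are isolated, the horizontal segment `{s ∈ B : Im s = Im s₀}` is uncountable / has accumulation points: there is `s₁` on it with `P s₁ ≠ 0`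
    (otherwise `P` vanishes on a set accumulating at `s₀`, `AnalyticOnNhd.eqOn_zero_of_preconnected_of_frequently_eq_zero`).   Take `B₁ = ball s₁ ε₁ ⊆ B` with `P ≠ 0` on `B₁`.
 2. `ca_exists_log` on the ball `B₁`: `P = e^{g}`, `g` holomorphic.   On the convex open set `B₁ ∩ D`:  `e^{2iφ - g} = 1`, so `(2iφ - g)' = 0` (differentiate `e^{u} = 1`), `2iφ - g = const = κ`.   `φ₁ = (g + κ)/(2i)` is holomorphic on `B₁`, `= φ` on `B₁ ∩ D`.
 3. `f₁ = φ₁'` is holomorphic on `B₁`, `= f` on `B₁ ∩ D`; `f₁ ≢ 0`: otherwise `f = 0` on an open subset of the connected set `D`, so `f ≡ 0` on `D`, `φ` constant, against `φ_per` (or `noncircular` with `c₁ = 0`).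
    As in 1. there is `s₂ ∈ B₁`, `Im s₂ = Im s₀`, `f₁ s₂ ≠ 0`; `B₂ = ball s₂ ε₂ ⊆ B₁` with `f₁ ≠ 0`.
 4. `ca_exists_primitive` on `B₂` for the two components of `(c/f₁²) (-sin φ₁, cos φ₁)`: `Γ₁`.   On the convex open set `B₂ ∩ D`, `Γ - Γ₁` has derivative `0` (`Γ_deriv`), so it is a constant `κ'`.   `Γ₁ + κ'` is holomorphic on `B₂` and equals `Γ` on `B₂ ∩ D`.
 5. This contradicts `nat_bdry s₂` (`|Im s₂| = |Im s₀|`); holomorphic ⇒ `MeromorphicOn`; equality on the open set `B₂ ∩ D` gives the `=ᶠ[𝓝[≠] s]`.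
-/
import Claimed.Agent.R269.Shape
import Claimed.Agent.R269.ShapeBasic
import Claimed.Agent.R269.Lib.CA1Prim

set_option autoImplicit false

namespace Claimed.Agent.R269

open Complex Filter Topology Set Metric
open scoped ENNReal Real

/-- a holomorphic function on a ball which is not identically zero does not vanish identically on the horizontal diameter. -/
theorem s6np_line_ne {g : ℂ → ℂ} {s₀ : ℂ} {ε : ℝ} (hε : 0 < ε)
    (hg : DifferentiableOn ℂ g (ball s₀ ε)) (hne : ∃ z ∈ ball s₀ ε, g z ≠ 0) :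
    ∃ s₁ ∈ ball s₀ ε, s₁.im = s₀.im ∧ g s₁ ≠ 0 := by
  by_contra hcon
  push Not at hcon
  obtain ⟨z, hz, hgz⟩ := hne
  have han : AnalyticOnNhd ℂ g (ball s₀ ε) := hg.analyticOnNhd isOpen_ball
  have hfreq : ∃ᶠ w in 𝓝[≠] s₀, g w = 0 := by
    rw [frequently_iff]
    intro U hU
    rw [mem_nhdsWithin] at hU
    obtain ⟨V, hVo, hsV, hVU⟩ := hU
    obtain ⟨δ, hδ, hball⟩ := Metric.isOpen_iff.1 hVo s₀ hsV
    set r : ℝ := min δ ε / 2 with hr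
    have hr0 : 0 < r := by positivity
    have hrδ : r < δ := by
      have := min_le_left δ ε
      rw [hr]; linarith [lt_min hδ hε]
    have hrε : r < ε := by
      have := min_le_right δ ε
      rw [hr]; linarith [lt_min hδ hε]
    have hd : dist (s₀ + (r : ℂ)) s₀ = r := by
      rw [dist_eq_norm, add_sub_cancel_left, Complex.norm_real, Real.norm_eq_abs, abs_of_pos hr0]
    refine ⟨s₀ + (r : ℂ), hVU ⟨hball (by rw [mem_ball, hd]; exact hrδ), ?_⟩, ?_⟩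
    · intro h
      have : (r : ℂ) = 0 := by simpa using h
      exact hr0.ne' (by exact_mod_cast this)
    · exact hcon _ (by rw [mem_ball, hd]; exact hrε) (by simp)
  exact hgz (han.eqOn_zero_of_preconnected_of_frequently_eq_zero (convex_ball s₀ ε).isPreconnected
    (mem_ball_self hε) hfreq hz)

/-- every ball about an edge point meets the strip. -/
theorem Shape.s6np_inter (Sh : Shape) {s₀ : ℂ} (hs₀ : ENNReal.ofReal |s₀.im| = Sh.G.Hs) {ε : ℝ}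
    (hε : 0 < ε) : ∃ z, z ∈ ball s₀ ε ∩ Sh.D := by
  have hpos : 0 < |s₀.im| := by
    have h0 : ENNReal.ofReal |(0 : ℂ).im| < Sh.G.Hs := Sh.sb_zero_mem_D
    rw [← hs₀] at h0
    have := (ENNReal.ofReal_lt_ofReal_iff_of_nonneg (abs_nonneg _)).1 h0
    simpa using this
  set a : ℝ := |s₀.im| with ha
  set δ : ℝ := min (ε / (2 * a)) (1 / 2) with hδ
  have hδ0 : 0 < δ := by positivity
  have hδ1 : δ ≤ 1 / 2 := min_le_right _ _
  have hδ2 : δ * a ≤ ε / 2 := by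
    have : δ ≤ ε / (2 * a) := min_le_left _ _
    calc δ * a ≤ ε / (2 * a) * a := by gcongr
      _ = ε / 2 := by field_simp
  refine ⟨⟨s₀.re, s₀.im * (1 - δ)⟩, ?_, ?_⟩
  · rw [mem_ball, dist_eq_norm]
    have e : (⟨s₀.re, s₀.im * (1 - δ)⟩ : ℂ) - s₀ = ((-(s₀.im * δ) : ℝ) : ℂ) * I := by
      apply Complex.ext <;> simp <;> ring
    rw [e, norm_mul, Complex.norm_I, mul_one, Complex.norm_real, Real.norm_eq_abs, abs_neg, abs_mul,
      abs_of_pos hδ0]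
    linarith [mul_comm δ a]
  · show ENNReal.ofReal |(⟨s₀.re, s₀.im * (1 - δ)⟩ : ℂ).im| < Sh.G.Hs
    rw [← hs₀]
    refine (ENNReal.ofReal_lt_ofReal_iff hpos).2 ?_
    show |s₀.im * (1 - δ)| < |s₀.im|
    rw [abs_mul, abs_of_pos (by linarith : (0 : ℝ) < 1 - δ)]
    nlinarith

/-- a function with vanishing derivative on a convex open set. -/
theorem s6np_const {U : Set ℂ} (hU : IsOpen U) (hc : Convex ℝ U) {g : ℂ → ℂ}
    (hg : ∀ z ∈ U, HasDerivAt g 0 z) {z w : ℂ} (hz : z ∈ U) (hw : w ∈ U) : g z = g w :=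
  hU.is_const_of_deriv_eq_zero hc.isPreconnected
    (fun z hz => (hg z hz).differentiableAt.differentiableWithinAt) (fun z hz => (hg z hz).deriv) hz hw

/-- a smaller ball on which a continuous function does not vanish. -/
theorem s6np_ball_ne {g : ℂ → ℂ} {s₀ s₁ : ℂ} {ε : ℝ} (hg : DifferentiableOn ℂ g (ball s₀ ε))
    (hs₁ : s₁ ∈ ball s₀ ε) (hne : g s₁ ≠ 0) :
    ∃ ε₁ : ℝ, 0 < ε₁ ∧ ball s₁ ε₁ ⊆ ball s₀ ε ∧ ∀ z ∈ ball s₁ ε₁, g z ≠ 0 := by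
  have hopen : IsOpen (ball s₀ ε ∩ g ⁻¹' {0}ᶜ) :=
    hg.continuousOn.isOpen_inter_preimage isOpen_ball isOpen_compl_singleton
  obtain ⟨ε₁, h1, h2⟩ := Metric.isOpen_iff.1 hopen s₁ ⟨hs₁, hne⟩
  exact ⟨ε₁, h1, fun z hz => (h2 hz).1, fun z hz => (h2 hz).2⟩

/-- LEAF NP: natural boundary for `e^{2iφ}`. -/
theorem Shape.s6_nat_phi (Sh : Shape) (s₀ : ℂ) (hs₀ : ENNReal.ofReal |s₀.im| = Sh.G.Hs) :
    ¬ ∃ (ε : ℝ) (P : ℂ → ℂ), 0 < ε ∧ DifferentiableOn ℂ P (ball s₀ ε) ∧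
      ∀ s ∈ ball s₀ ε ∩ Sh.D, P s = Complex.exp (2 * I * Sh.φ s) := by
  rintro ⟨ε, P, hε, hP, hPe⟩
  have hDo := Sh.sb_isOpen_D
  have hDc := Sh.sb_convex_D
  -- step 1
  obtain ⟨z₀, hz₀⟩ := Sh.s6np_inter hs₀ hε
  obtain ⟨s₁, hs₁, him₁, hPs₁⟩ := s6np_line_ne hε hP
    ⟨z₀, hz₀.1, by rw [hPe z₀ hz₀]; exact Complex.exp_ne_zero _⟩
  obtain ⟨ε₁, hε₁, hB₁, hP₁⟩ := s6np_ball_ne hP hs₁ hPs₁
  have hs₁' : ENNReal.ofReal |s₁.im| = Sh.G.Hs := by rw [him₁]; exact hs₀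
  -- step 2
  obtain ⟨z₁, hz₁⟩ := Sh.s6np_inter hs₁' hε₁
  obtain ⟨L, hLz, hL, hLe⟩ := ca_exists_log isOpen_ball (convex_ball s₁ ε₁) (hP.mono hB₁) hP₁
    (y₀ := z₁) (L₀ := 2 * I * Sh.φ z₁) hz₁.1 (hPe z₁ ⟨hB₁ hz₁.1, hz₁.2⟩).symm
  have hU₁o : IsOpen (ball s₁ ε₁ ∩ Sh.D) := isOpen_ball.inter hDo
  have hU₁c : Convex ℝ (ball s₁ ε₁ ∩ Sh.D) := (convex_ball s₁ ε₁).inter hDc
  have hφd : ∀ z ∈ Sh.D, HasDerivAt Sh.φ (Sh.f z) z := fun z hz => (Sh.sb_φ_at hz).hasDerivAt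
  have hdP : ∀ z ∈ ball s₁ ε₁ ∩ Sh.D, deriv P z / P z = 2 * I * Sh.f z := by
    intro z hz
    have h1 : HasDerivAt (fun s => Complex.exp (2 * I * Sh.φ s))
        (Complex.exp (2 * I * Sh.φ z) * (2 * I * Sh.f z)) z := ((hφd z hz.2).const_mul (2 * I)).cexp
    have h2 : P =ᶠ[𝓝 z] fun s => Complex.exp (2 * I * Sh.φ s) := by
      filter_upwards [hU₁o.mem_nhds hz] with s hs using hPe s ⟨hB₁ hs.1, hs.2⟩
    rw [(h1.congr_of_eventuallyEq h2).deriv, hPe z ⟨hB₁ hz.1, hz.2⟩]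
    field_simp
  have hLφ : ∀ z ∈ ball s₁ ε₁ ∩ Sh.D, L z = 2 * I * Sh.φ z := by
    intro z hz
    have := s6np_const hU₁o hU₁c (g := fun s => L s - 2 * I * Sh.φ s)
      (fun s hs => by
        refine ((hL s hs.1).sub ((hφd s hs.2).const_mul (2 * I))).congr_deriv ?_
        rw [hdP s hs]; ring) hz hz₁
    simp only [hLz, sub_self] at this
    exact sub_eq_zero.1 this
  -- the extended angle and field
  set φ₁ : ℂ → ℂ := fun z => L z / (2 * I) with hφ₁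
  set f₁ : ℂ → ℂ := fun z => deriv P z / P z / (2 * I) with hf₁
  have h2I : (2 * I : ℂ) ≠ 0 := mul_ne_zero two_ne_zero Complex.I_ne_zero
  have hφ₁d : ∀ z ∈ ball s₁ ε₁, HasDerivAt φ₁ (f₁ z) z := fun z hz => (hL z hz).div_const _
  have hφ₁e : ∀ z ∈ ball s₁ ε₁ ∩ Sh.D, φ₁ z = Sh.φ z := by
    intro z hz
    simp only [hφ₁, hLφ z hz]
    field_simp
  have hf₁e : ∀ z ∈ ball s₁ ε₁ ∩ Sh.D, f₁ z = Sh.f z := by
    intro z hz
    simp only [hf₁, hdP z hz]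
    field_simp
  have hf₁d : DifferentiableOn ℂ f₁ (ball s₁ ε₁) :=
    ((((hP.mono hB₁).deriv isOpen_ball).div (hP.mono hB₁) hP₁)).div_const _
  -- step 3
  have hex : ∃ z ∈ ball s₁ ε₁, f₁ z ≠ 0 := by
    by_contra hcon
    push Not at hcon
    refine Sh.sb_f_not_eventually_zero hz₁.2 ?_
    filter_upwards [hU₁o.mem_nhds hz₁] with z hz
    rw [← hf₁e z hz]
    exact hcon z hz.1
  obtain ⟨s₂, hs₂, him₂, hfs₂⟩ := s6np_line_ne hε₁ hf₁d hex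
  obtain ⟨ε₂, hε₂, hB₂, hf₂⟩ := s6np_ball_ne hf₁d hs₂ hfs₂
  have hs₂' : ENNReal.ofReal |s₂.im| = Sh.G.Hs := by rw [him₂]; exact hs₁'
  -- step 4
  obtain ⟨z₂, hz₂⟩ := Sh.s6np_inter hs₂' hε₂
  have hφ₁D : DifferentiableOn ℂ φ₁ (ball s₂ ε₂) := fun z hz =>
    (hφ₁d z (hB₂ hz)).differentiableAt.differentiableWithinAt
  have hc₁ : DifferentiableOn ℂ (fun z => (Sh.G.c : ℂ) / f₁ z ^ 2) (ball s₂ ε₂) :=
    (differentiableOn_const _).div ((hf₁d.mono hB₂).pow 2) (fun z hz => pow_ne_zero 2 (hf₂ z hz))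
  obtain ⟨Ga, hGa0, hGa⟩ := ca_exists_primitive isOpen_ball (convex_ball s₂ ε₂)
    (f := fun z => (Sh.G.c : ℂ) / f₁ z ^ 2 * (-Complex.sin (φ₁ z))) (hc₁.mul hφ₁D.csin.neg)
    z₂ (Sh.Γ z₂).1
  obtain ⟨Gb, hGb0, hGb⟩ := ca_exists_primitive isOpen_ball (convex_ball s₂ ε₂)
    (f := fun z => (Sh.G.c : ℂ) / f₁ z ^ 2 * Complex.cos (φ₁ z)) (hc₁.mul hφ₁D.ccos)
    z₂ (Sh.Γ z₂).2
  have hU₂o : IsOpen (ball s₂ ε₂ ∩ Sh.D) := isOpen_ball.inter hDo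
  have hU₂c : Convex ℝ (ball s₂ ε₂ ∩ Sh.D) := (convex_ball s₂ ε₂).inter hDc
  have hΓd : ∀ z ∈ ball s₂ ε₂ ∩ Sh.D, HasDerivAt Sh.Γ
      (((Sh.G.c : ℂ) / f₁ z ^ 2 * (-Complex.sin (φ₁ z))), ((Sh.G.c : ℂ) / f₁ z ^ 2 * Complex.cos (φ₁ z))) z := by
    intro z hz
    have hz1 : z ∈ ball s₁ ε₁ ∩ Sh.D := ⟨hB₂ hz.1, hz.2⟩
    have hfz : deriv Sh.φ z ≠ 0 := by
      have := hf₂ z hz.1
      rwa [hf₁e z hz1] at this
    have := Sh.Γ_deriv z hz.2 hfz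
    rw [hf₁e z hz1, hφ₁e z hz1]
    exact this
  have hΓa : ∀ z ∈ ball s₂ ε₂ ∩ Sh.D, Ga z = (Sh.Γ z).1 := by
    intro z hz
    have := s6np_const hU₂o hU₂c (g := fun s => Ga s - (Sh.Γ s).1)
      (fun s hs => by
        have h1 : HasDerivAt (fun s => (Sh.Γ s).1) ((Sh.G.c : ℂ) / f₁ s ^ 2 * (-Complex.sin (φ₁ s))) s :=
          (ContinuousLinearMap.fst ℂ ℂ ℂ).hasFDerivAt.comp_hasDerivAt s (hΓd s hs)
        refine ((hGa s hs.1).sub h1).congr_deriv ?_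
        ring) hz hz₂
    simp only [hGa0, sub_self] at this
    exact sub_eq_zero.1 this
  have hΓb : ∀ z ∈ ball s₂ ε₂ ∩ Sh.D, Gb z = (Sh.Γ z).2 := by
    intro z hz
    have := s6np_const hU₂o hU₂c (g := fun s => Gb s - (Sh.Γ s).2)
      (fun s hs => by
        have h1 : HasDerivAt (fun s => (Sh.Γ s).2) ((Sh.G.c : ℂ) / f₁ s ^ 2 * Complex.cos (φ₁ s)) s :=
          (ContinuousLinearMap.snd ℂ ℂ ℂ).hasFDerivAt.comp_hasDerivAt s (hΓd s hs)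
        refine ((hGb s hs.1).sub h1).congr_deriv ?_
        ring) hz hz₂
    simp only [hGb0, sub_self] at this
    exact sub_eq_zero.1 this
  -- step 5
  refine Sh.nat_bdry s₂ hs₂' ⟨ε₂, fun s => (Ga s, Gb s), hε₂, ?_, ?_, ?_⟩
  · have : DifferentiableOn ℂ Ga (ball s₂ ε₂) := fun z hz =>
      (hGa z hz).differentiableAt.differentiableWithinAt
    exact fun z hz => (this.analyticOnNhd isOpen_ball z hz).meromorphicAt
  · have : DifferentiableOn ℂ Gb (ball s₂ ε₂) := fun z hz =>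
      (hGb z hz).differentiableAt.differentiableWithinAt
    exact fun z hz => (this.analyticOnNhd isOpen_ball z hz).meromorphicAt
  · intro s hs
    have : ∀ᶠ z in 𝓝 s, (fun s => (Ga s, Gb s)) z = Sh.Γ z := by
      filter_upwards [hU₂o.mem_nhds hs] with z hz
      exact Prod.ext (hΓa z hz) (hΓb z hz)
    exact this.filter_mono nhdsWithin_le_nhds

end Claimed.Agent.R269
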