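/-
Row 269, P1 Section 6.4, Corollary 6.5 (iii) ("a quiet cone at a bounded scale is impossible"): DEFINITIONS AND ROUTE.   Blueprint: helper218.   NO PAPER READING NEEDED.

ROUTE (replaces the joint patch of the line map and the meromorphic disc principle of the paper by ONE holomorphic function of ONE variable).
 `K±(s,v) = chD s v ± i f(s) chC s v` (Lib/ChordHost.lean).  The chord from `Γ(s)` to `Γ(v)` has the isotropic coordinates `± i c_G/(f(s) f(v)) e^{± i φ(s)} K±(s,v)`, so the unoriented line through the two impacts has the angle coordinate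
     `E(s,v) = e^{2iφ(s)} K₊(s,v)/K₋(s,v)`   (`= exp(2iΘ)`).      FACTS (S6/QuietK.lean):
   (anti)  `e^{iφ(s)} K₊(s,v) = - e^{iφ(v)} K₊(v,s)`,  `e^{-iφ(s)} K₋(s,v) = - e^{-iφ(v)} K₋(v,s)`;   so `E(s,v) = E(v,s)`;
   (refl)  `chREC s₋ s s₊ = 0  ⇒  K₊(s,s₊) K₊(s,s₋) = K₋(s,s₊) K₋(s,s₋)`   (reflection law `E(s,s₊) E(s,s₋) = e^{4iφ(s)}`);
   (small) `|K±(s,v) - (v-s)| ≤ K₀ a |v-s|` if `|v-s| M ≤ a ≤ 1` on the segment `[s,v]`.
 With `S = s9Smax`, `a = S(y-t/2,t)`, `b = S(y-3t/2,t)`, `c = S(y+t/2,t)`: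
     `Ec y t = e^{2iφ(a)} K₊(a,c)/K₋(a,c)`  (the line `L(y,t)`),       `Eb y t = e^{2iφ(a)} K₋(a,b)/K₊(a,b)`  (the same line recovered from the TWO PRECEDING impacts and the reflection at `a`).
 Quiet data `Sh.S6Q x₀ d a₀ K₀`: on `s6A x₀ d = {|t| < 3d/2, d/10 < depth u < 7d, |Re u - x₀| < 4d}` the maximal passage exists with `|S(u,t) - u| ≤ |t|/100`, and `d M ≤ a₀` on `{d/20 ≤ depth ≤ 8d, |Re s - x₀| ≤ 5d}`.
 Discs  `t = d ζ`, `y = y_c - (i d/4) ζ²`.   For `ζ = e^{iθ}`, `θ ∈ [0,π]`, `σ = sin θ`, the two preceding impacts have the depths `H - Im y_c + (d/4)(1 + 2kσ - 2σ²) ≥ H - Im y_c + d/4`, `k = 1,3`.   So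
     `P(y_c) = (1/π) ∫_0^π Eb (y_c - (i d/4) e^{2iθ}) (d e^{iθ}) dθ`
 is holomorphic on `s6Rect x₀ d = {|Re y_c - x₀| < d, H - 4d < Im y_c < H + d/8}`, which CROSSES the edge.   For `Im y_c < H - 3d` the whole disc is available: `ζ ↦ Ec (y(ζ)) (t(ζ))` is holomorphic for `0 < |ζ| < 1.4`, even, tends to
 `e^{2iφ(y_c)}` at `0`, and equals `Eb` ; mean value property: `P = e^{2iφ}`.   Identity theorem: `P = e^{2iφ}` on `Rect ∩ D`.   This contradicts `Shape.s6_nat_phi` (S6/NatPhi.lean): `e^{2iφ}` has no holomorphic extension across the edge.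
-/
import Claimed.Agent.R269.Lib.ChordHost
import Claimed.Agent.R269.S9.PassageMax

set_option autoImplicit false

namespace Claimed.Agent.R269

open Complex Filter Topology Set Metric
open scoped ENNReal Real

namespace Shape

variable (Sh : Shape)

/-- `K₊(s,v) = d(s,v) + i f(s) c(s,v)`. -/
noncomputable def s6Kp (s v : ℂ) : ℂ := Sh.chD s v + I * Sh.f s * Sh.chC s v

/-- `K₋(s,v) = d(s,v) - i f(s) c(s,v)`. -/
noncomputable def s6Km (s v : ℂ) : ℂ := Sh.chD s v - I * Sh.f s * Sh.chC s v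

/-- the angle coordinate of the line `L(y,t)` through the impacts at the phases `y ∓ t/2`. -/
noncomputable def s6Ec (y t : ℂ) : ℂ :=
  Complex.exp (2 * I * Sh.φ (Sh.s9Smax (y - t / 2, t))) *
    Sh.s6Kp (Sh.s9Smax (y - t / 2, t)) (Sh.s9Smax (y + t / 2, t)) /
    Sh.s6Km (Sh.s9Smax (y - t / 2, t)) (Sh.s9Smax (y + t / 2, t))

/-- the angle coordinate of `L(y,t)` recovered from the impacts at the phases `y - t/2`, `y - 3t/2`. -/
noncomputable def s6Eb (y t : ℂ) : ℂ :=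
  Complex.exp (2 * I * Sh.φ (Sh.s9Smax (y - t / 2, t))) *
    Sh.s6Km (Sh.s9Smax (y - t / 2, t)) (Sh.s9Smax (y - 3 * t / 2, t)) /
    Sh.s6Kp (Sh.s9Smax (y - t / 2, t)) (Sh.s9Smax (y - 3 * t / 2, t))

/-- the small-field bound for `K±` with the constant `K₀`. -/
def S6KB (K₀ : ℝ) : Prop :=
  ∀ (s v : ℂ) (a : ℝ), s ∈ Sh.D → v ∈ Sh.D → a ≤ 1 →
    (∀ r ∈ Icc (0 : ℝ) 1, ‖v - s‖ * Sh.M (s + (r : ℂ) * (v - s)) ≤ a) →
    ‖Sh.s6Kp s v - (v - s)‖ ≤ K₀ * a * ‖v - s‖ ∧ ‖Sh.s6Km s v - (v - s)‖ ≤ K₀ * a * ‖v - s‖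

/-- the region of impact data. -/
def s6A (x₀ d : ℝ) : Set (ℂ × ℂ) :=
  {z | ‖z.2‖ < 3 / 2 * d ∧ d / 10 < Sh.Hr - z.1.im ∧ Sh.Hr - z.1.im < 7 * d ∧ |z.1.re - x₀| < 4 * d}

/-- quiet data at the centre `x₀` and the scale `d`. -/
structure S6Q (x₀ d a₀ K₀ : ℝ) : Prop where
  fin : Sh.H ≠ ⊤
  d_pos : 0 < d
  d_small : 8 * d < Sh.Hr
  K₀_pos : 0 < K₀
  a₀_pos : 0 < a₀
  small : 4 * K₀ * a₀ ≤ 1
  small' : 3 * a₀ ≤ 1
  kb : Sh.S6KB K₀
  mem : Sh.s6A x₀ d ⊆ Sh.s9Rmax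
  near : ∀ z ∈ Sh.s6A x₀ d, ‖Sh.s9Smax z - z.1‖ ≤ ‖z.2‖ / 100
  field : ∀ s : ℂ, d / 20 ≤ Sh.Hr - s.im → Sh.Hr - s.im ≤ 8 * d → |s.re - x₀| ≤ 5 * d → d * Sh.M s ≤ a₀

/-- the rectangle of centres; it crosses the edge `Im = H`. -/
def s6Rect (x₀ d : ℝ) : Set ℂ := {y | |y.re - x₀| < d ∧ Sh.Hr - 4 * d < y.im ∧ y.im < Sh.Hr + d / 8}

/-- the average of the recovered line angle over the boundary of the disc with centre `(y_c,0)`. -/
noncomputable def s6P (d : ℝ) (yc : ℂ) : ℂ :=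
  (π : ℂ)⁻¹ * ∫ θ in (0 : ℝ)..π,
    Sh.s6Eb (yc - I * d / 4 * Complex.exp (2 * θ * I)) (d * Complex.exp (θ * I))

end Shape

end Claimed.Agent.R269
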