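/-
Row 269, P1 Section 6, PACKAGE STEEP: GEOMETRY OF THE REGION.   Blueprint: helper218.   NO PAPER READING NEEDED; pure real/complex arithmetic from the fields of `S6Ctx` (S6/SteepDefs.lean).
Throughout `x = c.h - y.im`.   `0 < L'` (`1/γ ≤ L'`), `0 < lo < x`, `|Re t| ≤ ‖t‖ < Im t/γ ≤ L' Im t`, `0 < Im t ≤ ‖t‖ < ρ₀ ≤ τ/3`.

G1 `cond_down`: all conditions are monotone in the depth (`Real.rpow_le_rpow_of_exponent_nonpos` / `Real.rpow_le_rpow_of_nonpos` for `x'^(-α) ≤ x^(-α)`).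
G2 `cond_back`: depth of `y - t` is `x + Im t`; `|Re (y-t) - x₀| < L' x + |Re t| ≤ L' (x + Im t)`; the rest as in G1.
G3 openness: `{lo < x}` is open and on it `z ↦ ‖t‖ B x^(-α)` is continuous (`Real.continuousAt_rpow_const`); `ContinuousOn.isOpen_inter_preimage` or `isOpen_iff_mem_nhds` + `ContinuousAt.eventually_lt`.
G4 `stadium`: let `u = r + v`, `r ∈ [-1,1]`, `‖v‖ < w = x/(4‖t‖)`, `λ = 1 - r ∈ [0,2]`, `p₀ = y - λ t` (depth `x_λ = x + λ Im t ∈ [x, x + 2 Im t]`, `|Re p₀ - x₀| < L' x_λ`), `p = s + t u = p₀ + e`, `e = (s - (y - t)) + t v`, `‖e‖ < x/8 + x/4 = 3x/8`.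
   depth of `p` `≥ x_λ - 3x/8 ≥ 5 x_λ/8 ≥ 5x/8 > lo/2`;  depth of `p` `≤ x + 2 Im t + 3x/8 < (3/2)(σ+τ) ≤ hi`;  `|Re p - x₀| < (L' + 3/8) x_λ ≤ (8/5)(L' + 3/8) depth ≤ (2L'+1) depth`.
   `hD` gives `p ∈ D`; `field` gives `M p ≤ B depth^(-α) ≤ B (x/2)^(-α) = 2^α B x^(-α)`.
G5 bookkeeping of the sets.
-/
import Claimed.Agent.R269.S6.SteepDefs

set_option autoImplicit false

namespace Claimed.Agent.R269

open Complex Filter Topology Set Metric
open scoped ENNReal Real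

namespace Shape.S6Ctx

variable {Sh : Shape} (c : Sh.S6Ctx)

theorem geo_L'_pos : 0 < c.L' := lt_of_lt_of_le (one_div_pos.2 c.hγ) c.hL'

theorem geo_K_pos : 0 < c.K := lt_of_lt_of_le one_pos c.hK

theorem geo_im_pos {y t : ℂ} (h : c.Cond y t) : 0 < t.im :=
  lt_of_le_of_lt (mul_nonneg c.hγ.le (norm_nonneg t)) h.2.2.2.1

theorem geo_t_ne {y t : ℂ} (h : c.Cond y t) : t ≠ 0 := by
  intro h0
  have := c.geo_im_pos h
  rw [h0] at this
  simp at this

theorem geo_x_pos {y t : ℂ} (h : c.Cond y t) : 0 < c.h - y.im := lt_trans c.hlo h.1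

/-- `‖t‖ < L' Im t`. -/
theorem geo_norm_lt {y t : ℂ} (h : c.Cond y t) : ‖t‖ < c.L' * t.im := by
  have him := c.geo_im_pos h
  have h1 : ‖t‖ < 1 / c.γ * t.im := by
    rw [one_div, inv_mul_eq_div, lt_div_iff₀ c.hγ, mul_comm]
    exact h.2.2.2.1
  exact lt_of_lt_of_le h1 (mul_le_mul_of_nonneg_right c.hL' him.le)

theorem geo_im_lt {y t : ℂ} (h : c.Cond y t) : t.im < c.τ / 3 := by
  have h1 : t.im ≤ ‖t‖ := Complex.im_le_norm t
  have h2 := h.2.2.2.2.1
  have h3 := c.hρ₀τ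
  linarith

/-- monotonicity in the depth, the cone condition being given. -/
theorem geo_cond_mono {y y' t : ℂ} (h : c.Cond y t) (hx : c.h - y.im ≤ c.h - y'.im)
    (htop : c.h - y'.im < c.σ + c.τ) (hcone : |y'.re - c.x₀| < c.L' * (c.h - y'.im)) :
    c.Cond y' t := by
  obtain ⟨h1, h2, h3, h4, h5, h6, h7⟩ := h
  have hx0 : 0 < c.h - y.im := lt_trans c.hlo h1
  refine ⟨lt_of_lt_of_le h1 hx, htop, hcone, h4, h5, ?_, ?_⟩
  · exact lt_of_lt_of_le h6 (mul_le_mul_of_nonneg_left hx c.geo_K_pos.le)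
  · refine lt_of_le_of_lt ?_ h7
    have hα : -c.α ≤ 0 := by have := c.hα; linarith
    have := Real.rpow_le_rpow_of_nonpos hx0 hx hα
    exact mul_le_mul_of_nonneg_left this (mul_nonneg (norm_nonneg _) c.hB.le)

/-- LEAF G1. -/
theorem cond_down {y y' t : ℂ} (h : c.Cond y t) (hre : y'.re = y.re) (him : y'.im ≤ y.im)
    (htop : c.h - y'.im < c.σ + c.τ) : c.Cond y' t := by
  refine c.geo_cond_mono h (by linarith) htop ?_
  rw [hre]
  exact lt_of_lt_of_le h.2.2.1 (mul_le_mul_of_nonneg_left (by linarith) c.geo_L'_pos.le)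

/-- LEAF G2. -/
theorem cond_back {y t : ℂ} (h : c.Cond y t) (htop : c.h - y.im + t.im < c.σ + c.τ) :
    c.Cond (y - t) t := by
  have him := c.geo_im_pos h
  have e : c.h - (y - t).im = c.h - y.im + t.im := by rw [Complex.sub_im]; ring
  refine c.geo_cond_mono h (by rw [e]; linarith) (by rw [e]; exact htop) ?_
  rw [e, Complex.sub_re]
  have h1 : |y.re - t.re - c.x₀| ≤ |y.re - c.x₀| + |t.re| := by
    have : y.re - t.re - c.x₀ = (y.re - c.x₀) - t.re := by ring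
    rw [this]; exact abs_sub _ _
  have h2 : |t.re| ≤ ‖t‖ := Complex.abs_re_le_norm t
  have h3 := c.geo_norm_lt h
  have h4 := h.2.2.1
  rw [mul_add]
  linarith

theorem geo_isOpen_cond : IsOpen {z : ℂ × ℂ | c.Cond z.1 z.2} := by
  have cx : Continuous (fun z : ℂ × ℂ => c.h - z.1.im) :=
    continuous_const.sub (Complex.continuous_im.comp continuous_fst)
  have ct : Continuous (fun z : ℂ × ℂ => ‖z.2‖) := continuous_snd.norm
  have hU : IsOpen {z : ℂ × ℂ | c.lo < c.h - z.1.im} := isOpen_lt continuous_const cx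
  have hf : ContinuousOn (fun z : ℂ × ℂ => ‖z.2‖ * c.B * (c.h - z.1.im) ^ (-c.α))
      {z : ℂ × ℂ | c.lo < c.h - z.1.im} := by
    refine ((ct.mul continuous_const).continuousOn).mul (cx.continuousOn.rpow_const ?_)
    intro z hz
    left
    exact (lt_trans c.hlo hz).ne'
  have h1 := hf.isOpen_inter_preimage hU (isOpen_Iio (a := c.ε₁))
  have h2 : IsOpen {z : ℂ × ℂ | c.h - z.1.im < c.σ + c.τ} := isOpen_lt cx continuous_const
  have h3 : IsOpen {z : ℂ × ℂ | |z.1.re - c.x₀| < c.L' * (c.h - z.1.im)} :=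
    isOpen_lt ((Complex.continuous_re.comp continuous_fst).sub continuous_const).abs
      (continuous_const.mul cx)
  have h4 : IsOpen {z : ℂ × ℂ | c.γ * ‖z.2‖ < z.2.im} :=
    isOpen_lt (continuous_const.mul ct) (Complex.continuous_im.comp continuous_snd)
  have h5 : IsOpen {z : ℂ × ℂ | ‖z.2‖ < c.ρ₀} := isOpen_lt ct continuous_const
  have h6 : IsOpen {z : ℂ × ℂ | ‖z.2‖ < c.K * (c.h - z.1.im)} :=
    isOpen_lt ct (continuous_const.mul cx)
  have := ((((h1.inter h2).inter h3).inter h4).inter h5).inter h6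
  convert this using 1
  ext z
  constructor
  · rintro ⟨a1, a2, a3, a4, a5, a6, a7⟩
    exact ⟨⟨⟨⟨⟨⟨a1, a7⟩, a2⟩, a3⟩, a4⟩, a5⟩, a6⟩
  · rintro ⟨⟨⟨⟨⟨⟨a1, a7⟩, a2⟩, a3⟩, a4⟩, a5⟩, a6⟩
    exact ⟨a1, a2, a3, a4, a5, a6, a7⟩

/-- LEAF G3a. -/
theorem isOpen_Kset (j : ℕ) : IsOpen (c.Kset j) := by
  have h1 : IsOpen {z : ℂ × ℂ | c.σ - (j : ℝ) * z.2.im < c.h - z.1.im} :=
    isOpen_lt (continuous_const.sub (continuous_const.mul (Complex.continuous_im.comp continuous_snd)))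
      (continuous_const.sub (Complex.continuous_im.comp continuous_fst))
  exact c.geo_isOpen_cond.inter h1

/-- LEAF G3b. -/
theorem isOpen_Oset (j : ℕ) : IsOpen (c.Oset j) := by
  have h1 : IsOpen {z : ℂ × ℂ | c.σ - ((j + 1 : ℕ) : ℝ) * z.2.im < c.h - z.1.im} :=
    isOpen_lt (continuous_const.sub (continuous_const.mul (Complex.continuous_im.comp continuous_snd)))
      (continuous_const.sub (Complex.continuous_im.comp continuous_fst))
  have h2 : IsOpen {z : ℂ × ℂ | c.h - z.1.im + 2 * z.2.im < c.σ + c.τ} :=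
    isOpen_lt ((continuous_const.sub (Complex.continuous_im.comp continuous_fst)).add
      (continuous_const.mul (Complex.continuous_im.comp continuous_snd))) continuous_const
  exact c.geo_isOpen_cond.inter (h1.inter h2)

/-- LEAF G4: the stadium of thickness `x/(4|t|)` about `[s-t,s+t]`, `s ≈ y - t`, lies in the field cone. -/
theorem stadium {y t s : ℂ} (h : c.Cond y t) (htop : c.h - y.im + 2 * t.im < c.σ + c.τ)
    (hs : ‖s - (y - t)‖ ≤ (c.h - y.im) / 8) :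
    ∀ u ∈ chStadium ((c.h - y.im) / (4 * ‖t‖)), s + t * u ∈ Sh.D ∧
      ‖t‖ * Sh.M (s + t * u) ≤ 2 ^ c.α * (‖t‖ * c.B * (c.h - y.im) ^ (-c.α)) := by
  rintro u ⟨r, ⟨hr1, hr2⟩, hu⟩
  set x : ℝ := c.h - y.im with hx
  have hx0 : 0 < x := c.geo_x_pos h
  have him := c.geo_im_pos h
  have htn : 0 < ‖t‖ := norm_pos_iff.2 (c.geo_t_ne h)
  have hL' := c.geo_L'_pos
  set e : ℂ := (s - (y - t)) + t * (u - r) with he
  have hen : ‖e‖ < 3 * x / 8 := by
    have h1 : ‖t * (u - r)‖ < x / 4 := by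
      rw [norm_mul]
      calc ‖t‖ * ‖u - r‖ < ‖t‖ * (x / (4 * ‖t‖)) := by gcongr
        _ = x / 4 := by field_simp
    have h2 := norm_add_le (s - (y - t)) (t * (u - r))
    linarith
  set lam : ℝ := 1 - r with hlam
  have hlam0 : 0 ≤ lam := by linarith
  have hlam2 : lam ≤ 2 := by linarith
  have hp : s + t * u = y - (lam : ℂ) * t + e := by
    rw [he, hlam]; push_cast; ring
  have hpim : (s + t * u).im = y.im - lam * t.im + e.im := by
    rw [hp, Complex.add_im, Complex.sub_im, Complex.im_ofReal_mul]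
  have hpre : (s + t * u).re = y.re - lam * t.re + e.re := by
    rw [hp, Complex.add_re, Complex.sub_re, Complex.re_ofReal_mul]
  have heim : |e.im| ≤ ‖e‖ := Complex.abs_im_le_norm e
  have here : |e.re| ≤ ‖e‖ := Complex.abs_re_le_norm e
  set xl : ℝ := x + lam * t.im with hxl
  have hxl1 : x ≤ xl := by
    have : 0 ≤ lam * t.im := mul_nonneg hlam0 him.le
    linarith
  have hxl2 : xl < c.σ + c.τ := by
    have : lam * t.im ≤ 2 * t.im := mul_le_mul_of_nonneg_right hlam2 him.le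
    linarith
  set d : ℝ := c.h - (s + t * u).im with hd
  have hd1 : d = xl - e.im := by rw [hd, hpim, hxl, hx]; ring
  have heim' := abs_le.1 heim
  have hd2 : 5 * xl / 8 ≤ d := by linarith [heim'.2]
  have hd3 : 0 < d := by linarith
  have hd4 : c.lo / 2 ≤ d := by have := h.1; linarith
  have hd5 : d ≤ c.hi := by
    have := c.hhi
    have h2 := h.2.1
    linarith [heim'.1]
  have hcone : |(s + t * u).re - c.x₀| ≤ (2 * c.L' + 1) * d := by
    have h1 : |(s + t * u).re - c.x₀| ≤ |y.re - c.x₀| + lam * |t.re| + |e.re| := by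
      have e1 : (s + t * u).re - c.x₀ = (y.re - c.x₀) - lam * t.re + e.re := by rw [hpre]; ring
      rw [e1]
      refine (abs_add_le _ _).trans ?_
      have := abs_sub (y.re - c.x₀) (lam * t.re)
      rw [abs_mul, abs_of_nonneg hlam0] at this
      linarith
    have h2 : |t.re| ≤ c.L' * t.im := (Complex.abs_re_le_norm t).trans (c.geo_norm_lt h).le
    have h3 : lam * |t.re| ≤ lam * (c.L' * t.im) := mul_le_mul_of_nonneg_left h2 hlam0
    have h4 := h.2.2.1
    have h5 : |(s + t * u).re - c.x₀| ≤ c.L' * xl + 3 * xl / 8 := by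
      rw [hxl, mul_add]
      rw [hxl] at hxl1
      nlinarith
    have h6 : c.L' * xl + 3 * xl / 8 ≤ (2 * c.L' + 1) * (5 * xl / 8) := by
      have : 0 ≤ c.L' * xl := by positivity
      nlinarith
    have h7 : (2 * c.L' + 1) * (5 * xl / 8) ≤ (2 * c.L' + 1) * d :=
      mul_le_mul_of_nonneg_left hd2 (by positivity)
    linarith
  refine ⟨c.hD _ hd3 hd5, ?_⟩
  have hM := c.field _ hd4 hd5 hcone
  have hα : -c.α ≤ 0 := by have := c.hα; linarith
  have h1 : d ^ (-c.α) ≤ (x / 2) ^ (-c.α) :=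
    Real.rpow_le_rpow_of_nonpos (by positivity) (by linarith) hα
  have h2 : (x / 2) ^ (-c.α) = 2 ^ c.α * x ^ (-c.α) := by
    rw [Real.div_rpow hx0.le (by norm_num), Real.rpow_neg (by norm_num : (0 : ℝ) ≤ 2)]
    field_simp
  have h3 : Sh.M (s + t * u) ≤ c.B * (2 ^ c.α * x ^ (-c.α)) := by
    rw [← h2]
    exact hM.trans (mul_le_mul_of_nonneg_left h1 c.hB.le)
  calc ‖t‖ * Sh.M (s + t * u) ≤ ‖t‖ * (c.B * (2 ^ c.α * x ^ (-c.α))) := by gcongr
    _ = 2 ^ c.α * (‖t‖ * c.B * x ^ (-c.α)) := by ring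

/-- LEAF G5a. -/
theorem Kset_mono {i j : ℕ} (hij : i ≤ j) : c.Kset i ⊆ c.Kset j := by
  rintro ⟨y, t⟩ ⟨hC, h1⟩
  refine ⟨hC, ?_⟩
  have him := c.geo_im_pos (y := y) (t := t) hC
  have hij' : (i : ℝ) ≤ j := by exact_mod_cast hij
  have : (i : ℝ) * t.im ≤ j * t.im := mul_le_mul_of_nonneg_right hij' him.le
  change c.σ - (i : ℝ) * t.im < c.h - y.im at h1
  show c.σ - (j : ℝ) * t.im < c.h - y.im
  linarith

/-- LEAF G5b. -/
theorem Oset_back {j : ℕ} {y t : ℂ} (h : (y, t) ∈ c.Oset j) :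
    (y - t, t) ∈ c.Kset j ∧ (y - 2 * t, t) ∈ c.Kset j := by
  obtain ⟨hC, hlow, htop⟩ := h
  change c.Cond y t at hC
  change c.σ - ((j + 1 : ℕ) : ℝ) * t.im < c.h - y.im at hlow
  change c.h - y.im + 2 * t.im < c.σ + c.τ at htop
  push_cast at hlow
  have him := c.geo_im_pos hC
  have hC1 := c.cond_back hC (by linarith)
  have e1 : c.h - (y - t).im = c.h - y.im + t.im := by rw [Complex.sub_im]; ring
  have hC2 := c.cond_back hC1 (by rw [e1]; linarith)
  have e3 : y - t - t = y - 2 * t := by ring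
  rw [e3] at hC2
  have e2 : c.h - (y - 2 * t).im = c.h - y.im + 2 * t.im := by
    rw [← e3, Complex.sub_im, Complex.sub_im]; ring
  refine ⟨⟨hC1, ?_⟩, ⟨hC2, ?_⟩⟩
  · show c.σ - (j : ℝ) * t.im < c.h - (y - t).im
    rw [e1]; linarith
  · show c.σ - (j : ℝ) * t.im < c.h - (y - 2 * t).im
    rw [e2]; linarith

/-- LEAF G5c. -/
theorem Kset_succ {j : ℕ} {y t : ℂ} (h : (y, t) ∈ c.Kset (j + 1)) :
    (y, t) ∈ c.Oset j ∨ (y, t) ∈ c.Kset 0 := by
  obtain ⟨hC, hlow⟩ := h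
  change c.Cond y t at hC
  rcases lt_or_ge (c.h - y.im + 2 * t.im) (c.σ + c.τ) with h1 | h1
  · left
    exact ⟨hC, hlow, h1⟩
  · right
    refine ⟨hC, ?_⟩
    show c.σ - ((0 : ℕ) : ℝ) * t.im < c.h - y.im
    have := c.geo_im_lt hC
    have hτ := c.hτ
    simp only [Nat.cast_zero, zero_mul, sub_zero]
    linarith

/-- LEAF G5d: every point of the region is reached. -/
theorem exists_Kset {y t : ℂ} (h : c.Cond y t) : ∃ j : ℕ, (y, t) ∈ c.Kset j := by
  have him := c.geo_im_pos h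
  obtain ⟨j, hj⟩ := exists_nat_gt ((c.σ - (c.h - y.im)) / t.im)
  refine ⟨j, h, ?_⟩
  show c.σ - (j : ℝ) * t.im < c.h - y.im
  rw [div_lt_iff₀ him] at hj
  linarith

/-- LEAF G5e: the thickness of the stadium. -/
theorem w₀_le {y t : ℂ} (h : c.Cond y t) : c.w₀ ≤ (c.h - y.im) / (4 * ‖t‖) := by
  have htn : 0 < ‖t‖ := norm_pos_iff.2 (c.geo_t_ne h)
  have hK := c.geo_K_pos
  rw [c.hw₀, div_le_div_iff₀ (by positivity) (by positivity)]
  have := h.2.2.2.2.2.1
  linarith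

end Shape.S6Ctx

end Claimed.Agent.R269
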