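/-
Row 269, P1 Theorem 6.7 (exclusion of finite superlinear growth) = `Shape.not_superlinear` of Stage3.lean.   Blueprint: helper151.
PACKAGE S6/Super*.lean, prefix `s6u_`.   NO PAPER READING NEEDED: the route below is NOT the paper's (no Montel, no frozen actions, no energy equation, no limiting map of the half plane).

NOTATION.  `H = Sh.Hr`, depth of `s` = `Sh.s9dep s = H - Im s`, `Sh.s8pt x δ = ⟨x, H - δ⟩`, `M = max(|f|, |q|^{1/2})`, `W = f² + 8q`, `V = Sh.s9V`, `P = Sh.s9P = - Im V`, `V' = (W - Wm)/120`,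
`Δ t = H - h_X(t)`.   A SCALE is a pair `(d,m)`: `d` small depth, `m` = row maximum of `M` at depth `d`, with the two-sided envelope `M ≤ 3 m max(D^{-α₁}, D^{-P})` at depth `D d` (`1 < α₁ < P`), see `Shape.S6USc`.

ROUTE (files):
 (A) SuperRec / SuperScale : `1 < order < ⊤` gives `1 < α₁ < P` and scales with `d → 0`, `m → ∞`, `d m / (1 + log m) → ∞`.
 (B) SuperRow, SuperQf, SuperOde, SuperPer, SuperQuiet : QUIET CENTRE: for a fixed truncated cone `c₂ d ≤ depth ≤ R₀ d`, aperture `L`, and `η > 0` there is a centre `x` with `M ≤ η m` on the cone over `x`.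
 (C),(D) SuperCone : `s8_onesided_pt` (S8/LiftC.lean) at the quiet centre gives `Δ(T/m) < c₁ d`; at EVERY centre and every depth in `[d/2, 2 R d]` it gives `P ≥ - κ m² d`.
 (E) SuperPup : `|P| ≤ C₀ + m² d R^{1-2α₁}` at depth `R d`.
 (F) SuperHar (Harnack), SuperMain : `|W - Wm| ≤ θ m²` near the row maximum; `s8_disk_bound` (S8/LibDisk.lean) gives `m²/4 ≤ 8192/d² + 4|Wm| + 4θ m²`: false.
-/
import Claimed.Agent.R269.ShapeBasic
import Claimed.Agent.R269.S8.LiftC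
import Claimed.Agent.R269.S8.LibLog
import Claimed.Agent.R269.Lib.ChordHost

set_option autoImplicit false

namespace Claimed.Agent.R269

open Complex Filter Topology Set Metric
open scoped ENNReal Real

/-- the two-sided envelope profile: `D^{-α₁}` for `D ≥ 1`, `D^{-P}` for `D ≤ 1` (`α₁ < P`). -/
noncomputable def s6uE (α₁ P D : ℝ) : ℝ := max (D ^ (-α₁)) (D ^ (-P))

namespace Shape

variable (Sh : Shape)

/-- a SCALE `(d,m)`. -/
structure S6USc (α₁ P δb d m : ℝ) : Prop where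
  d_pos : 0 < d
  m_pos : 0 < m
  env : ∀ s : ℂ, 0 < Sh.s9dep s → Sh.s9dep s ≤ δb → Sh.M s ≤ 3 * m * s6uE α₁ P (Sh.s9dep s / d)
  top : ∃ x : ℝ, m / 2 ≤ Sh.M (Sh.s8pt x d)

/-- the conclusion of `s8_onesided_pt` for given constants. -/
def S6UOne (α δb L ε₁ d₁ C : ℝ) : Prop :=
  ∀ x d r : ℝ, 0 < d → d ≤ d₁ → 0 < r → r ≤ d / 2 →
    (∀ s ∈ Sh.s9cone L x (d / 20) δb, r * Sh.M s ≤ ε₁ * (d / Sh.s9dep s) ^ α) →
    ∀ t : ℝ, |t| < r → Sh.Δ (t : ℂ) < d ∧
      (|t| ≤ r / 2 → -(t ^ 2 * Sh.s9P (Sh.s8pt x d)) ≤ Sh.Δ (t : ℂ) + C * d * (|t| / r) ^ 4)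

end Shape

end Claimed.Agent.R269
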