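/-
Row 269, Theorem 6.7, steps (C), (D): THE TWO APPLICATIONS OF THE ONE-SIDED ESTIMATE.   Blueprint: helper151.   LEAVES LF-S6-U-width, LF-S6-U-one (this file; fill IN PLACE).   Pure inequalities with `Real.rpow`; `hO` is a hypothesis.
`Sh.S6UOne α δb L ε₁ d₁ C` (SuperDefs.lean) is the conclusion of `s8_onesided_pt`; `s ∈ Sh.s9cone L x lo hi ⇔ lo ≤ dep s ∧ dep s ≤ hi ∧ |Re s - x| ≤ L dep s`; `s6uE α₁ P D = max (D^{-α₁}) (D^{-P})`.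

(C) `s6u_width`.  Apply `hO x (c₁ d) (2T/m)` and `t = T/m` (`|t| = T/m < 2T/m`).  `r ≤ (c₁ d)/2 ⇔ 4T ≤ c₁ d m`.  Cone hypothesis: let `s ∈ s9cone L x (c₁ d/20) δb`, `δ = dep s`, `D' = δ/d ≥ c₁/20 > 0`.
   Case `δ ≤ R₀ d`: `s ∈ s9cone L x (c₁ d/20) (R₀ d)`, so `r M s ≤ 2 T η ≤ ε₁ (c₁/R₀)^α ≤ ε₁ (c₁ d/δ)^α` (`c₁/R₀ ≤ c₁ d/δ`, `Real.rpow_le_rpow`).
   Case `δ ≥ R₀ d`: `D' ≥ R₀ ≥ 1`, `s6uE = D'^{-α₁}`, `r M s ≤ 6 T D'^{-α₁}`, and `6 T ≤ ε₁ c₁^α R₀^{α₁-α} ≤ ε₁ c₁^α D'^{α₁-α}`, so `6 T D'^{-α₁} ≤ ε₁ c₁^α D'^{-α} = ε₁ (c₁ d/δ)^α` (`Real.rpow_add`, `Real.div_rpow`, `Real.rpow_neg`).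
(D) `s6u_onesided`.  `δ = dep y ∈ [d/2, 2 R d]`, `x = Re y`, so `y = s8pt x δ` (`Complex.ext`).  Apply `hO x δ (ε₂/m)`, `t = T/m` (`|t| ≤ r/2 ⇔ T ≤ ε₂/2`).  `r ≤ δ/2 ⇐ ε₂/m ≤ d/4 ⇔ 4 ε₂ ≤ d m`.
   Cone hypothesis: `s ∈ s9cone L x (δ/20) δb`, `D' = dep s/d ≥ 1/40`, `D = δ/d ≥ 1/2`.  `s6uE α₁ P D' ≤ 40^P D'^{-α}`:  if `D' ≥ 1`: `D'^{-P} ≤ D'^{-α₁} ≤ D'^{-α}` and `1 ≤ 40^P`;  if `D' ≤ 1`: `D'^{-α₁} ≤ D'^{-P} ≤ 40^P` and `1 ≤ D'^{-α}`.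
   `r M s ≤ 3 ε₂ 40^P D'^{-α} ≤ (ε₁/2) D'^{-α} ≤ ε₁ D^α D'^{-α} = ε₁ (δ/dep s)^α`  (`D^α ≥ (1/2)^α ≥ 1/2` since `α ≤ 1`).
   Conclusion: `-(t² P y) ≤ Δ t + C δ (T/ε₂)⁴ ≤ c₁ d + 2 R C d T⁴/ε₂⁴`; multiply by `m²/T²`.
-/
import Claimed.Agent.R269.S6.SuperDefs

set_option autoImplicit false

namespace Claimed.Agent.R269

open Complex Filter Topology Set Metric
open scoped ENNReal Real

namespace Shape

variable (Sh : Shape)

/-- LEAF C: a quiet centre gives the width at the real parameter `T/m`. -/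
theorem s6u_width (α δb L ε₁ d₁ C α₁ P T c₁ R₀ η d m x : ℝ) (hO : Sh.S6UOne α δb L ε₁ d₁ C)
    (hα : 0 < α) (hαα₁ : α < α₁) (hP : α₁ < P) (hε₁ : 0 < ε₁) (hT : 0 < T) (hc₁ : 0 < c₁) (hR₀ : 1 ≤ R₀)
    (hsc : Sh.S6USc α₁ P δb d m) (hd₁ : c₁ * d ≤ d₁) (hb : 4 * T ≤ c₁ * (d * m))
    (hη : 2 * T * η ≤ ε₁ * (c₁ / R₀) ^ α) (hR₀' : 6 * T ≤ ε₁ * c₁ ^ α * R₀ ^ (α₁ - α))
    (hquiet : ∀ s ∈ Sh.s9cone L x (c₁ * d / 20) (R₀ * d), Sh.M s ≤ η * m) :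
    Sh.Δ ((T / m : ℝ) : ℂ) < c₁ * d := by
  have hd := hsc.d_pos
  have hm := hsc.m_pos
  have hR₀0 : 0 < R₀ := by linarith
  have hr : 0 < 2 * T / m := by positivity
  have hcone : ∀ s ∈ Sh.s9cone L x (c₁ * d / 20) δb,
      2 * T / m * Sh.M s ≤ ε₁ * (c₁ * d / Sh.s9dep s) ^ α := by
    rintro s ⟨hs1, hs2, hs3⟩
    have hδ : 0 < Sh.s9dep s := lt_of_lt_of_le (by positivity) hs1
    rcases le_total (Sh.s9dep s) (R₀ * d) with hcase | hcase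
    · have h1 := hquiet s ⟨hs1, hcase, hs3⟩
      calc 2 * T / m * Sh.M s ≤ 2 * T / m * (η * m) := mul_le_mul_of_nonneg_left h1 hr.le
        _ = 2 * T * η := by field_simp
        _ ≤ ε₁ * (c₁ / R₀) ^ α := hη
        _ ≤ ε₁ * (c₁ * d / Sh.s9dep s) ^ α := by
          refine mul_le_mul_of_nonneg_left (Real.rpow_le_rpow (by positivity) ?_ hα.le) hε₁.le
          rw [div_le_div_iff₀ hR₀0 hδ]
          nlinarith
    · set D' : ℝ := Sh.s9dep s / d with hD'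
      have hD'R : R₀ ≤ D' := by rw [hD', le_div_iff₀ hd]; exact hcase
      have hD'1 : 1 ≤ D' := hR₀.trans hD'R
      have hD'0 : 0 < D' := by linarith
      have h1 := hsc.env s hδ hs2
      have hE : s6uE α₁ P D' = D' ^ (-α₁) := by
        unfold s6uE
        exact max_eq_left (Real.rpow_le_rpow_of_exponent_le hD'1 (by linarith))
      rw [hE] at h1
      have h2 : 6 * T ≤ ε₁ * c₁ ^ α * D' ^ (α₁ - α) :=
        hR₀'.trans (mul_le_mul_of_nonneg_left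
          (Real.rpow_le_rpow hR₀0.le hD'R (by linarith)) (by positivity))
      have h3 : c₁ * d / Sh.s9dep s = c₁ / D' := by
        rw [hD']; field_simp
      have h4 : D' ^ (α₁ - α) * D' ^ (-α₁) = (D' ^ α)⁻¹ := by
        rw [← Real.rpow_add hD'0, ← Real.rpow_neg hD'0.le]
        congr 1; ring
      calc 2 * T / m * Sh.M s ≤ 2 * T / m * (3 * m * D' ^ (-α₁)) :=
            mul_le_mul_of_nonneg_left h1 hr.le
        _ = 6 * T * D' ^ (-α₁) := by field_simp; ring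
        _ ≤ ε₁ * c₁ ^ α * D' ^ (α₁ - α) * D' ^ (-α₁) :=
            mul_le_mul_of_nonneg_right h2 (by positivity)
        _ = ε₁ * (c₁ * d / Sh.s9dep s) ^ α := by
          rw [h3, Real.div_rpow hc₁.le hD'0.le, mul_assoc, h4]
          ring
  have hr2 : 2 * T / m ≤ c₁ * d / 2 := by
    rw [div_le_iff₀ hm]
    nlinarith
  have habs : |T / m| < 2 * T / m := by
    rw [abs_of_pos (by positivity)]
    rw [div_lt_div_iff_of_pos_right hm]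
    linarith
  exact (hO x (c₁ * d) (2 * T / m) (by positivity) hd₁ hr hr2 hcone (T / m) habs).1

/-- LEAF D: the one-sided bound of `P` at every centre, at all depths in `[d/2, 2 R d]`. -/
theorem s6u_onesided (α δb L ε₁ d₁ C α₁ P T c₁ ε₂ R d m : ℝ) (hO : Sh.S6UOne α δb L ε₁ d₁ C)
    (hα : 0 < α) (hα' : α ≤ 1) (hαα₁ : α < α₁) (hP : α₁ < P) (hε₁ : 0 < ε₁) (hC : 0 < C) (hT : 0 < T)
    (hε₂ : 0 < ε₂) (hε₂' : 6 * ε₂ * (40 : ℝ) ^ P ≤ ε₁) (hTε : T ≤ ε₂ / 2) (hR : 1 ≤ R)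
    (hsc : Sh.S6USc α₁ P δb d m) (hd₁ : 2 * R * d ≤ d₁) (hb : 4 * ε₂ ≤ d * m)
    (hΔ : Sh.Δ ((T / m : ℝ) : ℂ) ≤ c₁ * d) :
    ∀ y : ℂ, d / 2 ≤ Sh.s9dep y → Sh.s9dep y ≤ 2 * R * d →
      -((c₁ / T ^ 2 + 2 * R * C * T ^ 2 / ε₂ ^ 4) * (m ^ 2 * d)) ≤ Sh.s9P y := by
  intro y hy1 hy2
  have hd := hsc.d_pos
  have hm := hsc.m_pos
  set δ : ℝ := Sh.s9dep y with hδdef
  have hδ : 0 < δ := lt_of_lt_of_le (by positivity) hy1
  have hyeq : Sh.s8pt y.re δ = y := by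
    apply Complex.ext
    · simp [Shape.s8pt]
    · simp [Shape.s8pt, hδdef, Shape.s9dep]
  have hr : 0 < ε₂ / m := by positivity
  have hP0 : 0 < P := by linarith
  have h40 : (1 : ℝ) ≤ (40 : ℝ) ^ P := Real.one_le_rpow (by norm_num) hP0.le
  have hcone : ∀ s ∈ Sh.s9cone L y.re (δ / 20) δb,
      ε₂ / m * Sh.M s ≤ ε₁ * (δ / Sh.s9dep s) ^ α := by
    rintro s ⟨hs1, hs2, hs3⟩
    have hδs : 0 < Sh.s9dep s := lt_of_lt_of_le (by positivity) hs1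
    set D' : ℝ := Sh.s9dep s / d with hD'
    set D : ℝ := δ / d with hD
    have hD'40 : 1 / 40 ≤ D' := by
      rw [hD', le_div_iff₀ hd]; linarith
    have hD'0 : 0 < D' := by positivity
    have hD2 : 1 / 2 ≤ D := by
      rw [hD, le_div_iff₀ hd]; linarith
    have hD0 : 0 < D := by positivity
    have h1 := hsc.env s hδs hs2
    have hE : s6uE α₁ P D' ≤ (40 : ℝ) ^ P * D' ^ (-α) := by
      unfold s6uE
      rcases le_total 1 D' with h1D | h1D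
      · have ha : D' ^ (-α₁) ≤ D' ^ (-α) := Real.rpow_le_rpow_of_exponent_le h1D (by linarith)
        have hb' : D' ^ (-P) ≤ D' ^ (-α₁) := Real.rpow_le_rpow_of_exponent_le h1D (by linarith)
        have hc : D' ^ (-α) ≤ (40 : ℝ) ^ P * D' ^ (-α) :=
          le_mul_of_one_le_left (by positivity) h40
        exact max_le (ha.trans hc) ((hb'.trans ha).trans hc)
      · have ha : D' ^ (-α₁) ≤ D' ^ (-P) :=
          Real.rpow_le_rpow_of_exponent_ge hD'0 h1D (by linarith)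
        have hb' : D' ^ (-P) ≤ (40 : ℝ) ^ P := by
          rw [Real.rpow_neg hD'0.le, ← Real.inv_rpow hD'0.le]
          refine Real.rpow_le_rpow (by positivity) ?_ hP0.le
          rw [inv_le_comm₀ hD'0 (by norm_num)]
          linarith
        have hc : (1 : ℝ) ≤ D' ^ (-α) := Real.one_le_rpow_of_pos_of_le_one_of_nonpos hD'0 h1D (by linarith)
        have hd' : (40 : ℝ) ^ P ≤ (40 : ℝ) ^ P * D' ^ (-α) :=
          le_mul_of_one_le_right (by positivity) hc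
        exact max_le ((ha.trans hb').trans hd') (hb'.trans hd')
    have hDα : 1 / 2 ≤ D ^ α := by
      calc (1 / 2 : ℝ) = (1 / 2 : ℝ) ^ (1 : ℝ) := (Real.rpow_one _).symm
        _ ≤ (1 / 2 : ℝ) ^ α := Real.rpow_le_rpow_of_exponent_ge (by norm_num) (by norm_num) hα'
        _ ≤ D ^ α := Real.rpow_le_rpow (by norm_num) hD2 hα.le
    have h3 : δ / Sh.s9dep s = D / D' := by
      rw [hD, hD']; field_simp
    have hpos : 0 < D' ^ (-α) := by positivity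
    calc ε₂ / m * Sh.M s ≤ ε₂ / m * (3 * m * s6uE α₁ P D') := mul_le_mul_of_nonneg_left h1 hr.le
      _ = 3 * ε₂ * s6uE α₁ P D' := by field_simp
      _ ≤ 3 * ε₂ * ((40 : ℝ) ^ P * D' ^ (-α)) := mul_le_mul_of_nonneg_left hE (by positivity)
      _ = (6 * ε₂ * (40 : ℝ) ^ P) * (1 / 2) * D' ^ (-α) := by ring
      _ ≤ ε₁ * D ^ α * D' ^ (-α) := by
          refine mul_le_mul_of_nonneg_right ?_ hpos.le
          exact mul_le_mul hε₂' hDα (by norm_num) hε₁.le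
      _ = ε₁ * (δ / Sh.s9dep s) ^ α := by
          rw [h3, Real.div_rpow hD0.le hD'0.le, Real.rpow_neg hD'0.le]
          ring
  have hr2 : ε₂ / m ≤ δ / 2 := by
    have : ε₂ / m ≤ d / 4 := by
      rw [div_le_iff₀ hm]; nlinarith
    linarith
  have habs0 : |T / m| = T / m := abs_of_pos (by positivity)
  have habs : |T / m| < ε₂ / m := by
    rw [habs0, div_lt_div_iff_of_pos_right hm]
    linarith
  have habs2 : |T / m| ≤ ε₂ / m / 2 := by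
    rw [habs0, div_div, mul_comm, ← div_div, div_le_div_iff_of_pos_right hm]
    exact hTε
  have hmain := (hO y.re δ (ε₂ / m) hδ (hy2.trans hd₁) hr hr2 hcone (T / m) habs).2 habs2
  rw [hyeq, habs0] at hmain
  have hq : T / m / (ε₂ / m) = T / ε₂ := by field_simp
  rw [hq] at hmain
  have h5 : C * δ * (T / ε₂) ^ 4 ≤ C * (2 * R * d) * (T / ε₂) ^ 4 := by
    refine mul_le_mul_of_nonneg_right (mul_le_mul_of_nonneg_left hy2 hC.le) (by positivity)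
  have h6 : -((T / m) ^ 2 * Sh.s9P y) ≤ c₁ * d + C * (2 * R * d) * (T / ε₂) ^ 4 := by linarith
  have h7 : 0 < (m / T) ^ 2 := by positivity
  have h8 := mul_le_mul_of_nonneg_right h6 h7.le
  have h9 : -((T / m) ^ 2 * Sh.s9P y) * (m / T) ^ 2 = -Sh.s9P y := by
    field_simp
  have h10 : (c₁ * d + C * (2 * R * d) * (T / ε₂) ^ 4) * (m / T) ^ 2
      = (c₁ / T ^ 2 + 2 * R * C * T ^ 2 / ε₂ ^ 4) * (m ^ 2 * d) := by
    field_simp
  rw [h9, h10] at h8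
  linarith

end Shape

end Claimed.Agent.R269
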