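/-
Row 269, Theorem 6.7: HARNACK INEQUALITY AND GRADIENT BOUND for a holomorphic function with nonnegative real part on a disc.   Blueprint: helper151.   LEAF LF-S6-U-har (this file; fill IN PLACE).   HOST-FREE, Mathlib only.

PROOF.  Let `ε > 0`, `Mε = (Φ c).re + ε > 0`, `g w = Φ c - Φ (c + w)` on `ball 0 ρ`: `g 0 = 0`, `Re g = Re Φ c - Re Φ (c+w) ≤ Re Φ c ≤ Mε`.
`Complex.borelCaratheodory_zero (hM : 0 < M) (hf : DifferentiableOn ℂ f (ball 0 R)) (hmaps : MapsTo f (ball 0 R) {z | z.re ≤ M}) (hR : 0 < R) (hz : z ∈ ball 0 R) (h0 : f 0 = 0) : ‖f z‖ ≤ 2 * M * ‖z‖ / (R - ‖z‖)`.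
(See its use in `ca_harnack`, Lib/CABlaschke.lean, or `Shape.s9c_V_bound`, S9/GrowthCoef.lean.)
* `s6u_harnack`: `Re Φ z - Re Φ c ≤ ‖g (z-c)‖ ≤ 2 Mε s/(ρ - s)`, `s = ‖z - c‖`; let `ε → 0` (`le_of_forall_pos_le_add`/`ge_of_tendsto`, or argue by contradiction with an explicit `ε`): `Re Φ z ≤ Re Φ c (1 + 2s/(ρ-s)) = Re Φ c (ρ+s)/(ρ-s)`.
* `s6u_grad`: on the sphere `‖w‖ = ρ/2`: `‖g w‖ ≤ 2 Mε`; Cauchy estimate `Complex.norm_deriv_le_of_forall_mem_sphere_norm_le` (radius `ρ/2`): `‖deriv g 0‖ ≤ 2 Mε/(ρ/2) = 4 Mε/ρ`; `deriv g 0 = - deriv Φ c`; `ε → 0`.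
-/
import Mathlib

set_option autoImplicit false

namespace Claimed.Agent.R269

open Complex Filter Topology Set Metric

theorem s6u_le_of_eps (a b K : ℝ) (hK : 0 ≤ K) (h : ∀ ε > 0, a ≤ b + K * ε) : a ≤ b := by
  apply le_of_forall_pos_le_add
  intro δ hδ
  have h1 := h (δ / (K + 1)) (by positivity)
  have h2 : K * (δ / (K + 1)) ≤ δ := by
    rw [mul_div_assoc', div_le_iff₀ (by positivity)]
    nlinarith
  linarith

theorem s6u_har_aux (Φ : ℂ → ℂ) (c : ℂ) (ρ : ℝ) (hρ : 0 < ρ) (hΦ : DifferentiableOn ℂ Φ (ball c ρ))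
    (hpos : ∀ z ∈ ball c ρ, 0 ≤ (Φ z).re) (ε : ℝ) (hε : 0 < ε) :
    ∀ z ∈ ball c ρ, ‖Φ c - Φ z‖ ≤ 2 * ((Φ c).re + ε) * ‖z - c‖ / (ρ - ‖z - c‖) := by
  intro z hz
  have hc : c ∈ ball c ρ := mem_ball_self hρ
  have hM : 0 < (Φ c).re + ε := by have := hpos c hc; linarith
  have hmap : MapsTo (fun w : ℂ => c + w) (ball (0 : ℂ) ρ) (ball c ρ) := by
    intro w hw
    simpa [dist_eq_norm] using hw
  have hd : DifferentiableOn ℂ (fun w => Φ c - Φ (c + w)) (ball 0 ρ) := by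
    refine (differentiableOn_const _).sub ?_
    exact hΦ.comp (f := fun w : ℂ => c + w) (by fun_prop) hmap
  have hw : z - c ∈ ball (0 : ℂ) ρ := by
    simpa [dist_eq_norm] using hz
  have := Complex.borelCaratheodory_zero hM hd (fun w hw => by
    have := hpos _ (hmap hw)
    simp only [Set.mem_ofPred_eq, Complex.sub_re]
    linarith) hρ hw (by simp)
  simpa using this

/-- Harnack's inequality. -/
theorem s6u_harnack (Φ : ℂ → ℂ) (c : ℂ) (ρ : ℝ) (hΦ : DifferentiableOn ℂ Φ (ball c ρ))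
    (hpos : ∀ z ∈ ball c ρ, 0 ≤ (Φ z).re) :
    ∀ z ∈ ball c ρ, (Φ z).re ≤ (ρ + ‖z - c‖) / (ρ - ‖z - c‖) * (Φ c).re := by
  intro z hz
  have hs : ‖z - c‖ < ρ := by simpa [dist_eq_norm] using hz
  have hs0 := norm_nonneg (z - c)
  have hρ : 0 < ρ := lt_of_le_of_lt hs0 hs
  have hd : 0 < ρ - ‖z - c‖ := by linarith
  refine s6u_le_of_eps _ _ (2 * ‖z - c‖ / (ρ - ‖z - c‖)) (by positivity) fun ε hε => ?_
  have h1 := s6u_har_aux Φ c ρ hρ hΦ hpos ε hε z hz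
  have h2 : (Φ z).re - (Φ c).re ≤ ‖Φ c - Φ z‖ := by
    have := Complex.abs_re_le_norm (Φ c - Φ z)
    rw [Complex.sub_re] at this
    have h3 := neg_abs_le ((Φ c).re - (Φ z).re)
    linarith
  have h3 : (Φ c).re + 2 * ((Φ c).re + ε) * ‖z - c‖ / (ρ - ‖z - c‖)
      = (ρ + ‖z - c‖) / (ρ - ‖z - c‖) * (Φ c).re + 2 * ‖z - c‖ / (ρ - ‖z - c‖) * ε := by
    field_simp
    ring
  linarith

/-- gradient bound at the centre. -/
theorem s6u_grad (Φ : ℂ → ℂ) (c : ℂ) (ρ : ℝ) (hρ : 0 < ρ) (hΦ : DifferentiableOn ℂ Φ (ball c ρ))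
    (hpos : ∀ z ∈ ball c ρ, 0 ≤ (Φ z).re) : ‖deriv Φ c‖ ≤ 4 * (Φ c).re / ρ := by
  refine s6u_le_of_eps _ _ (4 / ρ) (by positivity) fun ε hε => ?_
  have hsub : closedBall c (ρ / 2) ⊆ ball c ρ := closedBall_subset_ball (by linarith)
  have hd : DifferentiableOn ℂ (fun z => Φ z - Φ c) (ball c ρ) := hΦ.sub (differentiableOn_const _)
  have h1 := Complex.norm_deriv_le_of_forall_mem_sphere_norm_le (c := c) (R := ρ / 2)
    (C := 2 * ((Φ c).re + ε)) (f := fun z => Φ z - Φ c) (by positivity)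
    (hd.diffContOnCl_ball hsub) ?_
  · rw [deriv_sub_const] at h1
    refine h1.trans (le_of_eq ?_)
    field_simp
    ring
  · intro z hz
    have hzn : ‖z - c‖ = ρ / 2 := by simpa [dist_eq_norm] using hz
    have h2 := s6u_har_aux Φ c ρ hρ hΦ hpos ε hε z (hsub (sphere_subset_closedBall hz))
    rw [norm_sub_rev]
    refine h2.trans (le_of_eq ?_)
    rw [hzn]
    field_simp
    ring

end Claimed.Agent.R269
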