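/-
Row 269, Theorem 6.7, step (E): UPPER BOUND OF `|P|` DEEP BELOW A SCALE.   Blueprint: helper151.   LEAF LF-S6-U-pup (this file; fill IN PLACE).
Black boxes: `Sh.s8i_V_deriv` (S8/Imports.lean: `HasDerivAt Sh.s9V ((Sh.W y - Sh.s9Wm)/120) y` on `D`), `Sh.s8_V_per` (S8/BasicB.lean), `ca_strip_bdd` (Lib/CAThreeLines.lean; see its use in `sb_bdd_f`, ShapeBasic.lean), `sb_mem_D_iff`.

PROOF.  `V = Sh.s9V` is continuous on `D` and `2π`-periodic, so `‖V z‖ ≤ V₀` for `|Im z| ≤ Hr - δb` (`ca_strip_bdd` with `c = Hr - δb < Hr`).   `C₀ = V₀ + δb ‖Wm‖/120` (`max` with `0` if you like).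
Fix a scale, `R ≥ 1` with `R d ≤ δb`, and `x`.  `u τ = V ⟨x,τ⟩` on `[a,b] = [Hr - δb, Hr - R d]`; `u' τ = i V'(⟨x,τ⟩)`, so `‖u' τ‖ = ‖W - Wm‖/120`.
For `τ ∈ [a,b]` the depth `δ = Hr - τ ∈ [R d, δb]`, `D' = δ/d ≥ R ≥ 1`, so `s6uE α₁ P D' = D'^{-α₁}` (`D'^{-P} ≤ D'^{-α₁}` for `D' ≥ 1`) and `M ≤ 3 m D'^{-α₁}`;  `‖W‖ ≤ ‖f‖² + 8 ‖q‖ ≤ 9 M²` (`‖f‖ ≤ M`, `‖q‖ = (sqrt ‖q‖)² ≤ M²`), so
    `‖u' τ‖ ≤ (81 m² ((Hr-τ)/d)^{-2α₁} + ‖Wm‖)/120 =: B' τ`.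
`B τ = 81 m² d/(120 (2α₁-1)) ((Hr-τ)/d)^{1-2α₁} + ‖Wm‖ τ/120` has derivative `B' τ` on `[a,b]` (`Real.hasDerivAt_rpow_const`, `(Hr-τ)/d > 0`).
`image_norm_le_of_norm_deriv_right_le_deriv_boundary` (or `..._boundary'`): `‖u b - u a‖ ≤ B b - B a ≤ 81/(120 (2α₁-1)) m² d R^{1-2α₁} + ‖Wm‖ δb/120 ≤ m² d R^{1-2α₁} + ‖Wm‖ δb/120` (`2α₁ - 1 > 1`; drop the negative term `-B`-part at `a`).
`|P| = |Im V| ≤ ‖V‖ ≤ ‖u a‖ + ‖u b - u a‖`.   `s8pt x (R d) = ⟨x, Hr - R d⟩`.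
-/
import Claimed.Agent.R269.S6.SuperDefs

set_option autoImplicit false

namespace Claimed.Agent.R269

open Complex Filter Topology Set Metric
open scoped ENNReal Real

/-- LEAF E. -/
theorem Shape.s6u_P_upper (Sh : Shape) (hH : Sh.H ≠ ⊤) (α₁ P δb : ℝ) (hα₁ : 1 < α₁) (hP : α₁ < P)
    (hδb : 0 < δb) (hδb' : δb < Sh.Hr) :
    ∃ C₀ : ℝ, 0 ≤ C₀ ∧ ∀ d m : ℝ, Sh.S6USc α₁ P δb d m → ∀ R x : ℝ, 1 ≤ R → R * d ≤ δb →
      |Sh.s9P (Sh.s8pt x (R * d))| ≤ C₀ + m ^ 2 * d * R ^ (1 - 2 * α₁) := by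
  have hcont : ContinuousOn Sh.s9V {z : ℂ | |z.im| < Sh.Hr} := by
    intro z hz
    exact (Sh.s8i_V_deriv z ((Sh.sb_mem_D_iff hH z).2 hz)).continuousAt.continuousWithinAt
  have hper : ∀ z : ℂ, |z.im| < Sh.Hr → Sh.s9V (z + 2 * π) = Sh.s9V z :=
    fun z hz => Sh.s8_V_per z ((Sh.sb_mem_D_iff hH z).2 hz)
  obtain ⟨V₀, hV₀⟩ := ca_strip_bdd hcont hper (c := Sh.Hr - δb) (by linarith)
  have hV₀0 : 0 ≤ V₀ := (norm_nonneg _).trans (hV₀ 0 (by simp only [Complex.zero_im, abs_zero]; linarith))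
  refine ⟨V₀ + δb * ‖Sh.s9Wm‖ / 120, by positivity, ?_⟩
  intro d m hsc R x hR hRd
  have hd := hsc.d_pos
  have hm := hsc.m_pos
  have hRd0 : 0 < R * d := by positivity
  set a : ℝ := Sh.Hr - δb with ha
  set b : ℝ := Sh.Hr - R * d with hb
  have hab : a ≤ b := by rw [ha, hb]; linarith
  have hmemD : ∀ τ ∈ Icc a b, (⟨x, τ⟩ : ℂ) ∈ Sh.D := by
    intro τ hτ
    rw [Sh.sb_mem_D_iff hH]
    show |τ| < Sh.Hr
    have h1 := hτ.1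
    have h2 := hτ.2
    rw [abs_lt]
    constructor <;> linarith
  set u : ℝ → ℂ := fun τ => Sh.s9V ⟨x, τ⟩ with hudef
  have hline : ∀ τ : ℝ, HasDerivAt (fun t : ℝ => (⟨x, t⟩ : ℂ)) I τ := by
    intro τ
    have h1 : HasDerivAt (fun t : ℝ => (t : ℂ)) 1 τ := Complex.ofRealCLM.hasDerivAt
    have h2 := (h1.mul_const I).const_add (x : ℂ)
    rw [one_mul] at h2
    have : (fun t : ℝ => (⟨x, t⟩ : ℂ)) = fun t : ℝ => (x : ℂ) + (t : ℂ) * I := by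
      funext t; apply Complex.ext <;> simp
    rw [this]; exact h2
  have hu : ∀ τ ∈ Icc a b, HasDerivAt u ((Sh.W ⟨x, τ⟩ - Sh.s9Wm) / 120 * I) τ := fun τ hτ =>
    (Sh.s8i_V_deriv _ (hmemD τ hτ)).comp τ (hline τ)
  have hDpos : ∀ τ ∈ Icc a b, 0 < (Sh.Hr - τ) / d := by
    intro τ hτ
    have h2 := hτ.2
    exact div_pos (by linarith) hd
  have hW : ∀ τ ∈ Icc a b, ‖Sh.W ⟨x, τ⟩‖ ≤ 81 * m ^ 2 * ((Sh.Hr - τ) / d) ^ (-(2 * α₁)) := by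
    intro τ hτ
    set s : ℂ := ⟨x, τ⟩ with hs
    have hdep : Sh.s9dep s = Sh.Hr - τ := rfl
    have hdep1 : R * d ≤ Sh.Hr - τ := by have := hτ.2; linarith
    have hdep2 : Sh.Hr - τ ≤ δb := by have := hτ.1; linarith
    have hdep0 : 0 < Sh.Hr - τ := lt_of_lt_of_le hRd0 hdep1
    have hD'0 := hDpos τ hτ
    set D' : ℝ := (Sh.Hr - τ) / d with hD'
    have hD'1 : 1 ≤ D' := by rw [hD', le_div_iff₀ hd]; nlinarith
    have henv := hsc.env s (by rw [hdep]; exact hdep0) (by rw [hdep]; exact hdep2)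
    rw [hdep] at henv
    have hE : s6uE α₁ P D' = D' ^ (-α₁) :=
      max_eq_left (Real.rpow_le_rpow_of_exponent_le hD'1 (by linarith))
    have hM : Sh.M s ≤ 3 * m * D' ^ (-α₁) := by rw [← hE]; exact henv
    have hM0 : 0 ≤ Sh.M s := (norm_nonneg _).trans (Sh.sb_norm_f_le_M s)
    have hf : ‖Sh.f s‖ ≤ Sh.M s := le_max_left _ _
    have hq : ‖Sh.q s‖ ≤ Sh.M s ^ 2 := by
      have : Real.sqrt ‖Sh.q s‖ ≤ Sh.M s := le_max_right _ _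
      calc ‖Sh.q s‖ = (Real.sqrt ‖Sh.q s‖) ^ 2 := (Real.sq_sqrt (norm_nonneg _)).symm
        _ ≤ _ := pow_le_pow_left₀ (Real.sqrt_nonneg _) this 2
    have h9 : ‖Sh.W s‖ ≤ 9 * Sh.M s ^ 2 := by
      unfold Shape.W
      calc ‖Sh.f s ^ 2 + 8 * Sh.q s‖ ≤ ‖Sh.f s‖ ^ 2 + 8 * ‖Sh.q s‖ := by
            refine (norm_add_le _ _).trans ?_
            rw [norm_pow, norm_mul]; simp
        _ ≤ Sh.M s ^ 2 + 8 * Sh.M s ^ 2 := by gcongr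
        _ = _ := by ring
    have hsq : (D' ^ (-α₁)) ^ 2 = D' ^ (-(2 * α₁)) := by
      rw [← Real.rpow_natCast, ← Real.rpow_mul hD'0.le]; congr 1; push_cast; ring
    calc ‖Sh.W s‖ ≤ 9 * Sh.M s ^ 2 := h9
      _ ≤ 9 * (3 * m * D' ^ (-α₁)) ^ 2 := by gcongr
      _ = _ := by rw [mul_pow, hsq]; ring
  have h2α : 0 < 2 * α₁ - 1 := by linarith
  set c₀ : ℝ := 81 * m ^ 2 * d / (120 * (2 * α₁ - 1)) with hc₀
  set B : ℝ → ℝ := fun τ => c₀ * ((Sh.Hr - τ) / d) ^ (1 - 2 * α₁) + ‖Sh.s9Wm‖ * τ / 120 with hBdef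
  set B' : ℝ → ℝ := fun τ => (81 * m ^ 2 * ((Sh.Hr - τ) / d) ^ (-(2 * α₁)) + ‖Sh.s9Wm‖) / 120 with hB'def
  have hB : ∀ τ ∈ Icc a b, HasDerivAt B (B' τ) τ := by
    intro τ hτ
    have hpos := hDpos τ hτ
    have h1 : HasDerivAt (fun t : ℝ => (Sh.Hr - t) / d) (-1 / d) τ :=
      ((hasDerivAt_id τ).const_sub Sh.Hr).div_const d
    have h2 := h1.rpow_const (p := 1 - 2 * α₁) (Or.inl hpos.ne')
    have h3 := (h2.const_mul c₀).add (((hasDerivAt_id τ).const_mul ‖Sh.s9Wm‖).div_const 120)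
    have he : c₀ * (-1 / d * (1 - 2 * α₁) * ((Sh.Hr - τ) / d) ^ (1 - 2 * α₁ - 1)) + ‖Sh.s9Wm‖ * 1 / 120
        = B' τ := by
      have : (1 - 2 * α₁ - 1) = -(2 * α₁) := by ring
      rw [this]
      simp only [hB'def, hc₀]
      field_simp
      ring
    rw [he] at h3
    exact h3
  have hmain := image_norm_le_of_norm_deriv_right_le_deriv_boundary' (f := fun τ => u τ - u a)
    (f' := fun τ => (Sh.W ⟨x, τ⟩ - Sh.s9Wm) / 120 * I) (a := a) (b := b)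
    (B := fun τ => B τ - B a) (B' := B')
    (fun τ hτ => ((hu τ hτ).sub_const _).continuousAt.continuousWithinAt)
    (fun τ hτ => ((hu τ ⟨hτ.1, hτ.2.le⟩).sub_const _).hasDerivWithinAt)
    (by simp)
    (fun τ hτ => ((hB τ hτ).sub_const _).continuousAt.continuousWithinAt)
    (fun τ hτ => ((hB τ ⟨hτ.1, hτ.2.le⟩).sub_const _).hasDerivWithinAt)
    (fun τ hτ => by
      have h1 := hW τ ⟨hτ.1, hτ.2.le⟩
      rw [norm_mul, Complex.norm_I, mul_one, norm_div]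
      simp only [hB'def, Complex.norm_ofNat]
      have h2 := norm_sub_le (Sh.W ⟨x, τ⟩) Sh.s9Wm
      gcongr
      linarith)
    (right_mem_Icc.2 hab)
  have hRb : (Sh.Hr - b) / d = R := by
    rw [hb]; field_simp; ring
  have hc₀0 : 0 ≤ c₀ := by positivity
  have hc₀le : c₀ ≤ m ^ 2 * d := by
    rw [hc₀, div_le_iff₀ (by positivity)]
    have : 0 < m ^ 2 * d := by positivity
    nlinarith
  have hRpow : 0 ≤ R ^ (1 - 2 * α₁) := by positivity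
  have hBdiff : B b - B a ≤ m ^ 2 * d * R ^ (1 - 2 * α₁) + δb * ‖Sh.s9Wm‖ / 120 := by
    simp only [hBdef]
    rw [hRb]
    have h1 : 0 ≤ c₀ * ((Sh.Hr - a) / d) ^ (1 - 2 * α₁) := by
      have : 0 ≤ (Sh.Hr - a) / d := by rw [ha]; apply div_nonneg _ hd.le; linarith
      positivity
    have h2 : c₀ * R ^ (1 - 2 * α₁) ≤ m ^ 2 * d * R ^ (1 - 2 * α₁) :=
      mul_le_mul_of_nonneg_right hc₀le hRpow
    have h3 : ‖Sh.s9Wm‖ * (b - a) ≤ ‖Sh.s9Wm‖ * δb :=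
      mul_le_mul_of_nonneg_left (by rw [ha, hb]; linarith) (norm_nonneg _)
    linarith
  have hua : ‖u a‖ ≤ V₀ := by
    apply hV₀
    show |a| ≤ Sh.Hr - δb
    rw [abs_of_nonneg (by rw [ha]; linarith)]
  have hPle : |Sh.s9P (Sh.s8pt x (R * d))| ≤ ‖u b‖ := by
    show |-(Sh.s9V ⟨x, Sh.Hr - R * d⟩).im| ≤ _
    rw [abs_neg]
    exact Complex.abs_im_le_norm _
  have htri : ‖u b‖ ≤ ‖u a‖ + ‖u b - u a‖ := by
    have := norm_add_le (u a) (u b - u a)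
    simpa using this
  linarith

end Claimed.Agent.R269
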