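/-
Row 269, Theorem 6.7: GROWTH OF A SOLUTION OF `y'' = q y` ALONG A SEGMENT.   Blueprint: helper151.   LEAF LF-S6-U-ode (this file; fill IN PLACE).   HOST-FREE, Mathlib only.

PROOF.  `e = w - z`, `γ τ = z + τ e` (`τ ∈ [0,1]`, `γ τ ∈ segment ℝ z w`), `X τ = (κ y (γ τ), y' (γ τ)) : ℂ × ℂ` (sup norm).  `X` has derivative `X' τ = (κ e y' (γ τ), e q (γ τ) y (γ τ))` (chain rule, `HasDerivAt.scomp`/`HasDerivAt.comp_ofReal`…,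
within `[0,1]` it is enough to have `HasDerivWithinAt … (Ici τ)`), and `‖X' τ‖ ≤ κ ‖e‖ ‖X τ‖`:  `‖κ e y'‖ ≤ κ ‖e‖ ‖X‖`,  `‖e q y‖ ≤ ‖e‖ κ² ‖y‖ = κ ‖e‖ ‖κ y‖ ≤ κ ‖e‖ ‖X‖`.
Grönwall (`norm_le_gronwallBound_of_norm_deriv_right_le` with `K = κ ‖e‖`, `ε = 0`, `δ = ‖X 0‖`; `gronwallBound_ε0`): `‖X 1‖ ≤ ‖X 0‖ e^{κ ‖e‖}`.   `X 0 = (0, y' z)`, `κ ‖y w‖ ≤ ‖X 1‖`.
-/
import Mathlib

set_option autoImplicit false

namespace Claimed.Agent.R269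

open Filter Topology Set

/-- LEAF: Grönwall bound for `y'' = q y`, `y z = 0`, `|q| ≤ κ²` on the segment. -/
theorem s6u_ode_bound (q y y' : ℂ → ℂ) (z w : ℂ) (κ : ℝ) (hκ : 0 < κ)
    (hy : ∀ v ∈ segment ℝ z w, HasDerivAt y (y' v) v)
    (hy' : ∀ v ∈ segment ℝ z w, HasDerivAt y' (q v * y v) v)
    (hq : ∀ v ∈ segment ℝ z w, ‖q v‖ ≤ κ ^ 2) (h0 : y z = 0) :
    ‖y w‖ ≤ ‖y' z‖ * Real.exp (κ * ‖w - z‖) / κ := by
  set e : ℂ := w - z with he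
  set γ : ℝ → ℂ := fun τ => z + (τ : ℂ) * e with hγ
  have hγseg : ∀ τ ∈ Icc (0 : ℝ) 1, γ τ ∈ segment ℝ z w := by
    intro τ hτ
    rw [segment_eq_image']
    exact ⟨τ, hτ, by simp [γ, e]⟩
  have hγd : ∀ τ : ℝ, HasDerivAt γ e τ := by
    intro τ
    have h1 : HasDerivAt (fun t : ℝ => (t : ℂ)) 1 τ := Complex.ofRealCLM.hasDerivAt (x := τ)
    have h2 := (h1.mul_const e).const_add z
    rw [one_mul] at h2
    exact h2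
  set X : ℝ → ℂ × ℂ := fun τ => ((κ : ℂ) * y (γ τ), y' (γ τ)) with hXdef
  set X' : ℝ → ℂ × ℂ := fun τ => ((κ : ℂ) * (y' (γ τ) * e), (q (γ τ) * y (γ τ)) * e) with hX'def
  have hX : ∀ τ ∈ Icc (0 : ℝ) 1, HasDerivAt X (X' τ) τ := by
    intro τ hτ
    have h1 : HasDerivAt (fun t => y (γ t)) (y' (γ τ) * e) τ :=
      (hy _ (hγseg τ hτ)).comp τ (hγd τ)
    have h2 : HasDerivAt (fun t => y' (γ t)) ((q (γ τ) * y (γ τ)) * e) τ :=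
      (hy' _ (hγseg τ hτ)).comp τ (hγd τ)
    exact (h1.const_mul (κ : ℂ)).prodMk h2
  have hbound : ∀ τ ∈ Ico (0 : ℝ) 1, ‖X' τ‖ ≤ (κ * ‖e‖) * ‖X τ‖ + 0 := by
    intro τ hτ
    have hτ' : τ ∈ Icc (0 : ℝ) 1 := ⟨hτ.1, hτ.2.le⟩
    have hK : 0 ≤ κ * ‖e‖ := by positivity
    rw [add_zero]
    have hX1 : κ * ‖y (γ τ)‖ ≤ ‖X τ‖ := by
      have : ‖(κ : ℂ) * y (γ τ)‖ ≤ ‖X τ‖ := le_max_left _ _
      rwa [norm_mul, Complex.norm_real, Real.norm_of_nonneg hκ.le] at this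
    have hX2 : ‖y' (γ τ)‖ ≤ ‖X τ‖ := le_max_right _ _
    refine max_le ?_ ?_
    · simp only [hX'def, norm_mul, Complex.norm_real, Real.norm_of_nonneg hκ.le]
      calc κ * (‖y' (γ τ)‖ * ‖e‖) = (κ * ‖e‖) * ‖y' (γ τ)‖ := by ring
        _ ≤ _ := mul_le_mul_of_nonneg_left hX2 hK
    · simp only [hX'def, norm_mul]
      calc ‖q (γ τ)‖ * ‖y (γ τ)‖ * ‖e‖ ≤ κ ^ 2 * ‖y (γ τ)‖ * ‖e‖ := by
            gcongr
            exact hq _ (hγseg τ hτ')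
        _ = (κ * ‖e‖) * (κ * ‖y (γ τ)‖) := by ring
        _ ≤ _ := mul_le_mul_of_nonneg_left hX1 hK
  have hG := norm_le_gronwallBound_of_norm_deriv_right_le (f := X) (f' := X') (δ := ‖X 0‖)
    (K := κ * ‖e‖) (ε := 0) (a := 0) (b := 1)
    (fun τ hτ => (hX τ hτ).continuousAt.continuousWithinAt)
    (fun τ hτ => (hX τ ⟨hτ.1, hτ.2.le⟩).hasDerivWithinAt) le_rfl hbound 1 (by simp)
  rw [gronwallBound_ε0, sub_zero, mul_one] at hG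
  have hγ0 : γ 0 = z := by simp [γ]
  have hγ1 : γ 1 = w := by simp [γ, e]
  have hX0 : ‖X 0‖ = ‖y' z‖ := by
    simp only [hXdef, hγ0, h0, mul_zero, Prod.norm_def, norm_zero]
    exact max_eq_right (norm_nonneg _)
  have hX1 : κ * ‖y w‖ ≤ ‖X 1‖ := by
    have : ‖(κ : ℂ) * y (γ 1)‖ ≤ ‖X 1‖ := le_max_left _ _
    rwa [norm_mul, Complex.norm_real, Real.norm_of_nonneg hκ.le, hγ1] at this
  rw [le_div_iff₀ hκ, ← hX0]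
  linarith

end Claimed.Agent.R269
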