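/-
Row 269, Theorem 6.7, step (B3): THE PERIMETER CHAIN.   Blueprint: helper151.   LEAF LF-S6-U-per (this file; fill IN PLACE).
(Replaces the contour integral of `f⁻²` of the paper: no contour, no residues, no zero counting.)
Black boxes: `s6u_ode_bound` (SuperOde.lean); `Sh.ch_isFund` (fields `c2_deriv`, `c2'_deriv`: `chc2' = ` derivative of `chc2`, `chc2'' = q chc2` on `D`), `Sh.ch_f_c2` (Wronskian `f chc2' - f' chc2 = f 0`) of Lib/ChordHost.lean;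
`ShapeBasic.lean`: `sb_f_per`, `sb_f_at`, `sb_f_ode`, `sb_f'_diff`, `sb_mem_D_iff`.

PROOF.  For `z ∈ D` with `f z ≠ 0` put `G z = chc2 z / f z`.
(1) STEP.  Let `z, z'` have `lo ≤ Im ≤ hi`, `μ ≤ ‖f z‖`, `μ ≤ ‖f z'‖`.  `y v = chc2 v * f z - chc2 z * f v`, `y₁ v = chc2' v * f z - chc2 z * deriv f v`: on `D` `y' = y₁`, `y₁' = q y` (`sb_f_ode`: `deriv (deriv f) = q f`), `y z = 0`,
    `y₁ z = f 0` (`ch_f_c2`, up to `ring`).  The segment `[z,z']` lies in the band `lo ≤ Im ≤ hi` (convexity: `Im` of a point of the segment is a convex combination), hence in `D`, and `‖q‖ ≤ κ²` on it.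
    `s6u_ode_bound`: `‖y z'‖ ≤ ‖f 0‖ e^{κ ‖z'-z‖}/κ`.   `G z' - G z = y z' / (f z f z')` (`field_simp`), so `‖G z' - G z‖ ≤ ‖f 0‖ e^{κ ‖z'-z‖}/(κ μ²)`.
(2) CHAIN.  `N = ⌈2π/σ⌉₊ ≥ 1`, so `(N-1) σ < 2π ≤ N σ` and `N ≤ 2π/σ + 1`.  Choose (`hgood`, `Classical.choose`) `ζ x` for every real `x`; `z_j = ζ (j σ)` for `j < N`, `z_N = z_0 + 2π`
    (`Im z_N = Im z_0`, `f z_N = f z_0` by `sb_f_per`).   `|Re z_{j+1} - Re z_j| ≤ 2Λ + σ` (for `j = N-1`: `Re z_N - 2π = Re z_0 - 0`, `|2π - (N-1) σ| ≤ σ`), `|Im z_{j+1} - Im z_j| ≤ hi - lo`, so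
    `‖z_{j+1} - z_j‖ ≤ 2Λ + σ + (hi - lo)` (`Complex.norm_le_abs_re_add_abs_im`).
(3) `G z_N - G z_0 = a` (`ha`, `sb_f_per`, `field_simp`).  Telescoping (`Finset.sum_range_sub`) and the triangle inequality: `|a| ≤ N ‖f 0‖ e^{κ ℓ}/(κ μ²)`, `ℓ = 2Λ + σ + (hi - lo)`.
-/
import Claimed.Agent.R269.S6.SuperDefs
import Claimed.Agent.R269.S6.SuperOde

set_option autoImplicit false

namespace Claimed.Agent.R269

open Complex Filter Topology Set Metric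
open scoped ENNReal Real

/-- one step of the chain. -/
theorem Shape.s6u_per_step (Sh : Shape) (hH : Sh.H ≠ ⊤)
    (lo hi κ μ : ℝ) (hlo : -Sh.Hr < lo) (hhi : hi < Sh.Hr) (hκ : 0 < κ) (hμ : 0 < μ)
    (hq : ∀ s : ℂ, lo ≤ s.im → s.im ≤ hi → ‖Sh.q s‖ ≤ κ ^ 2)
    (z z' : ℂ) (hz1 : lo ≤ z.im) (hz2 : z.im ≤ hi) (hz1' : lo ≤ z'.im) (hz2' : z'.im ≤ hi)
    (hf : μ ≤ ‖Sh.f z‖) (hf' : μ ≤ ‖Sh.f z'‖) :
    ‖Sh.chc2 z' / Sh.f z' - Sh.chc2 z / Sh.f z‖ ≤ ‖Sh.f 0‖ * Real.exp (κ * ‖z' - z‖) / κ / μ ^ 2 := by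
  have hband : ∀ v ∈ segment ℝ z z', lo ≤ v.im ∧ v.im ≤ hi := by
    have hconv : Convex ℝ ({v : ℂ | lo ≤ v.im} ∩ {v : ℂ | v.im ≤ hi}) :=
      (convex_halfSpace_im_ge lo).inter (convex_halfSpace_im_le hi)
    intro v hv
    exact hconv.segment_subset ⟨hz1, hz2⟩ ⟨hz1', hz2'⟩ hv
  have hD : ∀ v : ℂ, lo ≤ v.im → v.im ≤ hi → v ∈ Sh.D := by
    intro v h1 h2
    rw [Sh.sb_mem_D_iff hH, abs_lt]; constructor <;> linarith
  set y : ℂ → ℂ := fun v => Sh.chc2 v * Sh.f z - Sh.chc2 z * Sh.f v with hy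
  set y₁ : ℂ → ℂ := fun v => Sh.chc2' v * Sh.f z - Sh.chc2 z * deriv Sh.f v with hy₁
  have hyd : ∀ v ∈ segment ℝ z z', HasDerivAt y (y₁ v) v := by
    intro v hv
    have hvD := hD v (hband v hv).1 (hband v hv).2
    exact ((Sh.ch_isFund.c2_deriv v hvD).mul_const _).sub ((Sh.sb_f_at hvD).hasDerivAt.const_mul _)
  have hyd' : ∀ v ∈ segment ℝ z z', HasDerivAt y₁ (Sh.q v * y v) v := by
    intro v hv
    have hvD := hD v (hband v hv).1 (hband v hv).2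
    have h1 : HasDerivAt (deriv Sh.f) (Sh.q v * Sh.f v) v := by
      rw [← Sh.sb_f_ode v hvD]
      exact ((Sh.sb_f'_diff v hvD).differentiableAt (Sh.sb_D_mem_nhds hvD)).hasDerivAt
    have := ((Sh.ch_isFund.c2'_deriv v hvD).mul_const (Sh.f z)).sub (h1.const_mul (Sh.chc2 z))
    refine this.congr_deriv ?_
    simp only [hy]; ring
  have hb := s6u_ode_bound Sh.q y y₁ z z' κ hκ hyd hyd' (fun v hv => hq v (hband v hv).1 (hband v hv).2)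
    (by simp only [hy]; ring)
  have hy₁z : y₁ z = Sh.f 0 := by
    rw [← Sh.ch_f_c2 z (hD z hz1 hz2)]; simp only [hy₁]; ring
  rw [hy₁z] at hb
  have hfz : Sh.f z ≠ 0 := norm_pos_iff.1 (hμ.trans_le hf)
  have hfz' : Sh.f z' ≠ 0 := norm_pos_iff.1 (hμ.trans_le hf')
  have e : Sh.chc2 z' / Sh.f z' - Sh.chc2 z / Sh.f z = y z' / (Sh.f z * Sh.f z') := by
    simp only [hy]; field_simp
  rw [e, norm_div, norm_mul]
  have hμ2 : μ ^ 2 ≤ ‖Sh.f z‖ * ‖Sh.f z'‖ := by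
    rw [sq]; exact mul_le_mul hf hf' hμ.le (hμ.le.trans hf)
  calc ‖y z'‖ / (‖Sh.f z‖ * ‖Sh.f z'‖) ≤ ‖y z'‖ / μ ^ 2 := by
        apply div_le_div_of_nonneg_left (norm_nonneg _) (by positivity) hμ2
    _ ≤ ‖Sh.f 0‖ * Real.exp (κ * ‖z' - z‖) / κ / μ ^ 2 := by gcongr

/-- LEAF B3: if every real `x` has a point `z` of the band within horizontal distance `Λ` with `|f z| ≥ μ`, and `|q| ≤ κ²` on the band, then the monodromy constant `a` is `O(μ⁻²)`. -/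
theorem Shape.s6u_perimeter (Sh : Shape) (hH : Sh.H ≠ ⊤) (a : ℝ)
    (ha : ∀ s ∈ Sh.D, Sh.chc2 (s + 2 * π) = Sh.chc2 s + a * Sh.f s)
    (lo hi κ μ Λ σ : ℝ) (hlo : -Sh.Hr < lo) (hlh : lo ≤ hi) (hhi : hi < Sh.Hr) (hκ : 0 < κ) (hμ : 0 < μ)
    (hΛ : 0 ≤ Λ) (hσ : 0 < σ)
    (hq : ∀ s : ℂ, lo ≤ s.im → s.im ≤ hi → ‖Sh.q s‖ ≤ κ ^ 2)
    (hgood : ∀ x : ℝ, ∃ z : ℂ, lo ≤ z.im ∧ z.im ≤ hi ∧ |z.re - x| ≤ Λ ∧ μ ≤ ‖Sh.f z‖) :
    |a| * μ ^ 2 ≤ (2 * π / σ + 1) * ‖Sh.f 0‖ * Real.exp (κ * (2 * Λ + σ + (hi - lo))) / κ := by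
  choose ζ hζ1 hζ2 hζ3 hζ4 using hgood
  have hD : ∀ v : ℂ, lo ≤ v.im → v.im ≤ hi → v ∈ Sh.D := by
    intro v h1 h2
    rw [Sh.sb_mem_D_iff hH, abs_lt]; constructor <;> linarith
  set N : ℕ := ⌈2 * π / σ⌉₊ with hN
  have hpos : 0 < 2 * π / σ := by positivity
  have hN0 : 0 < N := Nat.ceil_pos.2 hpos
  have hN1 : 2 * π / σ ≤ N := Nat.le_ceil _
  have hN2 : (N : ℝ) < 2 * π / σ + 1 := Nat.ceil_lt_add_one hpos.le
  set Z : ℕ → ℂ := fun j => if j < N then ζ (j * σ) else ζ 0 + 2 * π with hZ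
  set X : ℕ → ℝ := fun j => if j < N then j * σ else 2 * π with hX
  have hZim : ∀ j, lo ≤ (Z j).im ∧ (Z j).im ≤ hi := by
    intro j
    simp only [hZ]
    split_ifs
    · exact ⟨hζ1 _, hζ2 _⟩
    · have : (ζ 0 + 2 * π : ℂ).im = (ζ 0).im := by simp
      rw [this]; exact ⟨hζ1 _, hζ2 _⟩
  have hZf : ∀ j, μ ≤ ‖Sh.f (Z j)‖ := by
    intro j
    simp only [hZ]
    split_ifs
    · exact hζ4 _
    · rw [Sh.sb_f_per _ (hD _ (hζ1 0) (hζ2 0))]; exact hζ4 _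
  have hZre : ∀ j, |(Z j).re - X j| ≤ Λ := by
    intro j
    simp only [hZ, hX]
    split_ifs
    · exact hζ3 _
    · have : (ζ 0 + 2 * π : ℂ).re - 2 * π = (ζ 0).re - 0 := by simp
      rw [this]; exact hζ3 0
  have hXstep : ∀ j < N, |X (j + 1) - X j| ≤ σ := by
    intro j hj
    simp only [hX, if_pos hj]
    split_ifs with h
    · have : ((j + 1 : ℕ) : ℝ) * σ - j * σ = σ := by push_cast; ring
      rw [this, abs_of_pos hσ]
    · have hjN : j + 1 = N := by omega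
      have hjN' : (j : ℝ) + 1 = N := by exact_mod_cast hjN
      have h1 : 2 * π ≤ N * σ := by rwa [div_le_iff₀ hσ] at hN1
      have h2 : (N : ℝ) * σ < 2 * π + σ := by
        have := mul_lt_mul_of_pos_right hN2 hσ
        have e : (2 * π / σ + 1) * σ = 2 * π + σ := by field_simp
        linarith
      rw [abs_le]
      constructor <;> nlinarith
  set ℓ : ℝ := 2 * Λ + σ + (hi - lo) with hℓ
  have hdist : ∀ j < N, ‖Z (j + 1) - Z j‖ ≤ ℓ := by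
    intro j hj
    have h1 : |(Z (j + 1) - Z j).re| ≤ 2 * Λ + σ := by
      have e : (Z (j + 1) - Z j).re = ((Z (j + 1)).re - X (j + 1)) - ((Z j).re - X j) + (X (j + 1) - X j) := by
        simp only [Complex.sub_re]; ring
      rw [e]
      calc |((Z (j + 1)).re - X (j + 1)) - ((Z j).re - X j) + (X (j + 1) - X j)|
          ≤ |((Z (j + 1)).re - X (j + 1)) - ((Z j).re - X j)| + |X (j + 1) - X j| := abs_add_le _ _
        _ ≤ (|(Z (j + 1)).re - X (j + 1)| + |(Z j).re - X j|) + |X (j + 1) - X j| := by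
            gcongr; exact abs_sub _ _
        _ ≤ 2 * Λ + σ := by linarith [hZre (j + 1), hZre j, hXstep j hj]
    have h2 : |(Z (j + 1) - Z j).im| ≤ hi - lo := by
      simp only [Complex.sub_im]
      rw [abs_le]
      constructor <;> linarith [(hZim (j + 1)).1, (hZim (j + 1)).2, (hZim j).1, (hZim j).2]
    calc ‖Z (j + 1) - Z j‖ ≤ |(Z (j + 1) - Z j).re| + |(Z (j + 1) - Z j).im| :=
          Complex.norm_le_abs_re_add_abs_im _
      _ ≤ ℓ := by rw [hℓ]; linarith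
  set G : ℕ → ℂ := fun j => Sh.chc2 (Z j) / Sh.f (Z j) with hG
  set E : ℝ := ‖Sh.f 0‖ * Real.exp (κ * ℓ) / κ / μ ^ 2 with hE
  have hstep : ∀ j < N, ‖G (j + 1) - G j‖ ≤ E := by
    intro j hj
    have := Sh.s6u_per_step hH lo hi κ μ hlo hhi hκ hμ hq (Z j) (Z (j + 1)) (hZim j).1 (hZim j).2
      (hZim (j + 1)).1 (hZim (j + 1)).2 (hZf j) (hZf (j + 1))
    refine this.trans ?_
    rw [hE]
    have := hdist j hj
    gcongr
  have htel : G N - G 0 = a := by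
    have hZ0 : Z 0 = ζ 0 := by simp only [hZ, if_pos hN0]; simp
    have hZN : Z N = ζ 0 + 2 * π := by simp only [hZ, if_neg (lt_irrefl N)]
    have hD0 := hD _ (hζ1 0) (hζ2 0)
    have hf0 : Sh.f (ζ 0) ≠ 0 := norm_pos_iff.1 (hμ.trans_le (hζ4 0))
    simp only [hG, hZ0, hZN]
    rw [ha _ hD0, Sh.sb_f_per _ hD0]
    field_simp
    ring
  have hsum : ‖G N - G 0‖ ≤ N * E := by
    rw [← Finset.sum_range_sub]
    calc ‖∑ j ∈ Finset.range N, (G (j + 1) - G j)‖ ≤ ∑ j ∈ Finset.range N, ‖G (j + 1) - G j‖ :=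
          norm_sum_le _ _
      _ ≤ ∑ _j ∈ Finset.range N, E := Finset.sum_le_sum fun j hj => hstep j (Finset.mem_range.1 hj)
      _ = N * E := by simp
  rw [htel, Complex.norm_real, Real.norm_eq_abs] at hsum
  have hE0 : 0 ≤ E := by rw [hE]; positivity
  have hμ2 : 0 < μ ^ 2 := by positivity
  calc |a| * μ ^ 2 ≤ (N * E) * μ ^ 2 := by gcongr
    _ ≤ ((2 * π / σ + 1) * E) * μ ^ 2 := by gcongr
    _ = (2 * π / σ + 1) * ‖Sh.f 0‖ * Real.exp (κ * ℓ) / κ := by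
        rw [hE]; field_simp

end Claimed.Agent.R269
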