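/-
Row 269, Theorem 6.7, step (B1): ONE POINT WHERE `f` IS NOT TINY BOUNDS `q` ON A WHOLE CONE PIECE.   Blueprint: helper151.   LEAF LF-S6-U-qf (this file; fill IN PLACE).
Black boxes: `s8i_log_deficit` (S8/Imports.lean), `s8_av_chain`, `s8av` (S8/LibLog.lean), `ShapeBasic.lean` (`sb_f_diff`, `sb_f_ode`, `sb_mem_D_iff`, `sb_f_frequently_ne`/`sb_f_not_eventually_zero`, `sb_norm_f_le_M`).

PROOF.  Let `C₁` be the constant of `s8i_log_deficit`.  Put `E₀ = exp (28 (2 log (R₀/c₂) + A + 1))`, `c₃ = 1 + log 3 + P log (4/c₂)`, `C = (8 C₁/c₂) max 1 E₀`.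
Given a scale `(d,m)` with `3 R₀ d ≤ δb`, and `z₀, z₁`:  `Ht = Hr`, `δmin = c₂ d/4`, `ylow = Hr - 3 R₀ d`, `D = R₀ d`, `K = log (3 m (c₂/4)^{-P})`.
* the band `Bd = {ylow < Im z < Hr - δmin}` lies in `D` (`0 < Hr - δb ≤ ylow`), `f` is holomorphic on it.  For `z ∈ Bd`: depth `δ ∈ (c₂ d/4, 3 R₀ d) ⊆ (0, δb]`, so by `S6USc.env`, with `D' = δ/d > c₂/4`:
  `‖f z‖ ≤ M z ≤ 3 m max(D'^{-α₁}, D'^{-P}) ≤ 3 m (c₂/4)^{-P} = e^K`  (`Real.rpow_le_rpow_of_nonpos`/`Real.rpow_le_rpow_of_exponent_nonpos`: `D'^{-P} ≤ (c₂/4)^{-P}`, `D'^{-α₁} ≤ (c₂/4)^{-α₁} ≤ (c₂/4)^{-P}` since `c₂/4 < 1`, `α₁ < P`).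
* `s8_av_chain f K Hr ylow δmin … z₀ z₁ D A`: `δmin < (3/8) c₂ d ≤ (3/8) dep z_i`; `ylow < Hr - 2D`; `|Re z₀ - Re z₁| ≤ A d ≤ A D`.  Since `D/dep z_i ≤ R₀/c₂`:
  `s8av f K z₁ (dep z₁/8) ≤ ofReal E₀ * ofReal (K - log ‖f z₀‖)`.
* `s8i_log_deficit` on `ball z₁ r`, `r = dep z₁/8` (the ball lies in `Bd`: depths in `(7/8, 9/8) dep z₁`; `f` is not identically `0` on it), at the centre `z = z₁`:
  `ofReal (r sqrt ‖q z₁‖) ≤ ofReal C₁ * (1 + s8av f K z₁ r)` (unfold `s8av`).   All quantities are finite: pass to reals (`ENNReal.ofReal_le_ofReal_iff`, `← ENNReal.ofReal_mul`, `← ENNReal.ofReal_add`, `ENNReal.ofReal_one`):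
  `r sqrt ‖q z₁‖ ≤ C₁ (1 + E₀ X)`, `X = K - log ‖f z₀‖ ≥ 0` (`‖f z₀‖ ≤ e^K`: `z₀ ∈ Bd`).
* `K - log ‖f z₀‖ = log 3 + P log (4/c₂) + log (m/‖f z₀‖)` (`Real.log_mul`, `Real.log_rpow`, `Real.log_div`), `r ≥ c₂ d/8`, `1 + E₀ X ≤ max 1 E₀ (1 + X)`.
-/
import Claimed.Agent.R269.S6.SuperDefs

set_option autoImplicit false

namespace Claimed.Agent.R269

open Complex Filter Topology Set Metric
open scoped ENNReal Real

/-- LEAF B1. -/
theorem Shape.s6u_q_of_f (Sh : Shape) (hH : Sh.H ≠ ⊤) (α₁ P δb c₂ R₀ A : ℝ) (hα₁ : 0 < α₁) (hP : α₁ < P)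
    (hδb : 0 < δb) (hδb' : δb < Sh.Hr) (hc₂ : 0 < c₂) (hc₂' : c₂ ≤ 1) (hR₀ : 1 ≤ R₀) (hA : 0 ≤ A) :
    ∃ C c₃ : ℝ, 0 < C ∧ 0 < c₃ ∧ ∀ d m : ℝ, Sh.S6USc α₁ P δb d m → 3 * R₀ * d ≤ δb →
      ∀ z₀ z₁ : ℂ, c₂ * d ≤ Sh.s9dep z₀ → Sh.s9dep z₀ ≤ R₀ * d → c₂ * d ≤ Sh.s9dep z₁ →
        Sh.s9dep z₁ ≤ R₀ * d → |z₀.re - z₁.re| ≤ A * d → Sh.f z₀ ≠ 0 →
        d * Real.sqrt ‖Sh.q z₁‖ ≤ C * (c₃ + Real.log (m / ‖Sh.f z₀‖)) := by
  obtain ⟨C₁, hC₁, hLD⟩ := s8i_log_deficit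
  have hP0 : 0 < P := by linarith
  have hR₀0 : 0 < R₀ := by linarith
  set E₀ : ℝ := Real.exp (28 * (2 * Real.log (R₀ / c₂) + A + 1)) with hE₀
  have hE₀0 : 0 < E₀ := Real.exp_pos _
  have hlog4 : 0 < Real.log (4 / c₂) := by
    apply Real.log_pos
    rw [lt_div_iff₀ hc₂]; linarith
  have hlog3 : 0 < Real.log 3 := Real.log_pos (by norm_num)
  have hmax1 : 1 ≤ max 1 E₀ := le_max_left _ _
  refine ⟨8 * C₁ / c₂ * max 1 E₀, 1 + Real.log 3 + P * Real.log (4 / c₂), by positivity,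
    by positivity, ?_⟩
  intro d m hsc hRd z₀ z₁ h0a h0b h1a h1b hx hne
  have hd := hsc.d_pos
  have hm := hsc.m_pos
  have hdep : ∀ z : ℂ, Sh.s9dep z = Sh.Hr - z.im := fun _ => rfl
  rw [hdep] at h0a h0b h1a h1b
  have hc4 : 0 < c₂ / 4 := by positivity
  have hc4pow : 0 < (c₂ / 4) ^ (-P) := by positivity
  set K : ℝ := Real.log (3 * m * (c₂ / 4) ^ (-P)) with hK
  have hexpK : Real.exp K = 3 * m * (c₂ / 4) ^ (-P) := Real.exp_log (by positivity)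
  have hcd : 0 < c₂ * d := by positivity
  have hRd0 : 0 < R₀ * d := by positivity
  -- the band
  have hBdD : ∀ z : ℂ, Sh.Hr - 3 * R₀ * d < z.im → z.im < Sh.Hr - c₂ * d / 4 → z ∈ Sh.D := by
    intro z hz1 hz2
    rw [Sh.sb_mem_D_iff hH, abs_lt]
    constructor <;> linarith
  have hfBd : DifferentiableOn ℂ Sh.f {z : ℂ | Sh.Hr - 3 * R₀ * d < z.im ∧ z.im < Sh.Hr - c₂ * d / 4} :=
    Sh.sb_f_diff.mono fun z hz => hBdD z hz.1 hz.2
  have hKBd : ∀ z : ℂ, Sh.Hr - 3 * R₀ * d < z.im → z.im < Sh.Hr - c₂ * d / 4 →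
      ‖Sh.f z‖ ≤ Real.exp K := by
    intro z hz1 hz2
    have hδ0 : 0 < Sh.s9dep z := by rw [hdep]; linarith
    have hδb2 : Sh.s9dep z ≤ δb := by rw [hdep]; linarith
    have henv := hsc.env z hδ0 hδb2
    set D' : ℝ := Sh.s9dep z / d with hD'
    have hD'c : c₂ / 4 ≤ D' := by
      rw [hD', le_div_iff₀ hd, hdep]; linarith
    have hE : s6uE α₁ P D' ≤ (c₂ / 4) ^ (-P) := by
      unfold s6uE
      refine max_le ?_ ?_
      · calc D' ^ (-α₁) ≤ (c₂ / 4) ^ (-α₁) := Real.rpow_le_rpow_of_nonpos hc4 hD'c (by linarith)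
          _ ≤ (c₂ / 4) ^ (-P) :=
            Real.rpow_le_rpow_of_exponent_ge hc4 (by linarith) (by linarith)
      · exact Real.rpow_le_rpow_of_nonpos hc4 hD'c (by linarith)
    rw [hexpK]
    calc ‖Sh.f z‖ ≤ Sh.M z := Sh.sb_norm_f_le_M z
      _ ≤ 3 * m * s6uE α₁ P D' := henv
      _ ≤ _ := mul_le_mul_of_nonneg_left hE (by positivity)
  -- the chain
  have hchain := s8_av_chain Sh.f K Sh.Hr (Sh.Hr - 3 * R₀ * d) (c₂ * d / 4) hfBd hKBd z₀ z₁ (R₀ * d) A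
    hne hA (by positivity) (by linarith) (by linarith) h0b h1b (by linarith)
    (hx.trans (by
      have : d ≤ R₀ * d := by nlinarith
      exact mul_le_mul_of_nonneg_left this hA))
  have hlogle : ∀ δ : ℝ, c₂ * d ≤ δ → Real.log (R₀ * d / δ) ≤ Real.log (R₀ / c₂) := by
    intro δ hδ
    have hδ0 : 0 < δ := lt_of_lt_of_le hcd hδ
    refine Real.log_le_log (by positivity) ?_
    rw [div_le_div_iff₀ hδ0 hc₂]
    nlinarith
  have hEle : Real.exp (28 * (Real.log (R₀ * d / (Sh.Hr - z₀.im)) + Real.log (R₀ * d / (Sh.Hr - z₁.im)) + A + 1))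
      ≤ E₀ := by
    rw [hE₀]
    apply Real.exp_le_exp.2
    have := hlogle _ h0a
    have := hlogle _ h1a
    linarith
  -- the log deficit
  set r : ℝ := (Sh.Hr - z₁.im) / 8 with hr
  have hr0 : 0 < r := by rw [hr]; linarith
  have hball : ∀ z ∈ ball z₁ r, Sh.Hr - 3 * R₀ * d < z.im ∧ z.im < Sh.Hr - c₂ * d / 4 := by
    intro z hz
    have h1 : |(z - z₁).im| < r :=
      lt_of_le_of_lt (Complex.abs_im_le_norm _) (by simpa [dist_eq_norm] using hz)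
    rw [Complex.sub_im, abs_lt] at h1
    constructor
    · have := h1.1; rw [hr] at this; linarith
    · have := h1.2; rw [hr] at this; linarith
  have hballD : ball z₁ r ⊆ Sh.D := fun z hz => hBdD z (hball z hz).1 (hball z hz).2
  have hz₁D : z₁ ∈ Sh.D := hballD (mem_ball_self hr0)
  have hex : ∃ z ∈ ball z₁ r, Sh.f z ≠ 0 := by
    by_contra hcon
    push Not at hcon
    apply Sh.sb_f_not_eventually_zero hz₁D
    filter_upwards [ball_mem_nhds z₁ hr0] with z hz using hcon z hz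
  have hdef := hLD Sh.f Sh.q z₁ r K hr0 (Sh.sb_f_diff.mono hballD) (Sh.q_diff.mono hballD)
    (fun z hz => Sh.sb_f_ode z (hballD hz)) hex (fun z hz => hKBd z (hball z hz).1 (hball z hz).2)
    z₁ (mem_ball_self (by positivity))
  -- to reals
  set X : ℝ := K - Real.log ‖Sh.f z₀‖ with hX
  have hf0 : 0 < ‖Sh.f z₀‖ := norm_pos_iff.2 hne
  have hX0 : 0 ≤ X := by
    have h1 := hKBd z₀ (by linarith) (by linarith)
    have h2 : Real.log ‖Sh.f z₀‖ ≤ K := by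
      rw [← Real.log_exp K]
      exact Real.log_le_log hf0 h1
    rw [hX]; linarith
  have hreal : r * Real.sqrt ‖Sh.q z₁‖ ≤ C₁ * (1 + E₀ * X) := by
    have h1 : ENNReal.ofReal (r * Real.sqrt ‖Sh.q z₁‖) ≤ ENNReal.ofReal (C₁ * (1 + E₀ * X)) := by
      refine hdef.trans ?_
      rw [ENNReal.ofReal_mul hC₁.le, ENNReal.ofReal_add zero_le_one (by positivity),
        ENNReal.ofReal_one, ENNReal.ofReal_mul hE₀0.le]
      refine mul_le_mul' le_rfl (add_le_add le_rfl ?_)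
      refine le_trans ?_ (mul_le_mul' (ENNReal.ofReal_le_ofReal hEle) le_rfl)
      exact hchain
    exact (ENNReal.ofReal_le_ofReal_iff (by positivity)).1 h1
  have hXeq : 1 + X = 1 + Real.log 3 + P * Real.log (4 / c₂) + Real.log (m / ‖Sh.f z₀‖) := by
    rw [hX, hK, Real.log_mul (by positivity) hc4pow.ne', Real.log_mul (by norm_num) hm.ne',
      Real.log_rpow hc4, Real.log_div hm.ne' hf0.ne', Real.log_div (by norm_num) hc₂.ne',
      Real.log_div hc₂.ne' (by norm_num)]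
    ring
  rw [← hXeq]
  have h1 : 1 + E₀ * X ≤ max 1 E₀ * (1 + X) := by
    have h2 : E₀ * X ≤ max 1 E₀ * X := mul_le_mul_of_nonneg_right (le_max_right _ _) hX0
    nlinarith
  have hrd : c₂ * d / 8 ≤ r := by rw [hr]; linarith
  have hsq := Real.sqrt_nonneg ‖Sh.q z₁‖
  have h3 : c₂ * d / 8 * Real.sqrt ‖Sh.q z₁‖ ≤ C₁ * (max 1 E₀ * (1 + X)) :=
    (mul_le_mul_of_nonneg_right hrd hsq).trans (hreal.trans (mul_le_mul_of_nonneg_left h1 hC₁.le))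
  calc d * Real.sqrt ‖Sh.q z₁‖ = 8 / c₂ * (c₂ * d / 8 * Real.sqrt ‖Sh.q z₁‖) := by
        field_simp
    _ ≤ 8 / c₂ * (C₁ * (max 1 E₀ * (1 + X))) := mul_le_mul_of_nonneg_left h3 (by positivity)
    _ = _ := by ring

end Claimed.Agent.R269
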