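/-
Row 269, Theorem 6.7, step (B2): ON EVERY ROW `max |f| ≥ 1`.   Blueprint: helper151.   LEAF LF-S6-U-row (this file; fill IN PLACE).   Uses only `Shape.lean`, `ShapeBasic.lean` (sorry-free, prefix `sb_`).

PROOF of `s6u_row_one`.  `γ x = φ ⟨x,h⟩ = φ (x + h i)` has derivative `f ⟨x,h⟩` (`φ` holomorphic on the open strip `D`, `Sh.f = deriv Sh.φ`; `HasDerivAt.comp_ofReal` after writing `⟨x,h⟩ = (x:ℂ) + h * I`), continuous in `x` (`sb_row_continuous`, `sb_f_diff.continuousOn`).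
FTC (`intervalIntegral.integral_eq_sub_of_hasDerivAt`): `∫_0^{2π} f ⟨x,h⟩ dx = φ (2π + h i) - φ (h i) = 2π` (`φ_per`).  If `‖f ⟨x,h⟩‖ < 1` for all `x`, then by compactness of `[0,2π]` there is `c < 1` with `‖f‖ ≤ c` there
(`IsCompact.exists_isMaxOn`), and `2π = ‖∫‖ ≤ c · 2π < 2π` (`intervalIntegral.norm_integral_le_of_norm_le_const`).
`s6u_one_le_rowMax`: `1 ≤ ‖f‖ ≤ M ≤ rowMax` (`sb_norm_f_le_M`, `sb_M_le_rowMax`).
-/
import Claimed.Agent.R269.ShapeBasic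

set_option autoImplicit false

namespace Claimed.Agent.R269

open Complex Filter Topology Set Metric MeasureTheory
open scoped ENNReal Real

namespace Shape

variable (Sh : Shape)

/-- LEAF B2. -/
theorem s6u_row_one (hH : Sh.H ≠ ⊤) (h : ℝ) (hh : |h| < Sh.Hr) : ∃ x : ℝ, 1 ≤ ‖Sh.f (⟨x, h⟩ : ℂ)‖ := by
  by_contra hcon
  push Not at hcon
  have hcont : Continuous fun x : ℝ => Sh.f (⟨x, h⟩ : ℂ) :=
    Sh.sb_row_continuous Sh.sb_f_diff.continuousOn hH hh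
  have hpt : ∀ x : ℝ, (⟨x, h⟩ : ℂ) = (x : ℂ) + (h : ℂ) * I := by
    intro x; apply Complex.ext <;> simp
  have hder : ∀ x : ℝ, HasDerivAt (fun x : ℝ => Sh.φ (⟨x, h⟩ : ℂ)) (Sh.f (⟨x, h⟩ : ℂ)) x := by
    intro x
    have hD : (⟨x, h⟩ : ℂ) ∈ Sh.D := Sh.sb_row_mem_D hH hh x
    have h1 : HasDerivAt Sh.φ (Sh.f (⟨x, h⟩ : ℂ)) (⟨x, h⟩ : ℂ) := (Sh.sb_φ_at hD).hasDerivAt
    have h2 : HasDerivAt (fun w : ℂ => Sh.φ (w + (h : ℂ) * I)) (Sh.f (⟨x, h⟩ : ℂ)) (x : ℂ) := by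
      have := h1
      rw [hpt x] at this ⊢
      exact this.comp_add_const (x : ℂ) ((h : ℂ) * I)
    have h3 := h2.comp_ofReal
    simpa [hpt] using h3
  have hint : ∫ x in (0 : ℝ)..(2 * π), Sh.f (⟨x, h⟩ : ℂ) = 2 * π := by
    rw [intervalIntegral.integral_eq_sub_of_hasDerivAt (fun x _ => hder x) (hcont.intervalIntegrable _ _)]
    have hD : (⟨0, h⟩ : ℂ) ∈ Sh.D := Sh.sb_row_mem_D hH hh 0
    have e : (⟨2 * π, h⟩ : ℂ) = (⟨0, h⟩ : ℂ) + 2 * π := by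
      apply Complex.ext <;> simp
    rw [e, Sh.φ_per _ hD]
    ring
  obtain ⟨x₀, -, hx₀⟩ := (isCompact_Icc (a := (0 : ℝ)) (b := 2 * π)).exists_isMaxOn
    ⟨0, ⟨le_rfl, by positivity⟩⟩ hcont.norm.continuousOn
  have hbound : ‖∫ x in (0 : ℝ)..(2 * π), Sh.f (⟨x, h⟩ : ℂ)‖ ≤ ‖Sh.f (⟨x₀, h⟩ : ℂ)‖ * |2 * π - 0| := by
    apply intervalIntegral.norm_integral_le_of_norm_le_const
    intro x hx
    rw [uIoc_of_le (by positivity)] at hx
    exact hx₀ ⟨hx.1.le, hx.2⟩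
  rw [hint] at hbound
  have hpi : 0 < 2 * π := by positivity
  have e1 : ‖(2 * π : ℂ)‖ = 2 * π := by
    have : (2 * π : ℂ) = ((2 * π : ℝ) : ℂ) := by push_cast; ring
    rw [this, Complex.norm_real, Real.norm_eq_abs, abs_of_pos hpi]
  rw [e1, sub_zero, abs_of_pos hpi] at hbound
  have := hcon x₀
  nlinarith

theorem s6u_one_le_rowMax (hH : Sh.H ≠ ⊤) (h : ℝ) (hh : |h| < Sh.Hr) : 1 ≤ Sh.rowMax h := by
  obtain ⟨x, hx⟩ := Sh.s6u_row_one hH h hh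
  have h1 := Sh.sb_M_le_rowMax hH (Sh.sb_row_mem_D hH hh x)
  exact hx.trans ((Sh.sb_norm_f_le_M _).trans h1)

end Shape

end Claimed.Agent.R269
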