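/-
Row 269, Theorem 6.7, step (B): EXISTENCE OF A QUIET CENTRE (glue).   Owner: helper151.
From `s6u_q_of_f` (B1), `s6u_row_one` (B2), `s6u_perimeter` (B3), `ch_c2_per`, and the connectedness of `ℝ`.

If no centre is quiet, every `x` belongs to `U_F = {∃ s ∈ K_x, η m < |f s|}` or to `U_Q = {∃ s ∈ K_x, η m < |q s|^{1/2}}`, both open.  B1 makes them disjoint (`d m` large); the centre of B2 is not in `U_Q` (`d m / log m` large).
So `U_F = ℝ`; then `|q| ≤ (κ₀/d)²` on the whole band by B1 and B3 bounds the monodromy constant `a > 0` by `O(m⁻²)`.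
-/
import Claimed.Agent.R269.S6.SuperQf
import Claimed.Agent.R269.S6.SuperPer
import Claimed.Agent.R269.S6.SuperRow

set_option autoImplicit false

namespace Claimed.Agent.R269

open Complex Filter Topology Set Metric
open scoped ENNReal Real

namespace Shape

variable (Sh : Shape)

theorem s6u_cone_mem_D (hH : Sh.H ≠ ⊤) {L x lo hi : ℝ} (hlo : 0 < lo) (hhi : hi < Sh.Hr) {s : ℂ}
    (hs : s ∈ Sh.s9cone L x lo hi) : s ∈ Sh.D := by
  obtain ⟨h1, h2, -⟩ := hs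
  rw [Sh.sb_mem_D_iff hH, abs_lt]
  unfold Shape.s9dep at h1 h2
  constructor <;> linarith

/-- the set of centres whose cone piece contains a point with `c < g` is open. -/
theorem s6u_isOpen_centres (hH : Sh.H ≠ ⊤) {L lo hi c : ℝ} (hlo : 0 < lo) (hhi : hi < Sh.Hr) {g : ℂ → ℝ}
    (hg : ContinuousOn g Sh.D) : IsOpen {x : ℝ | ∃ s ∈ Sh.s9cone L x lo hi, c < g s} := by
  rw [isOpen_iff_mem_nhds]
  rintro x ⟨s, hs, hc⟩
  have hsD : s ∈ Sh.D := Sh.s6u_cone_mem_D hH hlo hhi hs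
  have hgs : ContinuousAt g s := hg.continuousAt (Sh.sb_D_mem_nhds hsD)
  have hmap : ContinuousAt (fun x' : ℝ => s + ((x' - x : ℝ) : ℂ)) x := by fun_prop
  have hcomp : ContinuousAt (fun x' : ℝ => g (s + ((x' - x : ℝ) : ℂ))) x := by
    apply ContinuousAt.comp (g := g) _ hmap
    simpa using hgs
  have hev : ∀ᶠ x' in 𝓝 x, c < g (s + ((x' - x : ℝ) : ℂ)) := by
    apply hcomp.eventually (lt_mem_nhds _)
    simpa using hc
  filter_upwards [hev] with x' hx'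
  refine ⟨s + ((x' - x : ℝ) : ℂ), ?_, hx'⟩
  obtain ⟨h1, h2, h3⟩ := hs
  have hd : Sh.s9dep (s + ((x' - x : ℝ) : ℂ)) = Sh.s9dep s := by simp [Shape.s9dep]
  refine ⟨by rw [hd]; exact h1, by rw [hd]; exact h2, ?_⟩
  rw [hd]
  have : (s + ((x' - x : ℝ) : ℂ)).re - x' = s.re - x := by simp; ring
  rw [this]; exact h3

/-- **Quiet centre.** -/
theorem s6u_quiet (hH : Sh.H ≠ ⊤) (α₁ P δb c₂ R₀ L η : ℝ) (hα₁ : 0 < α₁) (hP : α₁ < P) (hδb : 0 < δb)
    (hδb' : δb < Sh.Hr) (hc₂ : 0 < c₂) (hc₂' : c₂ ≤ 1) (hR₀ : 1 ≤ R₀) (hL : 0 ≤ L) (hη : 0 < η) :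
    ∃ N : ℝ, ∀ d m : ℝ, Sh.S6USc α₁ P δb d m → N * d ≤ 1 → N ≤ m → N * (1 + Real.log m) ≤ d * m →
      ∃ x : ℝ, ∀ s ∈ Sh.s9cone L x (c₂ * d) (R₀ * d), Sh.M s ≤ η * m := by
  obtain ⟨a, ha0, ha⟩ := Sh.ch_c2_per
  obtain ⟨C, c₃, hC, hc₃, hqf⟩ := Sh.s6u_q_of_f hH α₁ P δb c₂ R₀ (2 * L * R₀) hα₁ hP hδb hδb' hc₂ hc₂' hR₀
    (by positivity)
  set κ₀ : ℝ := max 1 (C * (c₃ + Real.log (1 / η))) with hκ₀
  have hκ₀1 : 1 ≤ κ₀ := le_max_left _ _
  have hκ₀pos : 0 < κ₀ := by linarith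
  set Cp : ℝ := (2 * π + 1) * ‖Sh.f 0‖ * Real.exp (κ₀ * (2 * (L * R₀) + 1 + (R₀ - c₂))) / κ₀ with hCp
  have hCp0 : 0 ≤ Cp := by positivity
  set N : ℝ := max (max 1 (3 * R₀ / δb)) (max (κ₀ / η + 1) (max (C * max c₃ 1 / η) (Cp / (a * η ^ 2) + 1)))
    with hN
  have hN1 : 1 ≤ N := le_trans (le_max_left _ _) (le_max_left _ _)
  have hN2 : 3 * R₀ / δb ≤ N := le_trans (le_max_right _ _) (le_max_left _ _)
  have hN3 : κ₀ / η + 1 ≤ N := le_trans (le_max_left _ _) (le_max_right _ _)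
  have hN4 : C * max c₃ 1 / η ≤ N :=
    le_trans (le_max_left _ _) (le_trans (le_max_right _ _) (le_max_right _ _))
  have hN5 : Cp / (a * η ^ 2) + 1 ≤ N :=
    le_trans (le_max_right _ _) (le_trans (le_max_right _ _) (le_max_right _ _))
  refine ⟨N, fun d m hsc hNd hNm hNb => ?_⟩
  have hd := hsc.d_pos
  have hm := hsc.m_pos
  have hm1 : 1 ≤ m := hN1.trans hNm
  have hlogm : 0 ≤ Real.log m := Real.log_nonneg hm1
  have hd1 : d ≤ 1 := by
    have : 1 * d ≤ N * d := mul_le_mul_of_nonneg_right hN1 hd.le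
    linarith
  have hb : N ≤ d * m := by
    have : N * 1 ≤ N * (1 + Real.log m) := mul_le_mul_of_nonneg_left (by linarith) (by linarith)
    linarith
  -- (i)
  have h3R : 3 * R₀ * d ≤ δb := by
    have h1 : 3 * R₀ ≤ N * δb := by rwa [div_le_iff₀ hδb] at hN2
    calc 3 * R₀ * d ≤ N * δb * d := mul_le_mul_of_nonneg_right h1 hd.le
      _ = (N * d) * δb := by ring
      _ ≤ 1 * δb := mul_le_mul_of_nonneg_right hNd hδb.le
      _ = δb := one_mul _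
  have hR₀dpos : 0 < R₀ * d := by positivity
  have hR₀d : R₀ * d < Sh.Hr := by linarith
  have hc₂d : 0 < c₂ * d := by positivity
  have hdR : d ≤ R₀ * d := le_mul_of_one_le_left hd.le hR₀
  have hc₂d' : c₂ * d ≤ d := mul_le_of_le_one_left hd.le hc₂'
  have hc₂R₀ : c₂ * d ≤ R₀ * d := hc₂d'.trans hdR
  by_contra hcon
  push Not at hcon
  set UF : Set ℝ := {x : ℝ | ∃ s ∈ Sh.s9cone L x (c₂ * d) (R₀ * d), η * m < ‖Sh.f s‖} with hUF
  set UQ : Set ℝ := {x : ℝ | ∃ s ∈ Sh.s9cone L x (c₂ * d) (R₀ * d), η * m < Real.sqrt ‖Sh.q s‖} with hUQ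
  have hoF : IsOpen UF := Sh.s6u_isOpen_centres hH hc₂d hR₀d Sh.sb_f_diff.continuousOn.norm
  have hoQ : IsOpen UQ :=
    Sh.s6u_isOpen_centres hH hc₂d hR₀d (Real.continuous_sqrt.comp_continuousOn Sh.q_diff.continuousOn.norm)
  have hcover : (univ : Set ℝ) ⊆ UF ∪ UQ := by
    intro x _
    obtain ⟨s, hs, hM⟩ := hcon x
    rcases lt_max_iff.1 hM with h | h
    · exact Or.inl ⟨s, hs, h⟩
    · exact Or.inr ⟨s, hs, h⟩
  -- horizontal distance inside one cone piece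
  have hdist : ∀ x : ℝ, ∀ z₀ ∈ Sh.s9cone L x (c₂ * d) (R₀ * d), ∀ z₁ ∈ Sh.s9cone L x (c₂ * d) (R₀ * d),
      |z₀.re - z₁.re| ≤ 2 * L * R₀ * d := by
    intro x z₀ h0 z₁ h1
    have e : z₀.re - z₁.re = (z₀.re - x) - (z₁.re - x) := by ring
    have a0 : |z₀.re - x| ≤ L * (R₀ * d) := h0.2.2.trans (mul_le_mul_of_nonneg_left h0.2.1 hL)
    have a1 : |z₁.re - x| ≤ L * (R₀ * d) := h1.2.2.trans (mul_le_mul_of_nonneg_left h1.2.1 hL)
    rw [e]
    calc |(z₀.re - x) - (z₁.re - x)| ≤ |z₀.re - x| + |z₁.re - x| := abs_sub _ _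
      _ ≤ 2 * L * R₀ * d := by linarith
  -- an F-good point bounds q on the cone piece
  have hgoodq : ∀ x : ℝ, ∀ z₀ ∈ Sh.s9cone L x (c₂ * d) (R₀ * d), η * m < ‖Sh.f z₀‖ →
      ∀ z₁ ∈ Sh.s9cone L x (c₂ * d) (R₀ * d), d * Real.sqrt ‖Sh.q z₁‖ ≤ κ₀ := by
    intro x z₀ h0 hf z₁ h1
    have hηm : 0 < η * m := by positivity
    have hfpos : 0 < ‖Sh.f z₀‖ := hηm.trans hf
    have hne : Sh.f z₀ ≠ 0 := norm_pos_iff.1 hfpos
    have := hqf d m hsc h3R z₀ z₁ h0.1 h0.2.1 h1.1 h1.2.1 (hdist x z₀ h0 z₁ h1) hne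
    refine this.trans (le_trans ?_ (le_max_right _ _))
    have hlog : Real.log (m / ‖Sh.f z₀‖) ≤ Real.log (1 / η) := by
      apply Real.log_le_log (by positivity)
      rw [div_le_div_iff₀ hfpos hη]
      linarith
    gcongr
  have hdisj : Disjoint UF UQ := by
    rw [Set.disjoint_left]
    rintro x ⟨z₀, h0, hf⟩ ⟨z₁, h1, hq⟩
    have h2 := hgoodq x z₀ h0 hf z₁ h1
    have h3 : κ₀ < η * N := by
      have : κ₀ / η < N := by linarith
      rwa [div_lt_iff₀ hη, mul_comm] at this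
    have h4 : d * (η * m) < d * Real.sqrt ‖Sh.q z₁‖ := mul_lt_mul_of_pos_left hq hd
    have h5 : η * N ≤ η * (d * m) := mul_le_mul_of_nonneg_left hb hη.le
    have h6 : d * (η * m) = η * (d * m) := by ring
    linarith
  -- the centre of B2
  obtain ⟨x₁, hx₁⟩ := Sh.s6u_row_one hH (Sh.Hr - d) (by
    rw [abs_lt]; constructor <;> linarith)
  have hz₀ : (⟨x₁, Sh.Hr - d⟩ : ℂ) ∈ Sh.s9cone L x₁ (c₂ * d) (R₀ * d) := by
    refine ⟨?_, ?_, ?_⟩
    · simp only [Shape.s9dep]; linarith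
    · simp only [Shape.s9dep]; linarith
    · simp only [Shape.s9dep, sub_self, abs_zero]
      have : 0 ≤ Sh.Hr - (Sh.Hr - d) := by linarith
      positivity
  have hx₁Q : x₁ ∉ UQ := by
    rintro ⟨z₁, h1, hq⟩
    have hfpos : 0 < ‖Sh.f (⟨x₁, Sh.Hr - d⟩ : ℂ)‖ := by linarith
    have hne : Sh.f (⟨x₁, Sh.Hr - d⟩ : ℂ) ≠ 0 := norm_pos_iff.1 hfpos
    have h2 := hqf d m hsc h3R _ z₁ hz₀.1 hz₀.2.1 h1.1 h1.2.1 (hdist x₁ _ hz₀ z₁ h1) hne
    have hlog : Real.log (m / ‖Sh.f (⟨x₁, Sh.Hr - d⟩ : ℂ)‖) ≤ Real.log m := by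
      apply Real.log_le_log (by positivity)
      exact div_le_self hm.le hx₁
    have h3 : C * (c₃ + Real.log (m / ‖Sh.f (⟨x₁, Sh.Hr - d⟩ : ℂ)‖)) ≤ C * max c₃ 1 * (1 + Real.log m) := by
      have e1 : c₃ ≤ max c₃ 1 := le_max_left _ _
      have e2 : (1 : ℝ) ≤ max c₃ 1 := le_max_right _ _
      have e3 : 1 * Real.log m ≤ max c₃ 1 * Real.log m := mul_le_mul_of_nonneg_right e2 hlogm
      have : c₃ + Real.log (m / ‖Sh.f (⟨x₁, Sh.Hr - d⟩ : ℂ)‖) ≤ max c₃ 1 * (1 + Real.log m) := by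
        rw [mul_add, mul_one]; linarith
      calc C * (c₃ + Real.log (m / ‖Sh.f (⟨x₁, Sh.Hr - d⟩ : ℂ)‖)) ≤ C * (max c₃ 1 * (1 + Real.log m)) := by gcongr
        _ = _ := by ring
    have h4 : C * max c₃ 1 ≤ η * N := by
      have := (div_le_iff₀ hη).1 hN4
      linarith
    have h5 : C * max c₃ 1 * (1 + Real.log m) ≤ η * (d * m) := by
      calc C * max c₃ 1 * (1 + Real.log m) ≤ η * N * (1 + Real.log m) := by gcongr
        _ = η * (N * (1 + Real.log m)) := by ring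
        _ ≤ η * (d * m) := by gcongr
    have h6 : d * (η * m) < d * Real.sqrt ‖Sh.q z₁‖ := mul_lt_mul_of_pos_left hq hd
    have h7 : d * (η * m) = η * (d * m) := by ring
    linarith
  have hall : (univ : Set ℝ) ⊆ UF := by
    rcases isPreconnected_univ.subset_or_subset hoF hoQ hdisj hcover with h | h
    · exact h
    · exact absurd (h (mem_univ x₁)) hx₁Q
  -- perimeter
  have hκd : 0 < κ₀ / d := by positivity
  have hper := Sh.s6u_perimeter hH a ha (Sh.Hr - R₀ * d) (Sh.Hr - c₂ * d) (κ₀ / d) (η * m) (L * (R₀ * d)) d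
    (by linarith [Sh.sb_Hr_pos hH]) (by linarith) (by linarith) hκd (by positivity) (by positivity) hd
    (by
      intro s hs1 hs2
      obtain ⟨z₀, h0, hf⟩ := hall (mem_univ s.re)
      have hs : s ∈ Sh.s9cone L s.re (c₂ * d) (R₀ * d) := by
        refine ⟨?_, ?_, ?_⟩
        · simp only [Shape.s9dep]; linarith
        · simp only [Shape.s9dep]; linarith
        · simp only [Shape.s9dep, sub_self, abs_zero]
          have : 0 ≤ Sh.Hr - s.im := by linarith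
          positivity
      have h2 := hgoodq s.re z₀ h0 hf s hs
      have h3 : Real.sqrt ‖Sh.q s‖ ≤ κ₀ / d := by
        rw [le_div_iff₀ hd]; linarith
      calc ‖Sh.q s‖ = Real.sqrt ‖Sh.q s‖ ^ 2 := (Real.sq_sqrt (norm_nonneg _)).symm
        _ ≤ (κ₀ / d) ^ 2 := by gcongr)
    (by
      intro x
      obtain ⟨z₀, h0, hf⟩ := hall (mem_univ x)
      refine ⟨z₀, ?_, ?_, ?_, hf.le⟩
      · have := h0.2.1; simp only [Shape.s9dep] at this; linarith
      · have := h0.1; simp only [Shape.s9dep] at this; linarith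
      · exact h0.2.2.trans (mul_le_mul_of_nonneg_left h0.2.1 hL))
  have hrhs : (2 * π / d + 1) * ‖Sh.f 0‖ *
      Real.exp (κ₀ / d * (2 * (L * (R₀ * d)) + d + (Sh.Hr - c₂ * d - (Sh.Hr - R₀ * d)))) / (κ₀ / d) ≤ Cp := by
    have e1 : κ₀ / d * (2 * (L * (R₀ * d)) + d + (Sh.Hr - c₂ * d - (Sh.Hr - R₀ * d)))
        = κ₀ * (2 * (L * R₀) + 1 + (R₀ - c₂)) := by
      field_simp
      ring
    rw [e1, hCp]
    have e2 : (2 * π / d + 1) * ‖Sh.f 0‖ * Real.exp (κ₀ * (2 * (L * R₀) + 1 + (R₀ - c₂))) / (κ₀ / d)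
        = (2 * π + d) * ‖Sh.f 0‖ * Real.exp (κ₀ * (2 * (L * R₀) + 1 + (R₀ - c₂))) / κ₀ := by
      field_simp
    rw [e2]
    gcongr
  have h7 : |a| * (η * m) ^ 2 ≤ Cp := hper.trans hrhs
  rw [abs_of_pos ha0] at h7
  have h8 : Cp < a * η ^ 2 * N := by
    have h9 : 0 < a * η ^ 2 := by positivity
    have : Cp / (a * η ^ 2) < N := by linarith
    rwa [div_lt_iff₀ h9, mul_comm] at this
  have h10 : a * η ^ 2 * N ≤ a * (η * m) ^ 2 := by
    have h9 : 0 < a * η ^ 2 := by positivity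
    have : N ≤ m ^ 2 := by
      have : m * 1 ≤ m * m := mul_le_mul_of_nonneg_left hm1 hm.le
      nlinarith
    calc a * η ^ 2 * N ≤ a * η ^ 2 * m ^ 2 := by gcongr
      _ = a * (η * m) ^ 2 := by ring
  linarith

end Shape

end Claimed.Agent.R269
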