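/-
Row 269, Theorem 6.7, step (A1): SELECTION OF TWO-SIDED RECORDS.   Blueprint: helper151.   LEAF LF-S6-U-rec (this file; fill IN PLACE).   HOST-FREE, pure real analysis, Mathlib only.  No continuity of `g` is assumed
(approximate maximisers, whence the `+ 1`).

PROOF.  Put `A k = g k - α₁ k`, `B k = g k - P k`.  Fix `K₁`; let `K₁' = max K₁ (max k₀ 0)`.
1. By `hbdd K₁'` the function `A` is bounded above on `[k₀, K₁']` by some `C₂` (`g ≤ C`, `|α₁ k| ≤ |α₁| max |k₀| |K₁'|`).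
2. By `hfreq` (`Filter.Frequently.and_eventually`, `eventually_ge_atTop`, and `(α₂-α₁) k → ∞`) pick `k' ≥ K₁'` with `α₂ k' < g k'` and `C₂ + 1/2 < (α₂ - α₁) k'`.
3. `A` is bounded above on `[k₀, k']` (`hbdd k'`); `σ = sSup (A '' Icc k₀ k')`; pick `r ∈ [k₀, k']` with `σ - 1/2 < A r` (`exists_lt_of_lt_csSup`).  Then `A r > A k' - 1/2 > (α₂-α₁) k' - 1/2 > C₂`, so `r > K₁'` (step 1), in particular `r ≥ 0`, `r ≥ K₁`;
   and `A r > (α₂-α₁) r - 1/2` because `r ≤ k'`:   (i) `g r > α₂ r - 1/2`;   (ii) `g j - α₁ j ≤ g r - α₁ r + 1/2` for `j ∈ [k₀, r]`.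
4. `B` is bounded above on `[r, ∞)`: by `hev` there is `K₂ ≥ max r 0` with `g k ≤ P' k` for `k ≥ K₂`, there `B k ≤ (P' - P) k ≤ 0`; on `[r, K₂] ⊆ [k₀, K₂]` use `hbdd K₂`.  `τ = sSup (B '' Ici r)`; pick `k ≥ r` with `τ - 1/2 < B k`.  So
   (iii) `g j - P j ≤ g k - P k + 1/2` for all `j ≥ r`.
5. Conclusions for this `k`:  `j ≥ k`: (iii).   `r ≤ j ≤ k`: (iii) and `P (j-k) ≤ α₁ (j-k)` (`j - k ≤ 0`, `α₁ ≤ P`).   `k₀ ≤ j ≤ r`: (ii), then (iii) at `j = r`: `g r ≤ g k + 1/2 + P (r-k) ≤ g k + 1/2 + α₁ (r-k)`.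
   `g k ≥ g r + P (k-r) - 1/2 ≥ α₂ r - 1/2 + α₂ (k-r) - 1/2` by (iii) at `j = r`, (i), `α₂ ≤ P`.
-/
import Mathlib

set_option autoImplicit false

namespace Claimed.Agent.R269

open Filter Topology Set

/-- LEAF A1: two-sided records. -/
theorem s6u_records (g : ℝ → ℝ) (α₁ α₂ P' P k₀ : ℝ) (h12 : α₁ < α₂) (h2P : α₂ ≤ P) (hP : P' < P)
    (hbdd : ∀ K : ℝ, ∃ C : ℝ, ∀ k ∈ Icc k₀ K, g k ≤ C)
    (hfreq : ∃ᶠ k in atTop, α₂ * k < g k) (hev : ∀ᶠ k in atTop, g k ≤ P' * k) :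
    ∀ K₁ : ℝ, ∃ k : ℝ, K₁ ≤ k ∧ k₀ ≤ k ∧ α₂ * k - 1 ≤ g k ∧
      (∀ j ∈ Icc k₀ k, g j ≤ g k + 1 + α₁ * (j - k)) ∧ (∀ j, k ≤ j → g j ≤ g k + 1 + P * (j - k)) := by
  intro K₁
  -- boundedness of `g k - a k` on compact intervals
  have hA : ∀ a K : ℝ, ∃ C : ℝ, ∀ k ∈ Icc k₀ K, g k - a * k ≤ C := by
    intro a K
    obtain ⟨C, hC⟩ := hbdd K
    refine ⟨C + |a| * max |k₀| |K|, fun k hk => ?_⟩
    have h1 := hC k hk
    have h2 : |k| ≤ max |k₀| |K| := abs_le_max_abs_abs hk.1 hk.2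
    have h3 : -(a * k) ≤ |a| * max |k₀| |K| := by
      calc -(a * k) ≤ |a * k| := neg_le_abs _
        _ = |a| * |k| := abs_mul _ _
        _ ≤ _ := mul_le_mul_of_nonneg_left h2 (abs_nonneg _)
    linarith
  set K₁' : ℝ := max K₁ (max k₀ 0) with hK₁'
  have hK1a : K₁ ≤ K₁' := le_max_left _ _
  have hK1b : k₀ ≤ K₁' := (le_max_left _ _).trans (le_max_right _ _)
  have hK1c : 0 ≤ K₁' := (le_max_right _ _).trans (le_max_right _ _)
  obtain ⟨C₂, hC₂⟩ := hA α₁ K₁'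
  have hd : 0 < α₂ - α₁ := by linarith
  -- step 2
  obtain ⟨k', hk'1, hk'2, hk'3⟩ := (hfreq.and_eventually
    ((eventually_ge_atTop K₁').and (eventually_gt_atTop ((C₂ + 1 / 2) / (α₂ - α₁))))).exists
  rw [div_lt_iff₀ hd] at hk'3
  -- step 3
  obtain ⟨C₃, hC₃⟩ := hA α₁ k'
  have hk'mem : k' ∈ Icc k₀ k' := ⟨hK1b.trans hk'2, le_rfl⟩
  have hSne : ((fun k => g k - α₁ * k) '' Icc k₀ k').Nonempty := ⟨_, k', hk'mem, rfl⟩
  have hSb : BddAbove ((fun k => g k - α₁ * k) '' Icc k₀ k') := by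
    refine ⟨C₃, ?_⟩
    rintro _ ⟨k, hk, rfl⟩
    exact hC₃ k hk
  obtain ⟨_, ⟨r, hr, rfl⟩, hrσ⟩ := exists_lt_of_lt_csSup hSne
    (show sSup ((fun k => g k - α₁ * k) '' Icc k₀ k') - 1 / 2
      < sSup ((fun k => g k - α₁ * k) '' Icc k₀ k') by linarith)
  simp only at hrσ
  have hσ : ∀ j ∈ Icc k₀ k', g j - α₁ * j < g r - α₁ * r + 1 / 2 := by
    intro j hj
    have := le_csSup hSb (⟨j, hj, rfl⟩ : g j - α₁ * j ∈ (fun k => g k - α₁ * k) '' Icc k₀ k')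
    linarith
  have hAr : (α₂ - α₁) * k' - 1 / 2 < g r - α₁ * r := by
    have := hσ k' hk'mem
    nlinarith
  have hrK : K₁' < r := by
    by_contra hcon
    push Not at hcon
    have := hC₂ r ⟨hr.1, hcon⟩
    nlinarith
  have hi : α₂ * r - 1 / 2 < g r := by
    have : (α₂ - α₁) * r ≤ (α₂ - α₁) * k' := mul_le_mul_of_nonneg_left hr.2 hd.le
    nlinarith
  have hii : ∀ j ∈ Icc k₀ r, g j - α₁ * j < g r - α₁ * r + 1 / 2 :=
    fun j hj => hσ j ⟨hj.1, hj.2.trans hr.2⟩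
  -- step 4
  obtain ⟨K₂', hK₂'⟩ := eventually_atTop.1 hev
  set K₂ : ℝ := max K₂' (max r 0) with hK₂
  obtain ⟨C₄, hC₄⟩ := hA P K₂
  have hBb : BddAbove ((fun k => g k - P * k) '' Ici r) := by
    refine ⟨max C₄ 0, ?_⟩
    rintro _ ⟨k, hk, rfl⟩
    simp only
    rcases le_total k K₂ with hkK | hkK
    · exact (hC₄ k ⟨hr.1.trans hk, hkK⟩).trans (le_max_left _ _)
    · refine le_trans ?_ (le_max_right _ _)
      have h1 := hK₂' k ((le_max_left _ _).trans hkK)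
      have h2 : 0 ≤ k := ((le_max_right _ _).trans (le_max_right _ _)).trans hkK
      nlinarith
  have hBne : ((fun k => g k - P * k) '' Ici r).Nonempty := ⟨_, r, Set.mem_Ici.2 le_rfl, rfl⟩
  obtain ⟨_, ⟨k, hk, rfl⟩, hkτ⟩ := exists_lt_of_lt_csSup hBne
    (show sSup ((fun k => g k - P * k) '' Ici r) - 1 / 2
      < sSup ((fun k => g k - P * k) '' Ici r) by linarith)
  simp only at hkτ
  have hrk : r ≤ k := hk
  have hiii : ∀ j, r ≤ j → g j - P * j < g k - P * k + 1 / 2 := by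
    intro j hj
    have := le_csSup hBb (⟨j, hj, rfl⟩ : g j - P * j ∈ (fun k => g k - P * k) '' Ici r)
    linarith
  have h1P : α₁ ≤ P := h12.le.trans h2P
  -- step 5
  refine ⟨k, by linarith, by linarith, ?_, ?_, ?_⟩
  · have h1 := hiii r le_rfl
    have h2 : α₂ * (k - r) ≤ P * (k - r) := mul_le_mul_of_nonneg_right h2P (by linarith)
    nlinarith
  · intro j hj
    rcases le_total r j with hrj | hjr
    · have h1 := hiii j hrj
      have h2 : α₁ * (k - j) ≤ P * (k - j) := mul_le_mul_of_nonneg_right h1P (by linarith [hj.2])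
      nlinarith
    · have h1 := hii j ⟨hj.1, hjr⟩
      have h2 := hiii r le_rfl
      have h3 : α₁ * (k - r) ≤ P * (k - r) := mul_le_mul_of_nonneg_right h1P (by linarith)
      nlinarith
  · intro j hj
    have h1 := hiii j (hrk.trans hj)
    nlinarith

end Claimed.Agent.R269
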