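/-
Row 269, Theorem 6.7, step (A2): EXISTENCE OF SCALES.   Blueprint: helper151.   LEAF LF-S6-U-scale (this file; fill IN PLACE).
Black boxes: `s6u_records` (SuperRec.lean), `s6u_one_le_rowMax` (SuperRow.lean), `ShapeBasic.lean` (`sb_bdd_f`, `sb_bdd_q`, `sb_M_le_rowMax`, `sb_mem_D_iff`, `sb_Hr_pos`, `sb_bddAbove_M`).

`Sh.order = limsup (fun k : ℝ => ((Sh.growth k / k : ℝ) : EReal)) atTop`,  `Sh.growth k = log (Sh.rowMax (Hr - e^{-k}))`,  `Sh.rowMax h = ⨆ x, M ⟨x,h⟩`.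

PROOF.  `order` is a real number `ϱ > 1` (`EReal`: `1 < order < ⊤`; `EReal.coe_toReal`).  Take `α₁ = (2 + ϱ)/3`, `α₂ = (1 + 2ϱ)/3`, `P' = ϱ + 1`, `P = ϱ + 2`:  `1 < α₁ < α₂ < ϱ < P' < P`.
* `Filter.frequently_lt_of_lt_limsup` (in the complete lattice `EReal` the boundedness side conditions are `isBoundedDefault`/`by isBoundedDefault`): `∃ᶠ k, α₂ < growth k / k`; with `∀ᶠ k, 0 < k`: `∃ᶠ k, α₂ k < growth k`.
* `Filter.eventually_lt_of_limsup_lt`: `∀ᶠ k, growth k / k < P'`, so `∀ᶠ k, growth k ≤ P' k`.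
Fix `δb`, `N`; `k₀ = - log δb` (`e^{-k} ≤ δb ⇔ k₀ ≤ k`).
* `hbdd`: for `k ∈ [k₀,K]`, `h = Hr - e^{-k} ∈ [Hr - δb, Hr - e^{-K}]`, so `|h| ≤ Hr - e^{-K} < Hr`; `sb_bdd_f`, `sb_bdd_q` bound `M` there by `M₀`; `rowMax h ≤ M₀` (`ciSup_le`), `1 ≤ rowMax h`; `growth k ≤ log M₀`.
* `s6u_records` with `K₁` so large that for `k ≥ K₁`:  `0 < k`, `growth k ≤ P' k`, `N e^{-k} ≤ 1`, `N ≤ e^{α₂ k - 1}`, `N (1 + P' k) ≤ e^{(α₂ - 1) k - 1}` (all "eventually": exponentials beat linear functions,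
  e.g. `Real.tendsto_exp_div_pow_atTop`/`Real.add_one_le_exp`/`tendsto_..._atTop`; combine with `Filter.Eventually.and`, `eventually_atTop`).
* `d = e^{-k}`, `m = e^{growth k} = rowMax (Hr - d)` (`Real.exp_log`, `rowMax ≥ 1 > 0`).   `log m = growth k ≤ P' k`, `d m = e^{growth k - k} ≥ e^{(α₂-1)k - 1}`.
* `env`: let `δ = s9dep s ∈ (0, δb]`, `j = - log δ ≥ k₀`, `Im s = Hr - e^{-j}`, `s ∈ D`.  `M s ≤ rowMax (Im s) = e^{growth j}`.  `δ/d = e^{k-j}`, so `(δ/d)^{-α₁} = e^{α₁ (j-k)}`, `(δ/d)^{-P} = e^{P (j-k)}` (`Real.exp_mul`/`Real.rpow_def_of_pos`/`Real.exp_log`).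
  If `j ≤ k`: `e^{growth j} ≤ e · m · e^{α₁ (j-k)}`; if `j ≥ k`: `≤ e · m · e^{P (j-k)}`; `e ≤ 3` (`Real.exp_one_lt_d9`); `le_max_left/right`.
* `top`: `m/2 < m = ⨆ x, M ⟨x, Hr - d⟩`: `exists_lt_of_lt_ciSup`; `s8pt x d = ⟨x, Hr - d⟩` by definition.
-/
import Claimed.Agent.R269.S6.SuperDefs
import Claimed.Agent.R269.S6.SuperRec
import Claimed.Agent.R269.S6.SuperRow

set_option autoImplicit false

namespace Claimed.Agent.R269

open Complex Filter Topology Set Metric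
open scoped ENNReal Real

theorem s6u_lin_le_exp (a b A B : ℝ) (ha : 0 < a) :
    ∀ᶠ k : ℝ in atTop, A + B * k ≤ Real.exp (a * k + b) := by
  have h0 := (isLittleO_pow_exp_pos_mul_atTop 0 ha).const_mul_left A
  have h1 := (isLittleO_pow_exp_pos_mul_atTop 1 ha).const_mul_left B
  have h2 := (h0.add h1).def (Real.exp_pos b)
  filter_upwards [h2] with k hk
  simp only [pow_zero, mul_one, pow_one, Real.norm_eq_abs, Real.abs_exp] at hk
  calc A + B * k ≤ |A + B * k| := le_abs_self _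
    _ ≤ _ := hk
    _ = _ := by rw [Real.exp_add]; ring

/-- LEAF A2: scales exist. -/
theorem Shape.s6u_scales (Sh : Shape) (hH : Sh.H ≠ ⊤) (h1 : 1 < Sh.order) (h2 : Sh.order < ⊤) :
    ∃ α₁ P : ℝ, 1 < α₁ ∧ α₁ < P ∧ ∀ δb : ℝ, 0 < δb → δb < Sh.Hr → ∀ N : ℝ, ∃ d m : ℝ,
      Sh.S6USc α₁ P δb d m ∧ N * d ≤ 1 ∧ N ≤ m ∧ N * (1 + Real.log m) ≤ d * m := by
  set ϱ : ℝ := Sh.order.toReal with hϱdef
  have hϱ : (ϱ : EReal) = Sh.order :=
    EReal.coe_toReal h2.ne (ne_bot_of_gt h1)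
  have hϱ1 : 1 < ϱ := by
    have : ((1 : ℝ) : EReal) < (ϱ : EReal) := by rw [hϱ]; exact_mod_cast h1
    exact EReal.coe_lt_coe_iff.1 this
  set α₁ : ℝ := (2 + ϱ) / 3 with hα₁
  set α₂ : ℝ := (1 + 2 * ϱ) / 3 with hα₂
  set P' : ℝ := ϱ + 1 with hP'
  set P : ℝ := ϱ + 2 with hPdef
  have h1α₁ : 1 < α₁ := by rw [hα₁]; linarith
  have h12 : α₁ < α₂ := by rw [hα₁, hα₂]; linarith
  have h2ϱ : α₂ < ϱ := by rw [hα₂]; linarith
  have h2P : α₂ ≤ P := by rw [hPdef]; linarith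
  have hPP : P' < P := by rw [hP', hPdef]; linarith
  have hfreq : ∃ᶠ k in atTop, α₂ * k < Sh.growth k := by
    have hlt : ((α₂ : ℝ) : EReal) < Filter.limsup (fun k : ℝ => ((Sh.growth k / k : ℝ) : EReal)) atTop := by
      have : ((α₂ : ℝ) : EReal) < (ϱ : EReal) := EReal.coe_lt_coe_iff.2 h2ϱ
      rw [hϱ] at this
      exact this
    have h3 := Filter.frequently_lt_of_lt_limsup (by isBoundedDefault) hlt
    refine (h3.and_eventually (eventually_gt_atTop (0 : ℝ))).mono ?_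
    rintro k ⟨hk1, hk2⟩
    have := EReal.coe_lt_coe_iff.1 hk1
    rwa [lt_div_iff₀ hk2] at this
  have hev : ∀ᶠ k in atTop, Sh.growth k ≤ P' * k := by
    have hlt : Filter.limsup (fun k : ℝ => ((Sh.growth k / k : ℝ) : EReal)) atTop < ((P' : ℝ) : EReal) := by
      have : (ϱ : EReal) < ((P' : ℝ) : EReal) := EReal.coe_lt_coe_iff.2 (by rw [hP']; linarith)
      rw [hϱ] at this
      exact this
    have h3 := Filter.eventually_lt_of_limsup_lt hlt (by isBoundedDefault)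
    filter_upwards [h3, eventually_gt_atTop (0 : ℝ)] with k hk1 hk2
    have := EReal.coe_lt_coe_iff.1 hk1
    rw [div_lt_iff₀ hk2] at this
    exact this.le
  refine ⟨α₁, P, h1α₁, by linarith, ?_⟩
  intro δb hδb hδbH N₀
  set N : ℝ := max N₀ 0 with hN
  have hN0 : 0 ≤ N := le_max_right _ _
  have hNN : N₀ ≤ N := le_max_left _ _
  set k₀ : ℝ := -Real.log δb with hk₀
  have hexpk₀ : ∀ k, k₀ ≤ k → Real.exp (-k) ≤ δb := by
    intro k hk
    calc Real.exp (-k) ≤ Real.exp (-k₀) := Real.exp_le_exp.2 (by linarith)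
      _ = δb := by rw [hk₀, neg_neg, Real.exp_log hδb]
  have hrow : ∀ k, k₀ ≤ k → |Sh.Hr - Real.exp (-k)| < Sh.Hr := by
    intro k hk
    have h3 := hexpk₀ k hk
    have h4 := Real.exp_pos (-k)
    rw [abs_lt]
    constructor <;> linarith
  have hrm : ∀ k, k₀ ≤ k → 1 ≤ Sh.rowMax (Sh.Hr - Real.exp (-k)) :=
    fun k hk => Sh.s6u_one_le_rowMax hH _ (hrow k hk)
  have hexpg : ∀ k, k₀ ≤ k → Real.exp (Sh.growth k) = Sh.rowMax (Sh.Hr - Real.exp (-k)) := by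
    intro k hk
    rw [Shape.growth, Real.exp_log (by linarith [hrm k hk])]
  have hbdd : ∀ K : ℝ, ∃ C : ℝ, ∀ k ∈ Icc k₀ K, Sh.growth k ≤ C := by
    intro K
    have hc : Sh.Hr - Real.exp (-K) < Sh.Hr := by linarith [Real.exp_pos (-K)]
    obtain ⟨Mf, hMf⟩ := Sh.sb_bdd_f hH hc
    obtain ⟨Mq, hMq⟩ := Sh.sb_bdd_q hH hc
    refine ⟨Real.log (max Mf (Real.sqrt Mq)), fun k hk => ?_⟩
    have h3 := hexpk₀ k hk.1
    have h4 : Real.exp (-K) ≤ Real.exp (-k) := Real.exp_le_exp.2 (by linarith [hk.2])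
    have habs : |Sh.Hr - Real.exp (-k)| ≤ Sh.Hr - Real.exp (-K) := by
      rw [abs_of_nonneg (by linarith)]
      linarith
    rw [Shape.growth]
    refine Real.log_le_log (by linarith [hrm k hk.1]) ?_
    rw [Shape.rowMax]
    refine ciSup_le fun x => ?_
    exact max_le_max (hMf _ habs) (Real.sqrt_le_sqrt (hMq _ habs))
  -- choice of `K₁`
  have hE : ∀ᶠ k : ℝ in atTop, 0 < k ∧ Sh.growth k ≤ P' * k ∧ N + 0 * k ≤ Real.exp (1 * k + 0) ∧
      N + 0 * k ≤ Real.exp (α₂ * k + (-1)) ∧ N + (N * P') * k ≤ Real.exp ((α₂ - 1) * k + (-1)) :=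
    (eventually_gt_atTop (0 : ℝ)).and (hev.and ((s6u_lin_le_exp 1 0 N 0 one_pos).and
      ((s6u_lin_le_exp α₂ (-1) N 0 (by linarith)).and
        (s6u_lin_le_exp (α₂ - 1) (-1) N (N * P') (by linarith)))))
  obtain ⟨K₁, hK₁⟩ := eventually_atTop.1 hE
  obtain ⟨k, hkK, hkk₀, hg1, hg2, hg3⟩ :=
    s6u_records Sh.growth α₁ α₂ P' P k₀ h12 h2P hPP hbdd hfreq hev K₁
  obtain ⟨hk0, hkP', hka, hkb, hkc⟩ := hK₁ k hkK
  have hm : Real.exp (Sh.growth k) = Sh.rowMax (Sh.Hr - Real.exp (-k)) := hexpg k hkk₀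
  have hlogm : Real.log (Real.exp (Sh.growth k)) = Sh.growth k := Real.log_exp _
  have hg0 : 0 ≤ 1 + Sh.growth k := by
    have : 0 < α₂ * k := mul_pos (by linarith) hk0
    linarith
  refine ⟨Real.exp (-k), Real.exp (Sh.growth k), ⟨Real.exp_pos _, Real.exp_pos _, ?_, ?_⟩, ?_, ?_, ?_⟩
  · -- envelope
    intro s hs0 hsb
    set δ : ℝ := Sh.s9dep s with hδ
    set j : ℝ := -Real.log δ with hj
    have hej : Real.exp (-j) = δ := by rw [hj, neg_neg, Real.exp_log hs0]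
    have hjk₀ : k₀ ≤ j := by
      rw [hk₀, hj]
      exact neg_le_neg (Real.log_le_log hs0 hsb)
    have him : s.im = Sh.Hr - Real.exp (-j) := by
      rw [hej, hδ, Shape.s9dep]; ring
    have hsD : s ∈ Sh.D := by
      rw [Sh.sb_mem_D_iff hH, him]
      exact hrow j hjk₀
    have hM : Sh.M s ≤ Real.exp (Sh.growth j) := by
      rw [hexpg j hjk₀, ← him]
      exact Sh.sb_M_le_rowMax hH hsD
    have hquot : δ / Real.exp (-k) = Real.exp (k - j) := by
      rw [← hej, ← Real.exp_sub]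
      congr 1; ring
    have hpow : ∀ a : ℝ, (δ / Real.exp (-k)) ^ (-a) = Real.exp (a * (j - k)) := by
      intro a
      rw [hquot, ← Real.exp_mul]
      congr 1; ring
    have he3 : Real.exp 1 ≤ 3 := by
      have := Real.exp_one_lt_d9
      linarith
    have hstep : ∀ a : ℝ, Sh.growth j ≤ Sh.growth k + 1 + a * (j - k) →
        Real.exp (Sh.growth j) ≤ 3 * Real.exp (Sh.growth k) * (δ / Real.exp (-k)) ^ (-a) := by
      intro a ha
      rw [hpow a]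
      calc Real.exp (Sh.growth j) ≤ Real.exp (Sh.growth k + 1 + a * (j - k)) := Real.exp_le_exp.2 ha
        _ = Real.exp 1 * Real.exp (Sh.growth k) * Real.exp (a * (j - k)) := by
            rw [Real.exp_add, Real.exp_add]; ring
        _ ≤ 3 * Real.exp (Sh.growth k) * Real.exp (a * (j - k)) := by
            gcongr
    have h3m : 0 ≤ 3 * Real.exp (Sh.growth k) := by positivity
    refine hM.trans ?_
    rcases le_total j k with hjk | hjk
    · refine (hstep α₁ (hg2 j ⟨hjk₀, hjk⟩)).trans ?_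
      exact mul_le_mul_of_nonneg_left (le_max_left _ _) h3m
    · refine (hstep P (hg3 j hjk)).trans ?_
      exact mul_le_mul_of_nonneg_left (le_max_right _ _) h3m
  · -- top
    have hlt : Real.exp (Sh.growth k) / 2 < ⨆ x : ℝ, Sh.M (⟨x, Sh.Hr - Real.exp (-k)⟩ : ℂ) := by
      have : Real.exp (Sh.growth k) = ⨆ x : ℝ, Sh.M (⟨x, Sh.Hr - Real.exp (-k)⟩ : ℂ) := hm
      rw [← this]
      linarith [Real.exp_pos (Sh.growth k)]
    obtain ⟨x, hx⟩ := exists_lt_of_lt_ciSup hlt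
    exact ⟨x, hx.le⟩
  · have h3 : N * Real.exp (-k) ≤ 1 := by
      calc N * Real.exp (-k) ≤ Real.exp k * Real.exp (-k) := by
            refine mul_le_mul_of_nonneg_right ?_ (Real.exp_pos _).le
            simpa using hka
        _ = 1 := by rw [← Real.exp_add]; simp
    exact (mul_le_mul_of_nonneg_right hNN (Real.exp_pos _).le).trans h3
  · refine hNN.trans ?_
    calc N ≤ Real.exp (α₂ * k + -1) := by simpa using hkb
      _ ≤ _ := Real.exp_le_exp.2 (by linarith)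
  · rw [hlogm]
    calc N₀ * (1 + Sh.growth k) ≤ N * (1 + Sh.growth k) := mul_le_mul_of_nonneg_right hNN hg0
      _ ≤ N * (1 + P' * k) := mul_le_mul_of_nonneg_left (by linarith) hN0
      _ = N + (N * P') * k := by ring
      _ ≤ Real.exp ((α₂ - 1) * k + -1) := hkc
      _ ≤ Real.exp (-k + Sh.growth k) := Real.exp_le_exp.2 (by linarith)
      _ = _ := Real.exp_add _ _

end Claimed.Agent.R269
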