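/-
Row 269, **P1 Theorem 6.7 (exclusion of finite superlinear growth)**: final assembly (glue).   Owner: helper151.
Export: `Shape.s6u_not_superlinear` = `Shape.not_superlinear` of Stage3.lean, verbatim.

(F1) `s6u_W_small`: `Φ = i V + κ` has `Re Φ = P + κ ≥ 0` at the depths `[d/2, 2 R d]`; Harnack on `ball (depth R d) ((R - 1/2) d)`, gradient bound on `ball z (d/4)`; `V' = (W - Wm)/120`.
(F2) `s6u_final`: `s8_disk_bound`, `s8_disk_bound_q` on `ball y₀ (d/4)`.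
Order of the constants:  `α₁, P` (scales);  `α = 3/4`, `δb = H/4`;  `L, ε₁, d₁, C` (`s8_onesided_pt`);  `C₀` (`s6u_P_upper`);  `R`;  `ε₂`;  `T`;  `c₁`;  `R₀`;  `η`;  `N₀` (`s6u_quiet`);  `N`;  the scale `(d,m)`.
-/
import Claimed.Agent.R269.S6.SuperScale
import Claimed.Agent.R269.S6.SuperQuiet
import Claimed.Agent.R269.S6.SuperCone
import Claimed.Agent.R269.S6.SuperPup
import Claimed.Agent.R269.S6.SuperHar

set_option autoImplicit false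

namespace Claimed.Agent.R269

open Complex Filter Topology Set Metric
open scoped ENNReal Real

namespace Shape

variable (Sh : Shape)

theorem s6u_dep_of_ball {c w : ℂ} {r : ℝ} (hw : w ∈ ball c r) :
    Sh.s9dep c - r < Sh.s9dep w ∧ Sh.s9dep w < Sh.s9dep c + r := by
  have h1 : ‖w - c‖ < r := by simpa [dist_eq_norm] using hw
  have h2 : |(w - c).im| ≤ ‖w - c‖ := Complex.abs_im_le_norm _
  have h3 : |w.im - c.im| < r := by
    have : (w - c).im = w.im - c.im := by simp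
    rw [this] at h2; linarith
  obtain ⟨h4, h5⟩ := abs_lt.1 h3
  unfold Shape.s9dep
  constructor <;> linarith

theorem s6u_mem_D_of_dep (hH : Sh.H ≠ ⊤) {w : ℂ} (h1 : 0 < Sh.s9dep w) (h2 : Sh.s9dep w < Sh.Hr) : w ∈ Sh.D := by
  rw [Sh.sb_mem_D_iff hH, abs_lt]
  unfold Shape.s9dep at h1 h2
  constructor <;> linarith

theorem s6u_dep_pt (x δ : ℝ) : Sh.s9dep (Sh.s8pt x δ) = δ := by
  simp [Shape.s9dep, Shape.s8pt]

/-- (F2) -/
theorem s6u_final (hH : Sh.H ≠ ⊤) (d m x : ℝ) (hd : 0 < d) (hdH : 2 * d < Sh.Hr) (hm : 0 < m)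
    (htop : m / 2 ≤ Sh.M (Sh.s8pt x d))
    (hW : ∀ z ∈ ball (Sh.s8pt x d) (d / 4), ‖Sh.W z - Sh.s9Wm‖ ≤ m ^ 2 / 64)
    (hb : 363 ≤ d * m) (hWm : 64 * ‖Sh.s9Wm‖ ≤ m ^ 2) : False := by
  set y₀ := Sh.s8pt x d with hy₀
  have hsub : ball y₀ (d / 4) ⊆ Sh.D := by
    intro w hw
    obtain ⟨h1, h2⟩ := Sh.s6u_dep_of_ball hw
    rw [hy₀, Sh.s6u_dep_pt] at h1 h2
    exact Sh.s6u_mem_D_of_dep hH (by linarith) (by linarith)
  set B : ℝ := m ^ 2 / 64 + m ^ 2 / 64 with hB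
  have hWB : ∀ z ∈ ball y₀ (d / 4), ‖Sh.W z‖ ≤ B := by
    intro z hz
    have h1 := hW z hz
    have h2 : ‖Sh.W z‖ ≤ ‖Sh.W z - Sh.s9Wm‖ + ‖Sh.s9Wm‖ := by
      have := norm_add_le (Sh.W z - Sh.s9Wm) Sh.s9Wm
      simpa using this
    rw [hB]; linarith
  have hd4 : 0 < d / 4 := by positivity
  have hc : y₀ ∈ ball y₀ (d / 4 / 2) := mem_ball_self (by positivity)
  have hf := s8_disk_bound Sh.f Sh.q Sh.W y₀ (d / 4) B hd4 (Sh.sb_f_diff.mono hsub)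
    (fun z hz => Sh.sb_f_ode z (hsub hz)) (fun z _ => rfl) hWB y₀ hc
  have hq := s8_disk_bound_q Sh.f Sh.q Sh.W y₀ (d / 4) B hd4 (Sh.sb_f_diff.mono hsub)
    (fun z hz => Sh.sb_f_ode z (hsub hz)) (fun z _ => rfl) hWB y₀ hc
  have hd2 : 0 < d ^ 2 := by positivity
  have hbb : 131072 ≤ d ^ 2 * m ^ 2 := by
    have : (363 : ℝ) * 363 ≤ (d * m) * (d * m) := mul_le_mul hb hb (by norm_num) (by positivity)
    nlinarith
  have h8192 : 8192 / d ^ 2 ≤ m ^ 2 / 16 := by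
    rw [div_le_div_iff₀ hd2 (by norm_num)]
    linarith
  have e1 : 512 / (d / 4) ^ 2 = 8192 / d ^ 2 := by field_simp; norm_num
  have e2 : 64 / (d / 4) ^ 2 = 1024 / d ^ 2 := by field_simp; norm_num
  have h1024 : 1024 / d ^ 2 ≤ 8192 / d ^ 2 := by gcongr; norm_num
  rw [e1] at hf
  rw [e2] at hq
  have hm2 : 0 < m ^ 2 := by positivity
  have hMsq : Sh.M y₀ ^ 2 ≤ 3 * m ^ 2 / 16 := by
    unfold Shape.M
    rcases le_total ‖Sh.f y₀‖ (Real.sqrt ‖Sh.q y₀‖) with h | h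
    · rw [max_eq_right h, Real.sq_sqrt (norm_nonneg _)]
      rw [hB] at hq; linarith
    · rw [max_eq_left h]
      rw [hB] at hf; linarith
  have h4 : (m / 2) ^ 2 ≤ Sh.M y₀ ^ 2 := by
    apply pow_le_pow_left₀ (by positivity) htop
  nlinarith

/-- (F1) -/
theorem s6u_W_small (hH : Sh.H ≠ ⊤) (d R κ U x : ℝ) (hd : 0 < d) (hR : 1 ≤ R) (hRd : 2 * R * d < Sh.Hr)
    (hlow : ∀ y : ℂ, d / 2 ≤ Sh.s9dep y → Sh.s9dep y ≤ 2 * R * d → -κ ≤ Sh.s9P y)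
    (hup : Sh.s9P (Sh.s8pt x (R * d)) ≤ U) :
    ∀ z ∈ ball (Sh.s8pt x d) (d / 4), ‖Sh.W z - Sh.s9Wm‖ ≤ 15360 * R * (U + κ) / d := by
  intro z hz
  have hdR : d ≤ R * d := le_mul_of_one_le_left hd.le hR
  set Φ : ℂ → ℂ := fun w => I * Sh.s9V w + (κ : ℂ) with hΦ
  have hre : ∀ w, (Φ w).re = Sh.s9P w + κ := by
    intro w; simp [hΦ, Shape.s9P]
  have hder : ∀ w ∈ Sh.D, HasDerivAt Φ (I * ((Sh.W w - Sh.s9Wm) / 120)) w := by
    intro w hw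
    exact ((Sh.s8i_V_deriv w hw).const_mul I).add_const _
  set yc := Sh.s8pt x (R * d) with hyc
  set y₀ := Sh.s8pt x d with hy₀
  set ρ : ℝ := (R - 1 / 2) * d with hρ
  -- the big disc
  have hbig : ∀ w ∈ ball yc ρ, d / 2 ≤ Sh.s9dep w ∧ Sh.s9dep w ≤ 2 * R * d := by
    intro w hw
    obtain ⟨h1, h2⟩ := Sh.s6u_dep_of_ball hw
    rw [hyc, Sh.s6u_dep_pt, hρ] at h1 h2
    constructor <;> nlinarith
  have hbigD : ball yc ρ ⊆ Sh.D := by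
    intro w hw
    obtain ⟨h1, h2⟩ := hbig w hw
    exact Sh.s6u_mem_D_of_dep hH (by linarith) (by linarith)
  have hdiff1 : DifferentiableOn ℂ Φ (ball yc ρ) := fun w hw =>
    (hder w (hbigD hw)).differentiableAt.differentiableWithinAt
  have hpos1 : ∀ w ∈ ball yc ρ, 0 ≤ (Φ w).re := by
    intro w hw
    obtain ⟨h1, h2⟩ := hbig w hw
    rw [hre]; linarith [hlow w h1 h2]
  -- position of z
  have hzy : ‖z - y₀‖ < d / 4 := by simpa [dist_eq_norm] using hz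
  have hyy : ‖y₀ - yc‖ = (R - 1) * d := by
    have e : y₀ - yc = (((R - 1) * d : ℝ) : ℂ) * I := by
      apply Complex.ext <;> simp [hy₀, hyc, Shape.s8pt]
      ring
    rw [e, norm_mul, Complex.norm_I, mul_one, Complex.norm_real, Real.norm_eq_abs, abs_of_nonneg]
    have : 0 ≤ R - 1 := by linarith
    positivity
  have hs : ‖z - yc‖ < (R - 3 / 4) * d := by
    have e : z - yc = (z - y₀) + (y₀ - yc) := by ring
    calc ‖z - yc‖ = ‖(z - y₀) + (y₀ - yc)‖ := by rw [e]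
      _ ≤ ‖z - y₀‖ + ‖y₀ - yc‖ := norm_add_le _ _
      _ < d / 4 + (R - 1) * d := by rw [hyy]; linarith
      _ = (R - 3 / 4) * d := by ring
  have hzb : z ∈ ball yc ρ := by
    rw [mem_ball, dist_eq_norm, hρ]; nlinarith
  have hH1 := s6u_harnack Φ yc ρ hdiff1 hpos1 z hzb
  have hyc0 : yc ∈ ball yc ρ := by
    apply mem_ball_self; rw [hρ]
    have : 0 < R - 1 / 2 := by linarith
    positivity
  have hc0 : 0 ≤ (Φ yc).re := hpos1 yc hyc0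
  have hcU : (Φ yc).re ≤ U + κ := by rw [hre]; linarith
  have hratio : (ρ + ‖z - yc‖) / (ρ - ‖z - yc‖) ≤ 8 * R := by
    have h1 : d / 4 < ρ - ‖z - yc‖ := by rw [hρ]; nlinarith
    have h2 : ρ + ‖z - yc‖ ≤ 2 * R * d := by rw [hρ]; nlinarith
    rw [div_le_iff₀ (by linarith)]
    have h3 : 8 * R * (d / 4) ≤ 8 * R * (ρ - ‖z - yc‖) := by
      apply mul_le_mul_of_nonneg_left h1.le; linarith
    linarith
  have hz1 : (Φ z).re ≤ 8 * R * (U + κ) := by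
    calc (Φ z).re ≤ (ρ + ‖z - yc‖) / (ρ - ‖z - yc‖) * (Φ yc).re := hH1
      _ ≤ 8 * R * (Φ yc).re := mul_le_mul_of_nonneg_right hratio hc0
      _ ≤ 8 * R * (U + κ) := mul_le_mul_of_nonneg_left hcU (by linarith)
  -- the small disc
  obtain ⟨hz3, hz4⟩ := Sh.s6u_dep_of_ball hz
  rw [hy₀, Sh.s6u_dep_pt] at hz3 hz4
  have hsmall : ∀ w ∈ ball z (d / 4), d / 2 ≤ Sh.s9dep w ∧ Sh.s9dep w ≤ 2 * R * d := by
    intro w hw
    obtain ⟨h1, h2⟩ := Sh.s6u_dep_of_ball hw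
    constructor <;> linarith
  have hsmallD : ball z (d / 4) ⊆ Sh.D := by
    intro w hw
    obtain ⟨h1, h2⟩ := hsmall w hw
    exact Sh.s6u_mem_D_of_dep hH (by linarith) (by linarith)
  have hdiff2 : DifferentiableOn ℂ Φ (ball z (d / 4)) := fun w hw =>
    (hder w (hsmallD hw)).differentiableAt.differentiableWithinAt
  have hpos2 : ∀ w ∈ ball z (d / 4), 0 ≤ (Φ w).re := by
    intro w hw
    obtain ⟨h1, h2⟩ := hsmall w hw
    rw [hre]; linarith [hlow w h1 h2]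
  have hG := s6u_grad Φ z (d / 4) (by positivity) hdiff2 hpos2
  have hzD : z ∈ Sh.D := hsmallD (mem_ball_self (by positivity))
  rw [(hder z hzD).deriv, norm_mul, Complex.norm_I, one_mul, norm_div] at hG
  have h120 : ‖(120 : ℂ)‖ = 120 := by simp
  rw [h120, div_le_iff₀ (by norm_num)] at hG
  calc ‖Sh.W z - Sh.s9Wm‖ ≤ 4 * (Φ z).re / (d / 4) * 120 := hG
    _ = 1920 * (Φ z).re / d := by field_simp; ring
    _ ≤ 1920 * (8 * R * (U + κ)) / d := by gcongr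
    _ = 15360 * R * (U + κ) / d := by ring

/-- choice of the constants `R, ε₂, T, c₁, R₀, η`. -/
theorem s6u_consts (α₁ P ε₁ C : ℝ) (hα₁ : 1 < α₁) (hε₁ : 0 < ε₁) (hC : 0 < C) :
    ∃ R ε₂ T c₁ R₀ η : ℝ, 1 ≤ R ∧ 0 < ε₂ ∧ 0 < T ∧ 0 < c₁ ∧ c₁ ≤ 1 ∧ 1 ≤ R₀ ∧ 0 < η ∧
      15360 * R ^ (2 - 2 * α₁) ≤ 1 / 192 ∧ 6 * ε₂ * (40 : ℝ) ^ P ≤ ε₁ ∧ T ≤ ε₂ / 2 ∧
      15360 * R * (c₁ / T ^ 2 + 2 * R * C * T ^ 2 / ε₂ ^ 4) ≤ 1 / 192 ∧
      2 * T * η ≤ ε₁ * (c₁ / R₀) ^ (3 / 4 : ℝ) ∧ 6 * T ≤ ε₁ * c₁ ^ (3 / 4 : ℝ) * R₀ ^ (α₁ - 3 / 4) := by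
  -- R
  have hy : 0 < 2 * α₁ - 2 := by linarith
  have ht := tendsto_rpow_neg_atTop hy
  have hev : ∀ᶠ R : ℝ in atTop, R ^ (-(2 * α₁ - 2)) < 1 / (15360 * 192) :=
    ht.eventually (gt_mem_nhds (by norm_num))
  obtain ⟨R, hR1, hR2⟩ := ((eventually_ge_atTop (1 : ℝ)).and hev).exists
  have hRpos : 0 < R := by linarith
  have hR3 : 15360 * R ^ (2 - 2 * α₁) ≤ 1 / 192 := by
    have e : (2 - 2 * α₁) = -(2 * α₁ - 2) := by ring
    rw [e]
    have := hR2.le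
    rw [le_div_iff₀ (by norm_num)] at this
    linarith
  -- ε₂
  have h40 : 0 < (40 : ℝ) ^ P := by positivity
  set ε₂ : ℝ := ε₁ / (6 * (40 : ℝ) ^ P) with hε₂
  have hε₂pos : 0 < ε₂ := by positivity
  have hε₂' : 6 * ε₂ * (40 : ℝ) ^ P ≤ ε₁ := by
    rw [hε₂]; apply le_of_eq; field_simp
  -- T
  set A : ℝ := 15360 * R * (2 * R * C / ε₂ ^ 4) with hA
  have hApos : 0 < A := by positivity
  set T : ℝ := min (ε₂ / 2) (min 1 (1 / (384 * A))) with hT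
  have hTpos : 0 < T := by
    rw [hT]; refine lt_min (by positivity) (lt_min one_pos (by positivity))
  have hT1 : T ≤ ε₂ / 2 := min_le_left _ _
  have hT2 : T ≤ 1 := (min_le_right _ _).trans (min_le_left _ _)
  have hT3 : T ≤ 1 / (384 * A) := (min_le_right _ _).trans (min_le_right _ _)
  have hT4 : A * T ^ 2 ≤ 1 / 384 := by
    have h1 : T ^ 2 ≤ T := by nlinarith
    have h2 : A * T ≤ 1 / 384 := by
      rw [le_div_iff₀ (by positivity)] at hT3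
      rw [le_div_iff₀ (by norm_num)]
      linarith
    calc A * T ^ 2 ≤ A * T := by gcongr
      _ ≤ 1 / 384 := h2
  -- c₁
  set c₁ : ℝ := min 1 (T ^ 2 / (15360 * 384 * R)) with hc₁
  have hc₁pos : 0 < c₁ := by
    rw [hc₁]; exact lt_min one_pos (by positivity)
  have hc₁1 : c₁ ≤ 1 := min_le_left _ _
  have hc₁2 : c₁ ≤ T ^ 2 / (15360 * 384 * R) := min_le_right _ _
  have hc₁3 : 15360 * R * (c₁ / T ^ 2) ≤ 1 / 384 := by
    rw [le_div_iff₀ (by positivity)] at hc₁2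
    have hT2pos : 0 < T ^ 2 := by positivity
    have : 15360 * R * (c₁ / T ^ 2) = (c₁ * (15360 * 384 * R)) / T ^ 2 / 384 := by
      field_simp
    rw [this]
    apply div_le_div_of_nonneg_right _ (by norm_num)
    rw [div_le_one hT2pos]; exact hc₁2
  have hκ : 15360 * R * (c₁ / T ^ 2 + 2 * R * C * T ^ 2 / ε₂ ^ 4) ≤ 1 / 192 := by
    have e : 15360 * R * (c₁ / T ^ 2 + 2 * R * C * T ^ 2 / ε₂ ^ 4)
        = 15360 * R * (c₁ / T ^ 2) + A * T ^ 2 := by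
      rw [hA]; ring
    rw [e]
    linarith
  -- R₀
  have hy2 : 0 < α₁ - 3 / 4 := by linarith
  have hc34 : 0 < c₁ ^ (3 / 4 : ℝ) := by positivity
  have ht2 := tendsto_rpow_atTop hy2
  have hev2 : ∀ᶠ R₀ : ℝ in atTop, 6 * T / (ε₁ * c₁ ^ (3 / 4 : ℝ)) ≤ R₀ ^ (α₁ - 3 / 4) :=
    ht2.eventually (eventually_ge_atTop _)
  obtain ⟨R₀, hR₀1, hR₀2⟩ := ((eventually_ge_atTop (1 : ℝ)).and hev2).exists
  have hR₀pos : 0 < R₀ := by linarith
  have hR₀3 : 6 * T ≤ ε₁ * c₁ ^ (3 / 4 : ℝ) * R₀ ^ (α₁ - 3 / 4) := by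
    rw [div_le_iff₀ (by positivity)] at hR₀2
    linarith
  -- η
  set η : ℝ := ε₁ * (c₁ / R₀) ^ (3 / 4 : ℝ) / (2 * T) with hη
  have hηpos : 0 < η := by positivity
  have hη' : 2 * T * η ≤ ε₁ * (c₁ / R₀) ^ (3 / 4 : ℝ) := by
    rw [hη]; apply le_of_eq; field_simp
  exact ⟨R, ε₂, T, c₁, R₀, η, hR1, hε₂pos, hTpos, hc₁pos, hc₁1, hR₀1, hηpos, hR3, hε₂', hT1, hκ, hη', hR₀3⟩

/-- **P1 Theorem 6.7.** -/
theorem s6u_not_superlinear (hH : Sh.H ≠ ⊤) (h1 : 1 < Sh.order) (h2 : Sh.order < ⊤) : False := by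
  obtain ⟨α₁, P, hα₁, hP, hscales⟩ := Sh.s6u_scales hH h1 h2
  have hHr := Sh.sb_Hr_pos hH
  set δb : ℝ := Sh.Hr / 4 with hδb
  have hδb0 : 0 < δb := by positivity
  have hδb1 : δb < Sh.Hr / 2 := by rw [hδb]; linarith
  have hδb2 : δb < Sh.Hr := by linarith
  obtain ⟨L, ε₁, d₁, C, hL, hε₁, hd₁, hC, hO'⟩ :=
    Sh.s8_onesided_pt hH (3 / 4) δb (by norm_num) (by norm_num) hδb0 hδb1
  have hO : Sh.S6UOne (3 / 4) δb L ε₁ d₁ C := hO'
  obtain ⟨C₀, hC₀, hPup⟩ := Sh.s6u_P_upper hH α₁ P δb hα₁ hP hδb0 hδb2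
  obtain ⟨R, ε₂, T, c₁, R₀, η, hR, hε₂, hT, hc₁, hc₁', hR₀, hη, hR3, hε₂', hTε, hκ, hη', hR₀'⟩ :=
    s6u_consts α₁ P ε₁ C hα₁ hε₁ hC
  obtain ⟨N₀, hquiet⟩ := Sh.s6u_quiet hH α₁ P δb (c₁ / 20) R₀ L η (by linarith) hP hδb0 hδb2 (by positivity)
    (by linarith) hR₀ hL.le hη
  have hRpos : 0 < R := by linarith
  -- the threshold
  set N : ℝ := |N₀| + 1 + 2 * R / d₁ + 8 * R / Sh.Hr + 4 * T / c₁ + 4 * ε₂ + 363 + 64 * ‖Sh.s9Wm‖
    + 15360 * 192 * R * C₀ with hN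
  have p0 : 0 ≤ |N₀| := abs_nonneg _
  have p0' : N₀ ≤ |N₀| := le_abs_self _
  have p1 : 0 ≤ 2 * R / d₁ := by positivity
  have p2 : 0 ≤ 8 * R / Sh.Hr := by positivity
  have p3 : 0 ≤ 4 * T / c₁ := by positivity
  have p4 : 0 ≤ 4 * ε₂ := by positivity
  have p5 : 0 ≤ 64 * ‖Sh.s9Wm‖ := by positivity
  have p6 : 0 ≤ 15360 * 192 * R * C₀ := by positivity
  obtain ⟨d, m, hsc, hNd, hNm, hNb⟩ := hscales δb hδb0 hδb2 N
  have hd := hsc.d_pos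
  have hm := hsc.m_pos
  have hN1 : 1 ≤ N := by rw [hN]; linarith
  have hm1 : 1 ≤ m := hN1.trans hNm
  have hlogm : 0 ≤ Real.log m := Real.log_nonneg hm1
  have hb : N ≤ d * m := by
    have : N * 1 ≤ N * (1 + Real.log m) := mul_le_mul_of_nonneg_left (by linarith) (by linarith)
    linarith
  have hN₀ : N₀ ≤ N := by rw [hN]; linarith
  -- consequences of `N d ≤ 1`
  have q1 : 2 * R * d ≤ d₁ := by
    have h : 2 * R / d₁ * d ≤ N * d := mul_le_mul_of_nonneg_right (by rw [hN]; linarith) hd.le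
    have h' : 2 * R / d₁ * d ≤ 1 := h.trans hNd
    have e : 2 * R / d₁ * d = 2 * R * d / d₁ := by ring
    rw [e, div_le_one hd₁] at h'
    exact h'
  have q2 : 8 * R * d ≤ Sh.Hr := by
    have h : 8 * R / Sh.Hr * d ≤ N * d := mul_le_mul_of_nonneg_right (by rw [hN]; linarith) hd.le
    have h' : 8 * R / Sh.Hr * d ≤ 1 := h.trans hNd
    have e : 8 * R / Sh.Hr * d = 8 * R * d / Sh.Hr := by ring
    rw [e, div_le_one hHr] at h'
    exact h'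
  have hdR : d ≤ R * d := le_mul_of_one_le_left hd.le hR
  have q3 : c₁ * d ≤ d₁ := by
    have : c₁ * d ≤ 1 * d := mul_le_mul_of_nonneg_right hc₁' hd.le
    linarith
  have q4 : 4 * T ≤ c₁ * (d * m) := by
    have h : 4 * T / c₁ ≤ d * m := le_trans (by rw [hN]; linarith) hb
    rw [div_le_iff₀ hc₁] at h
    linarith
  have q5 : 4 * ε₂ ≤ d * m := le_trans (by rw [hN]; linarith) hb
  have q6 : 363 ≤ d * m := le_trans (by rw [hN]; linarith) hb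
  have hmm : m ≤ m ^ 2 := by
    have : m * 1 ≤ m * m := mul_le_mul_of_nonneg_left hm1 hm.le
    nlinarith
  have q7 : 64 * ‖Sh.s9Wm‖ ≤ m ^ 2 := le_trans (le_trans (by rw [hN]; linarith) hNm) hmm
  have q8 : 15360 * 192 * R * C₀ ≤ m ^ 2 * d := by
    have h : 15360 * 192 * R * C₀ ≤ d * m := le_trans (by rw [hN]; linarith) hb
    have h' : 1 * (d * m) ≤ m * (d * m) := mul_le_mul_of_nonneg_right hm1 (by positivity)
    calc 15360 * 192 * R * C₀ ≤ d * m := h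
      _ ≤ m * (d * m) := by linarith
      _ = m ^ 2 * d := by ring
  -- the quiet centre and the width
  obtain ⟨x₀, hx₀⟩ := hquiet d m hsc
    ((mul_le_mul_of_nonneg_right hN₀ hd.le).trans hNd) (hN₀.trans hNm)
    ((mul_le_mul_of_nonneg_right hN₀ (by linarith)).trans hNb)
  have hΔ : Sh.Δ ((T / m : ℝ) : ℂ) < c₁ * d :=
    Sh.s6u_width (3 / 4) δb L ε₁ d₁ C α₁ P T c₁ R₀ η d m x₀ hO (by norm_num) (by linarith) hP hε₁ hT hc₁ hR₀
      hsc q3 q4 hη' hR₀' (by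
        have e : c₁ * d / 20 = c₁ / 20 * d := by ring
        rw [e]; exact hx₀)
  -- the one-sided bound
  have hone := Sh.s6u_onesided (3 / 4) δb L ε₁ d₁ C α₁ P T c₁ ε₂ R d m hO (by norm_num) (by norm_num)
    (by linarith) hP hε₁ hC hT hε₂ hε₂' hTε hR hsc q1 q5 hΔ.le
  obtain ⟨x, htop⟩ := hsc.top
  have hup := hPup d m hsc R x hR (by rw [hδb]; linarith)
  have hW := Sh.s6u_W_small hH d R ((c₁ / T ^ 2 + 2 * R * C * T ^ 2 / ε₂ ^ 4) * (m ^ 2 * d))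
    (C₀ + m ^ 2 * d * R ^ (1 - 2 * α₁)) x hd hR (by linarith) hone (le_trans (le_abs_self _) hup)
  refine Sh.s6u_final hH d m x hd (by linarith) hm htop (fun z hz => (hW z hz).trans ?_) q6 q7
  have e1 : 15360 * R * (C₀ + m ^ 2 * d * R ^ (1 - 2 * α₁)
        + (c₁ / T ^ 2 + 2 * R * C * T ^ 2 / ε₂ ^ 4) * (m ^ 2 * d)) / d
      = 15360 * R * C₀ / d + (15360 * (R * R ^ (1 - 2 * α₁))) * m ^ 2
        + (15360 * R * (c₁ / T ^ 2 + 2 * R * C * T ^ 2 / ε₂ ^ 4)) * m ^ 2 := by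
    field_simp
  have e2 : R * R ^ (1 - 2 * α₁) = R ^ (2 - 2 * α₁) := by
    have : (2 - 2 * α₁) = 1 + (1 - 2 * α₁) := by ring
    rw [this, Real.rpow_add hRpos, Real.rpow_one]
  have hm2 : 0 ≤ m ^ 2 := by positivity
  have t1 : 15360 * R * C₀ / d ≤ m ^ 2 / 192 := by
    rw [div_le_div_iff₀ hd (by norm_num)]
    linarith
  have t2 : (15360 * (R * R ^ (1 - 2 * α₁))) * m ^ 2 ≤ 1 / 192 * m ^ 2 := by
    rw [e2]; exact mul_le_mul_of_nonneg_right hR3 hm2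
  have t3 : (15360 * R * (c₁ / T ^ 2 + 2 * R * C * T ^ 2 / ε₂ ^ 4)) * m ^ 2 ≤ 1 / 192 * m ^ 2 :=
    mul_le_mul_of_nonneg_right hκ hm2
  rw [e1]
  linarith

end Shape

end Claimed.Agent.R269
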